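import Vale.Agent.P006.S1
import Vale.Agent.P006.L.L4a
import Vale.Agent.P026.M.W1

/-! P006 branch S: from squarefree rows to all rows. -/

noncomputable section
open Complex
open scoped Classical ComplexConjugate

namespace Vale.Agent.P006.S
open Vale.Agent.P026 L4M

namespace ALLM

theorem N0 (n : O) : 0 ≤ N n := Nat.cast_nonneg _

theorem harm (hB : Bas) {t : ℝ} (ht : 1 ≤ t) (H : Finset O) (hH : ∀ h ∈ H, h ≠ 0 ∧ N h ≤ t) :
    ∑ h ∈ H, (N h)⁻¹ ≤ 64 * (1 + Real.log t) := by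
  set L := Nat.log 2 ⌊t⌋₊ with hL
  have hfl : ⌊t⌋₊ ≠ 0 := by
    have := Nat.floor_pos.2 ht; omega
  have hL2 : (2 : ℝ) ^ L ≤ t := by
    have a1 : ((2 ^ L : ℕ) : ℝ) ≤ (⌊t⌋₊ : ℝ) := by exact_mod_cast Nat.pow_log_le_self 2 hfl
    push_cast at a1
    exact a1.trans (Nat.floor_le (by linarith))
  have h1 : (L : ℝ) * Real.log 2 ≤ Real.log t := by
    rw [← Real.log_pow]; exact Real.log_le_log (by positivity) hL2
  have h2 := Real.log_two_gt_d9
  have h3 : (0 : ℝ) ≤ L := Nat.cast_nonneg _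
  rw [← Finset.sum_fiberwise_of_maps_to (g := fun h => Nat.log 2 (Nn h)) (t := Finset.range (L + 1))
    fun h hh => Finset.mem_range.2 (Nat.lt_succ_of_le (Nat.log_mono_right (Nat.le_floor (hH h hh).2)))]
  have hf : ∀ j ∈ Finset.range (L + 1), ∑ h ∈ H with Nat.log 2 (Nn h) = j, (N h)⁻¹ ≤ 32 := by
    intro j _
    have key : ∀ h ∈ H.filter fun h => Nat.log 2 (Nn h) = j,
        h ≠ 0 ∧ (2 : ℝ) ^ j ≤ N h ∧ N h ≤ 2 ^ (j + 1) := by
      intro h hh
      obtain ⟨a1, rfl⟩ := Finset.mem_filter.1 hh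
      have a2 := hB.b1.N_one_le h (hH h a1).1
      have a3 : Nn h ≠ 0 := by
        intro e; unfold N at a2; rw [e] at a2; norm_num at a2
      refine ⟨(hH h a1).1, ?_, ?_⟩ <;> unfold N
      · exact_mod_cast Nat.pow_log_le_self 2 a3
      · exact_mod_cast (Nat.lt_pow_succ_log_self (by norm_num) (Nn h)).le
    refine (Finset.sum_le_card_nsmul _ _ ((2 : ℝ) ^ j)⁻¹ fun h hh =>
      inv_anti₀ (by positivity) (key h hh).2.1).trans ?_
    rw [nsmul_eq_mul]
    refine (mul_le_mul_of_nonneg_right (hB.b3.card_le (2 ^ (j + 1)) _ (by positivity)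
      fun h hh => ⟨(key h hh).1, (key h hh).2.2⟩) (by positivity)).trans (le_of_eq ?_)
    field_simp
    ring
  refine (Finset.sum_le_card_nsmul _ _ _ hf).trans ?_
  rw [nsmul_eq_mul, Finset.card_range]
  push_cast
  nlinarith

theorem cnt (hB : Bas) {t : ℝ} (ht : 1 ≤ t) (P : Finset (O × O))
    (hP : ∀ x ∈ P, x.1 ≠ 0 ∧ x.2 ≠ 0 ∧ N x.1 * N x.2 ≤ t) :
    (P.card : ℝ) ≤ 1024 * (1 + Real.log t) * t := by
  have e : (P.card : ℝ) = ∑ x ∈ P, (1 : ℝ) := by simp
  rw [e, ← Finset.sum_fiberwise_of_maps_to (g := Prod.fst) (t := P.image Prod.fst)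
    fun x hx => Finset.mem_image_of_mem _ hx]
  have hf : ∀ h ∈ P.image Prod.fst, ∑ x ∈ P with x.1 = h, (1 : ℝ) ≤ 16 * t * (N h)⁻¹ := by
    intro h hh
    obtain ⟨x0, hx0, e0⟩ := Finset.mem_image.1 hh
    have n1 : 1 ≤ N h := hB.b1.N_one_le _ (e0 ▸ (hP x0 hx0).1)
    rw [Finset.sum_const, nsmul_eq_mul, mul_one, ← Finset.card_image_of_injOn (f := Prod.snd)
      fun x hx y hy hxy => Prod.ext ((Finset.mem_filter.1 hx).2.trans
        (Finset.mem_filter.1 hy).2.symm) hxy, mul_assoc]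
    refine hB.b3.card_le _ _ (by positivity) fun c hc => ?_
    obtain ⟨x, hx, rfl⟩ := Finset.mem_image.1 hc
    obtain ⟨hx1, rfl⟩ := Finset.mem_filter.1 hx
    refine ⟨(hP x hx1).2.1, ?_⟩
    rw [← div_eq_mul_inv, le_div_iff₀ (by linarith), mul_comm]
    exact (hP x hx1).2.2
  refine (Finset.sum_le_sum hf).trans ?_
  rw [← Finset.mul_sum]
  have := harm hB ht (P.image Prod.fst) fun h hh => by
    obtain ⟨x, hx, rfl⟩ := Finset.mem_image.1 hh
    have n2 := hB.b1.N_one_le _ (hP x hx).2.1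
    have := (hP x hx).2.2
    exact ⟨(hP x hx).1, by nlinarith [N0 x.1]⟩
  calc _ ≤ 16 * t * (64 * (1 + Real.log t)) := by gcongr
    _ = _ := by ring

theorem zz (hB : Bas) (P : Finset (O × O)) :
    ∑ x ∈ P, N x.1 ^ (-(4 / 3) : ℝ) * N x.2 ^ (-(4 / 3) : ℝ) ≤ Zt * Zt := by
  have h0 : ∀ a : O, 0 ≤ N a ^ (-(4 / 3) : ℝ) := fun a => Real.rpow_nonneg (N0 a) _
  refine (Finset.sum_le_sum_of_subset_of_nonneg (Finset.subset_product (s := P))
    fun x _ _ => mul_nonneg (h0 _) (h0 _)).trans ?_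
  rw [Finset.sum_product' (f := fun a b => N a ^ (-(4 / 3) : ℝ) * N b ^ (-(4 / 3) : ℝ)),
    ← Finset.sum_mul_sum]
  exact mul_le_mul (zt_le hB _) (zt_le hB _) (Finset.sum_nonneg fun a _ => h0 a) zt0

/-- grouping by the key `(u, z)` -/
theorem grp (S : Finset O) (G : O → ℝ) (u : O → O) (z : O → O × O) (w : O × O → ℝ)
    (hu : ∀ k ∈ S, u k ∈ U18) (hw : ∀ x, 0 ≤ w x)
    (h : ∀ x, ∀ y ∈ S.image z, ∑ k ∈ S with (u k, z k) = (x, y), G k ≤ w y) :
    ∑ k ∈ S, G k ≤ 18 * ∑ y ∈ S.image z, w y := by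
  rw [← Finset.sum_fiberwise_of_maps_to (g := fun k => (u k, z k)) (t := U18 ×ˢ S.image z)
    fun k hk => Finset.mem_product.2 ⟨hu k hk, Finset.mem_image_of_mem z hk⟩, Finset.sum_product]
  refine (Finset.sum_le_card_nsmul _ _ _ fun x _ => Finset.sum_le_sum (h x)).trans ?_
  rw [nsmul_eq_mul]
  exact mul_le_mul_of_nonneg_right card18 (Finset.sum_nonneg fun y _ => hw y)

theorem main (hB : Bas) (U : Finset O) {t D E : ℝ} (ht : 1 ≤ t) (hD : 0 ≤ D) (hE : 0 ≤ E)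
    (hU : ∀ n ∈ U, Prim n)
    (hL : ∀ (Y : ℝ) (S : Finset O) (a : O → ℂ), 0 < Y → Y ≤ t ^ 3 → (∀ m ∈ S, SP m ∧ N m ≤ Y) →
      ∑ m ∈ S, ‖∑ n ∈ U, a n * cub m n‖ ^ 2 ≤ (D + E * Y ^ (2 / 3 : ℝ)) * ∑ n ∈ U, ‖a n‖ ^ 2)
    (S : Finset O) (a : O → ℂ) (hS : ∀ k ∈ S, k ≠ 0 ∧ N k ≤ t ^ 3) :
    ∑ k ∈ S, ‖∑ n ∈ U, a n * cub k n‖ ^ 2 ≤
      18 * (1024 * (1 + Real.log t) * t * (2 * D + E * t) + E * t ^ 2 * (Zt * Zt)) *
        ∑ n ∈ U, ‖a n‖ ^ 2 := by
  set q := ∑ n ∈ U, ‖a n‖ ^ 2 with hq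
  have q0 : 0 ≤ q := by positivity
  have t0 : 0 < t := by linarith
  have t3 : 1 ≤ t ^ 3 := one_le_pow₀ ht
  choose! y hy using dec hB
  have key : ∀ k ∈ S, 1 ≤ N (y k).2.1 ∧ 1 ≤ N (y k).2.2 ∧ 1 ≤ N (y k).1.2 ∧
      N (y k).2.1 * N (y k).2.2 ^ 2 * N (y k).1.2 ^ 3 ≤ t ^ 3 := by
    intro k hk
    obtain ⟨-, a2, a3, a4, a5, -, a7⟩ := hy k (hS k hk).1
    have h1 := (hS k hk).2
    rw [a7, hB.b1.N_mul, hB.b1.N_mul, hB.b1.N_mul, hB.b1.N_pow, hB.b1.N_pow] at h1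
    have n1 := hB.b1.N_one_le _ a2
    have p : 0 ≤ N (y k).2.1 * N (y k).2.2 ^ 2 * N (y k).1.2 ^ 3 := by unfold N; positivity
    exact ⟨hB.b1.N_one_le _ (hB.b2.ne _ a4), hB.b1.N_one_le _ (hB.b2.ne _ a5),
      hB.b1.N_one_le _ a3, by nlinarith⟩
  have cub3 : ∀ x y z : ℝ, 0 ≤ x → 0 ≤ y → x ^ 3 ≤ z → z * y ^ 3 ≤ t ^ 3 → y * x ≤ t := by
    intro x y z hx hy h1 h2
    refine le_of_pow_le_pow_left₀ (by norm_num : 3 ≠ 0) t0.le (le_trans ?_ h2)
    rw [mul_pow, mul_comm]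
    exact mul_le_mul_of_nonneg_right h1 (by positivity)
  rw [← Finset.sum_filter_add_sum_filter_not S fun k => N (y k).2.2 ≤ N (y k).2.1]
  set S1 := S.filter fun k => N (y k).2.2 ≤ N (y k).2.1 with hS1
  set S2 := S.filter fun k => ¬ N (y k).2.2 ≤ N (y k).2.1 with hS2
  have m1 : ∀ k ∈ S1, k ∈ S := fun k hk => (Finset.mem_filter.1 hk).1
  have m2 : ∀ k ∈ S2, k ∈ S := fun k hk => (Finset.mem_filter.1 hk).1
  have g1 := grp S1 (fun k => ‖∑ n ∈ U, a n * cub k n‖ ^ 2) (fun k => (y k).1.1)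
    (fun k => ((y k).1.2, (y k).2.2))
    (fun x => D * q + E * t ^ 2 * q * (N x.1 ^ (-(4 / 3) : ℝ) * N x.2 ^ (-(4 / 3) : ℝ)))
    (fun k hk => (hy k (hS k (m1 k hk)).1).1)
    (fun x => by have := N0 x.1; have := N0 x.2; positivity) (by
      rintro u ⟨h, c⟩ hz
      obtain ⟨k0, hk0, e0⟩ := Finset.mem_image.1 hz
      simp only [Prod.mk.injEq] at e0
      obtain ⟨-, n2, n3, -⟩ := key k0 (m1 k0 hk0)
      rw [e0.2] at n2
      rw [e0.1] at n3
      have ek : ∀ k ∈ S1.filter fun k => ((y k).1.1, (y k).1.2, (y k).2.2) = (u, h, c),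
          k = (y k).2.1 * (c ^ 2 * (u * h ^ 3)) := by
        intro k hk
        obtain ⟨hk1, hk2⟩ := Finset.mem_filter.1 hk
        simp only [Prod.mk.injEq] at hk2
        have e := (hy k (hS k (m1 k hk1)).1).2.2.2.2.2.2
        rw [hk2.1, hk2.2.1, hk2.2.2, mul_assoc] at e
        exact e
      have p1 : 1 ≤ N c ^ 2 * N h ^ 3 := one_le_mul_of_one_le_of_one_le (one_le_pow₀ n2) (one_le_pow₀ n3)
      have h3 := hL (t ^ 3 / (N c ^ 2 * N h ^ 3))
        ((S1.filter fun k => ((y k).1.1, (y k).1.2, (y k).2.2) = (u, h, c)).image fun k => (y k).2.1)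
        (fun n => a n * cub (c ^ 2 * (u * h ^ 3)) n) (by positivity) (div_le_self (by positivity) p1)
        fun m hm => ?_
      · rw [Finset.sum_image fun k hk k' hk' e => by
          rw [ek k hk, ek k' hk']; exact congrArg (· * _) e] at h3
        have h4 : (t ^ 3 / (N c ^ 2 * N h ^ 3)) ^ (2 / 3 : ℝ) ≤
            t ^ 2 * (N h ^ (-(4 / 3) : ℝ) * N c ^ (-(4 / 3) : ℝ)) := by
          have b1 : (N c ^ 2) ^ (2 / 3 : ℝ) = N c ^ (4 / 3 : ℝ) := by
            rw [← Real.rpow_natCast, ← Real.rpow_mul (N0 c)]; norm_num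
          have b2 : (N h ^ 2)⁻¹ ≤ N h ^ (-(4 / 3) : ℝ) := by
            rw [← Real.rpow_natCast, ← Real.rpow_neg (N0 h)]
            exact Real.rpow_le_rpow_of_exponent_le n3 (by norm_num)
          rw [Real.div_rpow (by positivity) (by positivity), c23 t0.le,
            Real.mul_rpow (by positivity) (by positivity), c23 (N0 h), b1, div_eq_mul_inv, mul_inv,
            ← Real.rpow_neg (N0 c), mul_comm (N c ^ _)]
          gcongr
        refine (le_of_eq (Finset.sum_congr rfl fun k hk => ?_)).trans (h3.trans ?_)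
        · congr 2
          refine Finset.sum_congr rfl fun n hn => ?_
          conv_lhs => rw [ek k hk]
          rw [hB.b6.mul_l _ _ n (hB.b2.cop n (hU n hn))]
          ring
        · refine (mul_le_mul (add_le_add le_rfl (mul_le_mul_of_nonneg_left h4 hE)) (tw_le hB U a _)
            (by positivity) (by positivity)).trans (le_of_eq ?_)
          ring
      · obtain ⟨k, hk, rfl⟩ := Finset.mem_image.1 hm
        obtain ⟨hk1, hk2⟩ := Finset.mem_filter.1 hk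
        simp only [Prod.mk.injEq] at hk2
        obtain ⟨-, -, -, a4, -, a6, -⟩ := hy k (hS k (m1 k hk1)).1
        refine ⟨⟨a4, a6.of_mul_left⟩, ?_⟩
        have := (key k (m1 k hk1)).2.2.2
        rw [hk2.2.1, hk2.2.2, mul_assoc] at this
        rwa [le_div_iff₀ (by positivity)])
  have g2 := grp S2 (fun k => ‖∑ n ∈ U, a n * cub k n‖ ^ 2) (fun k => (y k).1.1)
    (fun k => ((y k).1.2, (y k).2.1)) (fun _ => (D + E * t) * q)
    (fun k hk => (hy k (hS k (m2 k hk)).1).1) (fun x => by positivity) (by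
      rintro u ⟨h, c⟩ -
      have ek : ∀ k ∈ S2.filter fun k => ((y k).1.1, (y k).1.2, (y k).2.1) = (u, h, c),
          k = (y k).2.2 ^ 2 * (c * (u * h ^ 3)) := by
        intro k hk
        obtain ⟨hk1, hk2⟩ := Finset.mem_filter.1 hk
        simp only [Prod.mk.injEq] at hk2
        have e := (hy k (hS k (m2 k hk1)).1).2.2.2.2.2.2
        rw [hk2.1, hk2.2.1, hk2.2.2] at e
        exact e.trans (by ring)
      have h3 := hL (t ^ (3 / 2 : ℝ))
        ((S2.filter fun k => ((y k).1.1, (y k).1.2, (y k).2.1) = (u, h, c)).image fun k => (y k).2.2)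
        (fun n => conj (a n * cub (c * (u * h ^ 3)) n)) (by positivity)
        (by rw [← Real.rpow_natCast]; exact Real.rpow_le_rpow_of_exponent_le ht (by norm_num))
        fun m hm => ?_
      · rw [Finset.sum_image fun k hk k' hk' e => by
          rw [ek k hk, ek k' hk']; exact congrArg (· ^ 2 * _) e] at h3
        have h4 : (t ^ (3 / 2 : ℝ)) ^ (2 / 3 : ℝ) = t := by
          rw [← Real.rpow_mul t0.le]; norm_num
        rw [h4] at h3
        simp only [RCLike.norm_conj] at h3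
        refine (le_of_eq (Finset.sum_congr rfl fun k hk => ?_)).trans
          (h3.trans (mul_le_mul_of_nonneg_left (tw_le hB U a _) (by positivity)))
        rw [← RCLike.norm_conj, map_sum]
        congr 2
        refine Finset.sum_congr rfl fun n hn => ?_
        conv_lhs => rw [ek k hk]
        rw [hB.b6.mul_l _ _ n (hB.b2.cop n (hU n hn)), hB.b6.pow_l _ n 2 (hB.b2.cop n (hU n hn)),
          ← hB.b6.conj_eq]
        simp only [map_mul, conj_conj]
        ring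
      · obtain ⟨k, hk, rfl⟩ := Finset.mem_image.1 hm
        obtain ⟨hk1, -⟩ := Finset.mem_filter.1 hk
        obtain ⟨-, -, -, -, a5, a6, -⟩ := hy k (hS k (m2 k hk1)).1
        refine ⟨⟨a5, a6.of_mul_right⟩, ?_⟩
        obtain ⟨n1, n2, n3, n4⟩ := key k (m2 k hk1)
        have b1 : (t ^ (3 / 2 : ℝ)) ^ 2 = t ^ 3 := by
          rw [← Real.rpow_natCast, ← Real.rpow_mul t0.le, ← Real.rpow_natCast]; norm_num
        refine le_of_pow_le_pow_left₀ two_ne_zero (by positivity) ?_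
        rw [b1]
        have b2 := le_mul_of_one_le_left (by positivity : 0 ≤ N (y k).2.2 ^ 2) n1
        have b3 := le_mul_of_one_le_right (by positivity : 0 ≤ N (y k).2.1 * N (y k).2.2 ^ 2)
          (one_le_pow₀ (n := 3) n3)
        linarith)
  have c1 := cnt hB ht (S1.image fun k => ((y k).1.2, (y k).2.2)) fun x hx => by
    obtain ⟨k, hk, rfl⟩ := Finset.mem_image.1 hx
    obtain ⟨-, -, a3, -, a5, -, -⟩ := hy k (hS k (m1 k hk)).1
    obtain ⟨n1, n2, n3, n4⟩ := key k (m1 k hk)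
    refine ⟨a3, hB.b2.ne _ a5, cub3 _ _ _ (N0 _) (N0 _) ?_ n4⟩
    rw [pow_succ']
    exact mul_le_mul_of_nonneg_right (Finset.mem_filter.1 hk).2 (by positivity)
  have c2 := cnt hB ht (S2.image fun k => ((y k).1.2, (y k).2.1)) fun x hx => by
    obtain ⟨k, hk, rfl⟩ := Finset.mem_image.1 hx
    obtain ⟨-, -, a3, a4, -, -, -⟩ := hy k (hS k (m2 k hk)).1
    obtain ⟨n1, n2, n3, n4⟩ := key k (m2 k hk)
    refine ⟨a3, hB.b2.ne _ a4, cub3 _ _ _ (N0 _) (N0 _) ?_ n4⟩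
    rw [pow_succ']
    exact mul_le_mul_of_nonneg_left
      (pow_le_pow_left₀ (N0 _) (not_le.1 (Finset.mem_filter.1 hk).2).le 2) (N0 _)
  have z1 := zz hB (S1.image fun k => ((y k).1.2, (y k).2.2))
  rw [Finset.sum_add_distrib, Finset.sum_const, nsmul_eq_mul, ← Finset.mul_sum] at g1
  rw [Finset.sum_const, nsmul_eq_mul] at g2
  have d1 := mul_le_mul_of_nonneg_right c1 (by positivity : 0 ≤ D * q)
  have d2 := mul_le_mul_of_nonneg_right c2 (by positivity : 0 ≤ (D + E * t) * q)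
  have d3 := mul_le_mul_of_nonneg_left z1 (by positivity : 0 ≤ E * t ^ 2 * q)
  linarith

end ALLM

open ALLM in
theorem allS : ALLStmt := by
  have z0 := zt0
  refine ⟨18 * (2048 + Zt * Zt), by positivity, fun U K D E hK hD hE hU hL S a hS => ?_⟩
  obtain ⟨t, ht, rfl⟩ := cube hK
  have t0 : 0 < t := by linarith
  refine (main W1.bas U ht hD hE hU hL S a hS).trans (mul_le_mul_of_nonneg_right ?_ (by positivity))
  rw [c13 t0.le, c23 t0.le, Real.log_pow]
  have l0 := Real.log_nonneg ht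
  have p1 : 0 ≤ D * t := by positivity
  have p2 : 0 ≤ E * t ^ 2 := by positivity
  have p3 : 0 ≤ Zt * Zt := by positivity
  have q1 := mul_nonneg l0 p1
  have q2 := mul_nonneg l0 p2
  have q3 := mul_nonneg p3 p1
  have q4 := mul_nonneg p3 q1
  have q5 := mul_nonneg p3 q2
  push_cast
  nlinarith

end Vale.Agent.P006.S
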