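import Vale.Agent.P006.S1
import Vale.Agent.P006.L.H16

noncomputable section
open Complex
open scoped Classical ComplexConjugate

namespace Vale.Agent.P006.S
open Vale.Agent.P026 W1

namespace BALM

theorem split {U : Finset O} (hU : ∀ n ∈ U, Prim n) (a : O → ℂ) (m : O) {q : O} (hq : Prime q) :
    ‖∑ n ∈ U, a n * cub m n‖ ^ 2 ≤ 2 * ‖∑ n ∈ U, a n * cub (m * q ^ 3) n‖ ^ 2 +
      2 * ‖∑ n ∈ U with q ∣ n, a n * cub m n‖ ^ 2 := by
  have e : ∑ n ∈ U, a n * cub m n = ∑ n ∈ U, a n * cub (m * q ^ 3) n +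
      ∑ n ∈ U with q ∣ n, a n * cub m n := by
    rw [Finset.sum_filter, ← Finset.sum_add_distrib]
    refine Finset.sum_congr rfl fun n hn => ?_
    have c := bas.b2.cop n (hU n hn)
    rw [bas.b6.mul_l _ _ _ c, bas.b6.pow_l _ _ _ c]
    split_ifs with h
    · rw [bas.b6.zero q n (bas.b2.ne n (hU n hn)) fun d =>
        (hq.irreducible.coprime_iff_not_dvd.1 d) h]
      ring
    · rw [bas.b6.cube q n (hq.irreducible.coprime_iff_not_dvd.2 h)]
      ring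
  rw [e]
  refine (pow_le_pow_left₀ (norm_nonneg _) (norm_add_le _ _) 2).trans ?_
  nlinarith [sq_nonneg (‖∑ n ∈ U, a n * cub (m * q ^ 3) n‖ - ‖∑ n ∈ U with q ∣ n, a n * cub m n‖)]

theorem cnt {U Q : Finset O} (hU : ∀ n ∈ U, Prim n) (hQ : ∀ q ∈ Q, Prim q) (a : O → ℂ) :
    ∑ q ∈ Q, ∑ n ∈ U with q ∣ n, ‖a n‖ ^ 2 ≤ ∑ n ∈ U, ‖a n‖ ^ 2 * tau n := by
  simp only [Finset.sum_filter]
  rw [Finset.sum_comm]
  refine Finset.sum_le_sum fun n hn => ?_
  rw [← Finset.sum_filter, Finset.sum_const, nsmul_eq_mul, mul_comm, tau]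
  refine mul_le_mul_of_nonneg_left (Nat.cast_le.2 (Finset.card_le_card fun q hq => ?_)) (sq_nonneg _)
  obtain ⟨h1, h2⟩ := Finset.mem_filter.1 hq
  exact (H16.mdv (bas.b2.ne n (hU n hn))).2 ⟨hQ q h1, h2⟩

theorem ar {t A B : ℝ} (ht : 2 ≤ t) (hB : 1 ≤ B) (hA : B ≤ A) :
    A * t ^ 6 + (A * t ^ 6 * B) ^ (2 / 3 : ℝ) / t ^ 3 + (A * t ^ 6) ^ (1 / 3 : ℝ) * B * t⁻¹ +
      t ^ 3 * (A * t ^ 6) ^ (-1 / 3 : ℝ) * B ^ (5 / 3 : ℝ) ≤
      3 * (A * t ^ 6 + (A * B) ^ (2 / 3 : ℝ) * t) ∧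
    A + 2 * B + (A * (2 * B)) ^ (2 / 3 : ℝ) ≤ 3 * (A * t ^ 6 + (A * B) ^ (2 / 3 : ℝ) * t) := by
  have t0 : 0 < t := by linarith
  have B0 : 0 < B := by linarith
  have A0 : 0 < A := by linarith
  have lA := Real.log_le_log B0 hA
  have lB := Real.log_nonneg hB
  have lt := Real.log_le_log two_pos ht
  have l2 := Real.log_nonneg (show (1 : ℝ) ≤ 2 by norm_num)
  have key : ∀ Z : ℝ, 0 < Z → Real.log Z ≤ 2 / 3 * (Real.log A + Real.log B) + Real.log t →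
      Z ≤ (A * B) ^ (2 / 3 : ℝ) * t := fun Z hZ h => by
    refine (Real.log_le_log_iff hZ (by positivity)).1 ?_
    simp (disch := positivity) only [Real.log_mul, Real.log_rpow]
    exact h
  have k1 := key ((A * t ^ 6 * B) ^ (2 / 3 : ℝ) / t ^ 3) (by positivity) (by
    simp (disch := positivity) only [Real.log_mul, Real.log_rpow, Real.log_div, Real.log_pow]
    push_cast
    linarith)
  have k2 := key ((A * t ^ 6) ^ (1 / 3 : ℝ) * B * t⁻¹) (by positivity) (by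
    simp (disch := positivity) only [Real.log_mul, Real.log_rpow, Real.log_inv, Real.log_pow]
    push_cast
    linarith)
  have k3 := key (t ^ 3 * (A * t ^ 6) ^ (-1 / 3 : ℝ) * B ^ (5 / 3 : ℝ)) (by positivity) (by
    simp (disch := positivity) only [Real.log_mul, Real.log_rpow, Real.log_pow]
    push_cast
    linarith)
  have k4 := key ((A * (2 * B)) ^ (2 / 3 : ℝ)) (by positivity) (by
    simp (disch := positivity) only [Real.log_mul, Real.log_rpow]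
    linarith)
  have k5 : A ≤ A * t ^ 6 := le_mul_of_one_le_right A0.le (one_le_pow₀ (by linarith))
  have k6 : 0 ≤ (A * B) ^ (2 / 3 : ℝ) * t := by positivity
  constructor <;> linarith

end BALM

open BALM in
theorem balS (h7 : TH7Stmt) (hP : PRStmt) (hS : SLStmt) : BALStmt := by
  obtain ⟨C7, C70, h7⟩ := h7
  obtain ⟨CP, CP0, hP⟩ := hP
  obtain ⟨CS, CS0, hS⟩ := hS
  refine ⟨CP * (6 * C7 + 6 * CS), by positivity, fun τ A B S U a hτ hB hA hm hn => ?_⟩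
  obtain ⟨t, t0, rfl⟩ := H16.cube (x := τ) (by linarith)
  have ht : 2 ≤ t := le_of_pow_le_pow_left₀ (n := 3) (by norm_num) t0.le (by linarith)
  have B0 : 0 < B := by linarith
  have A0 : 0 < A := by linarith
  obtain ⟨Q, hQ, hc⟩ := hP (t ^ 2) (by nlinarith)
  have hU : ∀ n ∈ U, Prim n := fun n h => (hn n h).1.1
  obtain ⟨W, hW⟩ : ∃ W, W = ∑ n ∈ U, ‖a n‖ ^ 2 * tau n := ⟨_, rfl⟩
  have W0 : 0 ≤ W := hW ▸ Finset.sum_nonneg fun n _ => mul_nonneg (sq_nonneg _) (Nat.cast_nonneg _)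
  obtain ⟨L, hL⟩ : ∃ L, L = (1 + Real.log (1 + B)) ^ 2 := ⟨_, rfl⟩
  have L1 : 1 ≤ L := hL ▸ one_le_pow₀ (by linarith [Real.log_nonneg (by linarith : 1 ≤ 1 + B)])
  obtain ⟨E, hE⟩ : ∃ E, E = A * t ^ 6 + (A * B) ^ (2 / 3 : ℝ) * t := ⟨_, rfl⟩
  have E0 : 0 ≤ E := by rw [hE]; positivity
  obtain ⟨r1, r2⟩ := ar ht hB hA
  rw [← hE] at r1 r2
  have h1 := h7 (t ^ 3) (A * t ^ 6) B ((Q ×ˢ S).image fun x => x.2 * x.1 ^ 3) U a (by linarith)
    (by positivity) hB (fun k hk => ?_) hn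
  swap
  · obtain ⟨x, hx, rfl⟩ := Finset.mem_image.1 hk
    obtain ⟨x1, x2⟩ := Finset.mem_product.1 hx
    rw [bas.b1.N_mul, bas.b1.N_pow, show t ^ 6 = (t ^ 2) ^ 3 by ring]
    exact mul_le_mul (hm _ x2).2 (pow_le_pow_left₀ (H16.N0 _) (hQ _ x1).2.2 3)
      (pow_nonneg (H16.N0 _) _) A0.le
  rw [Finset.sum_image fun x hx y hy e => ?_, Finset.sum_product, ← hW, ← hL, H16.m13 t0] at h1
  swap
  · obtain ⟨x1, x2⟩ := Finset.mem_product.1 hx
    obtain ⟨y1, y2⟩ := Finset.mem_product.1 hy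
    have := W1.bb.uniq _ _ _ _ (hm _ x2).1.1 (hQ _ x1).2.1 (hm _ x2).1.2 (hm _ y2).1.1 (hQ _ y1).2.1
      (hm _ y2).1.2 e
    exact Prod.ext this.2 this.1
  have h2 : ∑ q ∈ Q, ∑ m ∈ S, ‖∑ n ∈ U with q ∣ n, a n * cub m n‖ ^ 2 ≤ CS * (3 * E) * W := by
    refine (Finset.sum_le_sum fun q _ => hS A (2 * B) A0 (by positivity) S (U.filter (q ∣ ·)) a hm
      fun n h => ?_).trans ?_
    · obtain ⟨a1, -, a3⟩ := hn n (Finset.mem_filter.1 h).1
      refine ⟨a1, a3.trans ?_⟩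
      have : 1 / t ^ 3 ≤ 1 := (div_le_one (by positivity)).2 (by linarith)
      nlinarith
    · rw [← Finset.mul_sum, hW]
      exact mul_le_mul (mul_le_mul_of_nonneg_left r2 CS0) (cnt hU (fun q h => (hQ q h).2.1) a)
        (by positivity) (by positivity)
  obtain ⟨F, hF⟩ : ∃ F, F = ∑ m ∈ S, ‖∑ n ∈ U, a n * cub m n‖ ^ 2 := ⟨_, rfl⟩
  have F0 : 0 ≤ F := by rw [hF]; positivity
  have h3 : (Q.card : ℝ) * F ≤ (6 * C7 + 6 * CS) * L * E * W := by
    have a1 : (Q.card : ℝ) * F ≤ ∑ q ∈ Q, ∑ m ∈ S, (2 * ‖∑ n ∈ U, a n * cub (m * q ^ 3) n‖ ^ 2 +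
        2 * ‖∑ n ∈ U with q ∣ n, a n * cub m n‖ ^ 2) := by
      rw [← nsmul_eq_mul]
      exact Finset.card_nsmul_le_sum _ _ _ fun q hq =>
        hF ▸ Finset.sum_le_sum fun m _ => split hU a m (hQ q hq).1
    simp only [Finset.sum_add_distrib, ← Finset.mul_sum] at a1
    have a2 := mul_le_mul_of_nonneg_right (mul_le_mul_of_nonneg_left r1
      (by positivity : 0 ≤ C7 * L)) W0
    have a3 := mul_le_mul_of_nonneg_left L1 (by positivity : 0 ≤ CS * E * W)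
    simp only at h1
    linarith
  have lt : 0 < Real.log t := Real.log_pos (by linarith)
  rw [Real.log_pow, div_le_iff₀ (by positivity)] at hc
  rw [← hF, ← hW, ← hL, H16.m13 t0, H16.p43 t0, Real.log_pow]
  refine le_of_mul_le_mul_left ?_ (by positivity : 0 < t ^ 2)
  have e : t ^ 2 * (A * t ^ 4 + (A * B) ^ (2 / 3 : ℝ) * t⁻¹) = E := by
    rw [hE]
    field_simp
  push_cast at hc ⊢
  have a4 := mul_le_mul_of_nonneg_right hc F0
  have a5 := mul_le_mul_of_nonneg_left h3 (by positivity : 0 ≤ CP * (2 * Real.log t))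
  have a6 : 0 ≤ CP * (6 * C7 + 6 * CS) * L * Real.log t * E * W := by positivity
  calc _ ≤ CP * (6 * C7 + 6 * CS) * L * (3 * Real.log t) * E * W := by linarith
    _ = _ := by rw [← e]; ring

end Vale.Agent.P006.S
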