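import Vale.Agent.P006.S2

/-! P006 branch S: the bilinear bound from the bound for pairs of cells. -/

noncomputable section
open Complex MeasureTheory
open scoped Classical ComplexConjugate

namespace Vale.Agent.P006.S
open Vale.Agent.P026

namespace BILM

theorem diag (S U : Finset O) (c : O → ℕ) (f : O → O → ℂ) (x y : O → ℝ) (n : ℕ) (D : ℝ) (hD : 0 ≤ D)
    (hx : ∀ a, 0 ≤ x a) (hy : ∀ b, 0 ≤ y b)
    (h : ∀ i, ‖∑ a ∈ S with c a = i, ∑ b ∈ U with i + c b + 3 = n, f a b‖ ^ 2 ≤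
      D * (∑ a ∈ S with c a = i, x a) * ∑ b ∈ U with i + c b + 3 = n, y b) :
    ‖∑ a ∈ S, ∑ b ∈ U, if c a + c b + 3 = n then f a b else 0‖ ^ 2 ≤
      D * (∑ a ∈ S, x a) * ∑ b ∈ U, y b := by
  have e1 : (∑ a ∈ S, ∑ b ∈ U, if c a + c b + 3 = n then f a b else 0) =
      ∑ i ∈ S.image c, ∑ a ∈ S with c a = i, ∑ b ∈ U with i + c b + 3 = n, f a b := by
    rw [← Finset.sum_fiberwise_of_maps_to (g := c) (t := S.image c)
      fun a ha => Finset.mem_image_of_mem _ ha]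
    refine Finset.sum_congr rfl fun i _ => Finset.sum_congr rfl fun a ha => ?_
    rw [Finset.sum_filter, (Finset.mem_filter.1 ha).2]
  have e2 : ∑ i ∈ S.image c, D * ∑ a ∈ S with c a = i, x a = D * ∑ a ∈ S, x a := by
    rw [← Finset.mul_sum, Finset.sum_fiberwise_of_maps_to fun a ha => Finset.mem_image_of_mem _ ha]
  have e3 : ∑ i ∈ S.image c, ∑ b ∈ U with i + c b + 3 = n, y b ≤ ∑ b ∈ U, y b := by
    simp only [Finset.sum_filter]
    rw [Finset.sum_comm]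
    refine Finset.sum_le_sum fun b _ => ?_
    refine (Finset.sum_le_sum (g := fun i => if i = n - c b - 3 then y b else 0) fun i _ => ?_).trans ?_
    · split_ifs with h1 h2 h2
      · exact le_rfl
      · omega
      · exact hy b
      · exact le_rfl
    · rw [Finset.sum_ite_eq']
      split_ifs
      · exact le_rfl
      · exact hy b
  rw [e1]
  refine (pow_le_pow_left₀ (norm_nonneg _) (norm_sum_le _ _) 2).trans ?_
  refine (Finset.sum_sq_le_sum_mul_sum_of_sq_le_mul _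
    (fun i _ => mul_nonneg hD (Finset.sum_nonneg fun a _ => hx a))
    (fun i _ => Finset.sum_nonneg fun b _ => hy b) fun i _ => h i).trans ?_
  rw [e2]
  exact mul_le_mul_of_nonneg_left e3 (mul_nonneg hD (Finset.sum_nonneg fun a _ => hx a))

theorem tau1 {n : O} (hn : Prim n) : 1 ≤ tau n := by
  have : (1 : O) ∈ dv n := ((memS W1.bas).2 n 1 (W1.bas.b2.ne n hn)).2 ⟨W1.bas.b2.one, one_dvd _⟩
  unfold tau
  exact_mod_cast Finset.card_pos.2 ⟨_, this⟩

theorem l1 {X : ℝ} (hX : 0 ≤ X) (S : Finset O) (α : O → ℂ) (hS : ∀ a ∈ S, SP a ∧ N a ≤ X ^ 2) :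
    (∑ a ∈ S, ‖α a‖) ^ 2 ≤ (∑ a ∈ S, ‖α a‖ ^ 2 * tau a / N a) * (16 * X ^ 4) := by
  have n1 : ∀ a ∈ S, 1 ≤ N a := fun a ha => W1.bas.b1.N_one_le a (W1.bas.b2.ne a (hS a ha).1.1)
  refine (Finset.sum_sq_le_sum_mul_sum_of_sq_le_mul S (f := fun a => ‖α a‖ ^ 2 * tau a / N a)
    (g := fun _ => X ^ 2) (fun a ha => ?_) (fun _ _ => by positivity) fun a ha => ?_).trans ?_
  · have := n1 a ha
    have := tau1 (hS a ha).1.1
    positivity
  · have h1 := n1 a ha
    have h2 := tau1 (hS a ha).1.1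
    have h3 := (hS a ha).2
    rw [div_mul_eq_mul_div, le_div_iff₀ (by linarith), mul_assoc]
    exact mul_le_mul_of_nonneg_left (by nlinarith) (by positivity)
  · refine mul_le_mul_of_nonneg_left ?_ (Finset.sum_nonneg fun a ha => ?_)
    · rw [Finset.sum_const, nsmul_eq_mul]
      have := W1.bas.b3.card_le (X ^ 2) S (by positivity) fun a ha =>
        ⟨W1.bas.b2.ne a (hS a ha).1.1, (hS a ha).2⟩
      calc _ ≤ 16 * X ^ 2 * X ^ 2 := by gcongr
        _ = _ := by ring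
    · have := n1 a ha
      have := tau1 (hS a ha).1.1
      positivity

theorem l2 {A T : ℝ} (hA : 0 ≤ A) (hT : 1 ≤ T) (S : Finset O) (α : O → ℂ)
    (hS : ∀ a ∈ S, SP a ∧ Thin A T a) :
    ∑ a ∈ S, ‖α a‖ ^ 2 * tau a ≤ 2 * A * ∑ a ∈ S, ‖α a‖ ^ 2 * tau a / N a := by
  rw [Finset.mul_sum]
  refine Finset.sum_le_sum fun a ha => ?_
  have h1 := W1.bas.b1.N_one_le a (W1.bas.b2.ne a (hS a ha).1.1)
  have h2 := tau1 (hS a ha).1.1
  have h3 := (hS a ha).2.2
  have h4 : 1 / T ≤ 1 := (div_le_one (by linarith)).2 hT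
  rw [← mul_div_assoc, le_div_iff₀ (by linarith), mul_comm (2 * A)]
  exact mul_le_mul_of_nonneg_left (by nlinarith) (by positivity)

theorem cell {l x : ℝ} (hl : 0 < l) (hx : 1 ≤ x) :
    (⌊Real.log x / l⌋₊ : ℝ) * l ≤ Real.log x ∧ Real.log x < (⌊Real.log x / l⌋₊ + 1) * l := by
  have h0 : 0 ≤ Real.log x / l := div_nonneg (Real.log_nonneg hx) hl.le
  exact ⟨(le_div_iff₀ hl).1 (Nat.floor_le h0), (div_lt_iff₀ hl).1 (Nat.lt_floor_add_one _)⟩

theorem win {X l u v : ℝ} {i j m d : ℕ} (x0 : 0 < X) (l0 : 0 < l) (l8 : l ≤ 1 / 8) (u1 : 1 ≤ u)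
    (v1 : 1 ≤ v) (cm : (m : ℝ) * l ≤ Real.log X ∧ Real.log X < (m + 1) * l)
    (cu : (i : ℝ) * l ≤ Real.log u ∧ Real.log u < (i + 1) * l)
    (cv : (j : ℝ) * l ≤ Real.log v ∧ Real.log v < (j + 1) * l) (hd : d < 5) (e : i + j + 3 = m + d) :
    X / 2 ≤ u * v ∧ u * v ≤ 2 * X := by
  have d4 : (d : ℝ) ≤ 4 := by exact_mod_cast Nat.le_of_lt_succ hd
  have e0 : (i : ℝ) + j + 3 = m + d := by exact_mod_cast e
  have lab : Real.log (u * v) = Real.log u + Real.log v := Real.log_mul (by linarith) (by linarith)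
  have l2' := Real.log_two_gt_d9
  have e1 : (i : ℝ) * l + j * l = m * l + d * l - 3 * l := by linear_combination l * e0
  have dl : 0 ≤ (d : ℝ) * l := by positivity
  have dl' : (d : ℝ) * l ≤ 4 * l := by gcongr
  constructor
  · rw [← Real.log_le_log_iff (by positivity) (by positivity), lab, Real.log_div x0.ne' two_ne_zero]
    linarith [cm.1, cm.2, cu.1, cv.1]
  · rw [← Real.log_le_log_iff (by positivity) (by positivity), lab, Real.log_mul two_ne_zero x0.ne']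
    linarith [cm.1, cm.2, cu.2, cv.2]

theorem out {X T l u v : ℝ} {i j m : ℕ} (x0 : 0 < X) (L20 : 20 ≤ Real.log X) (l0 : 0 < l)
    (T0 : 0 ≤ T) (lT : 2 * Real.log X ≤ T * l) (u1 : 1 ≤ u)
    (v1 : 1 ≤ v) (cm : (m : ℝ) * l ≤ Real.log X ∧ Real.log X < (m + 1) * l)
    (cu : (i : ℝ) * l ≤ Real.log u ∧ Real.log u < (i + 1) * l)
    (cv : (j : ℝ) * l ≤ Real.log v ∧ Real.log v < (j + 1) * l)
    (h : ¬ (m ≤ i + j + 3 ∧ i + j + 3 < m + 5)) :
    Real.exp (-(T * Real.log (u * v / X)) ^ 2 / 2) ≤ (X ^ 4)⁻¹ := by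
  have lab : Real.log (u * v / X) = Real.log u + Real.log v - Real.log X := by
    rw [Real.log_div (by positivity) x0.ne', Real.log_mul (by linarith) (by linarith)]
  have b1 : l ≤ |Real.log (u * v / X)| := by
    rw [lab, le_abs]
    rcases not_and_or.1 h with h | h
    · have : (i : ℝ) + j + 4 ≤ m := by exact_mod_cast (by omega : i + j + 4 ≤ m)
      have := mul_le_mul_of_nonneg_right this l0.le
      right; linarith [cm.1, cu.2, cv.2]
    · have : (m : ℝ) + 2 ≤ i + j := by exact_mod_cast (by omega : m + 2 ≤ i + j)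
      have := mul_le_mul_of_nonneg_right this l0.le
      left; linarith [cm.2, cu.1, cv.1]
  have b2 : (2 * Real.log X) ^ 2 ≤ (T * Real.log (u * v / X)) ^ 2 := by
    rw [← sq_abs (T * _), abs_mul, abs_of_nonneg T0]
    exact pow_le_pow_left₀ (by linarith) (lT.trans (mul_le_mul_of_nonneg_left b1 T0)) 2
  rw [← Real.exp_log (show 0 < X ^ 4 by positivity), ← Real.exp_neg, Real.log_pow]
  refine Real.exp_le_exp.2 ?_
  push_cast
  nlinarith

theorem num {X T τ Z A B u v : ℝ} (x1 : 21 ≤ X) (L20 : 20 ≤ Real.log X) (hτ : 8 ≤ τ) (T1 : 1 ≤ T)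
    (t8 : 8 ≤ T / (4 * Real.log X)) (hτX : 10 * τ ^ 20 ≤ X) (A1 : 1 ≤ A) (B1 : 1 ≤ B) (a1 : A ≤ u)
    (a2 : u ≤ A * (1 + 1 / (T / (4 * Real.log X)))) (b1 : B ≤ v)
    (b2 : v ≤ B * (1 + 1 / (T / (4 * Real.log X)))) (lo : X / 2 ≤ u * v) (hi : u * v ≤ 2 * X)
    (z1 : u ≤ Z) (z2 : v ≤ Z) : τ ^ 20 ≤ A * B ∧ A * B ≤ 2 * X ∧
      (1 + Real.log (1 + max A B)) ^ 3 * (max A B / (T / (4 * Real.log X)) +
        (A * B) ^ (2 / 3 : ℝ) * τ ^ (-1 / 3 : ℝ)) ≤
      32 * Real.log X ^ 4 * (Z / T + X ^ (2 / 3 : ℝ) * τ ^ (-1 / 3 : ℝ)) := by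
  have x0 : 0 < X := by linarith
  set L := Real.log X with hL
  have i1 : 1 / (T / (4 * L)) ≤ 1 / 8 := one_div_le_one_div_of_le (by norm_num) t8
  have AB : A * B ≤ 2 * X := (mul_le_mul a1 b1 (by linarith) (by linarith)).trans hi
  have c1 : u ≤ 2 * A := by nlinarith
  have c2 : v ≤ 2 * B := by nlinarith
  have c3 := mul_le_mul c1 c2 (by linarith) (by linarith)
  refine ⟨by linarith, AB, ?_⟩
  have m1 : max A B ≤ Z := max_le (a1.trans z1) (b1.trans z2)
  have m2 : max A B ≤ 2 * X := max_le ((le_mul_of_one_le_right (by linarith) B1).trans AB)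
    ((le_mul_of_one_le_left (by linarith) A1).trans AB)
  have m0 : 1 ≤ max A B := le_max_of_le_left A1
  have g1 : 1 + Real.log (1 + max A B) ≤ 2 * L := by
    have b1 : Real.log (1 + max A B) ≤ Real.log (3 * X) :=
      Real.log_le_log (by linarith) (by linarith)
    have b2 := Real.log_le_sub_one_of_pos (show (0 : ℝ) < 3 by norm_num)
    rw [Real.log_mul (by norm_num) x0.ne'] at b1
    linarith
  have g0 : 0 ≤ 1 + Real.log (1 + max A B) := by
    have := Real.log_nonneg (show 1 ≤ 1 + max A B by linarith)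
    linarith
  have g2 : max A B / (T / (4 * L)) + (A * B) ^ (2 / 3 : ℝ) * τ ^ (-1 / 3 : ℝ) ≤
      4 * L * (Z / T + X ^ (2 / 3 : ℝ) * τ ^ (-1 / 3 : ℝ)) := by
    have b1 : max A B / (T / (4 * L)) ≤ 4 * L * (Z / T) := by
      rw [div_div_eq_mul_div, mul_comm, mul_div_assoc]
      gcongr
    have b2 : (A * B) ^ (2 / 3 : ℝ) ≤ 4 * L * X ^ (2 / 3 : ℝ) := by
      refine (Real.rpow_le_rpow (by positivity) AB (by norm_num)).trans ?_
      rw [Real.mul_rpow (by norm_num) x0.le]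
      have : (2 : ℝ) ^ (2 / 3 : ℝ) ≤ 2 := Real.rpow_le_self_of_one_le one_le_two (by norm_num)
      gcongr
      linarith
    have b3 := mul_le_mul_of_nonneg_right b2 (by positivity : 0 ≤ τ ^ (-1 / 3 : ℝ))
    linarith
  calc _ ≤ (2 * L) ^ 3 * (4 * L * (Z / T + X ^ (2 / 3 : ℝ) * τ ^ (-1 / 3 : ℝ))) := by gcongr
    _ = _ := by ring

theorem lam {L T : ℝ} (L20 : 20 ≤ L) (t8 : 8 ≤ T / (4 * L)) :
    0 < Real.log (1 + 1 / (T / (4 * L))) ∧ Real.log (1 + 1 / (T / (4 * L))) ≤ 1 / 8 ∧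
      2 * L ≤ T * Real.log (1 + 1 / (T / (4 * L))) := by
  set T' := T / (4 * L) with hT'
  have i0 : 0 < 1 / T' := by positivity
  have i1 : 1 / T' ≤ 1 / 8 := one_div_le_one_div_of_le (by norm_num) t8
  refine ⟨Real.log_pos (by linarith), ?_, ?_⟩
  · have := Real.log_le_sub_one_of_pos (show 0 < 1 + 1 / T' by linarith)
    linarith
  · have a1 := Real.one_sub_inv_le_log_of_pos (show 0 < 1 + 1 / T' by linarith)
    have a2 : 1 - (1 + 1 / T')⁻¹ = 1 / (T' + 1) := by field_simp; ring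
    have a3 : T = 4 * L * T' := by rw [hT']; field_simp
    have a4 : 1 / 2 ≤ T' * (1 / (T' + 1)) := by
      rw [mul_one_div, le_div_iff₀ (by linarith)]; linarith
    have a5 := mul_le_mul_of_nonneg_left (a2 ▸ a1) (show 0 ≤ T' by linarith)
    have a6 := mul_le_mul_of_nonneg_left (a4.trans a5) (show 0 ≤ 4 * L by linarith)
    rw [← mul_assoc, ← a3] at a6
    linarith

theorem big {X τ Z T : ℝ} (x1 : 21 ≤ X) (L20 : 20 ≤ Real.log X) (hτ : 8 ≤ τ) (T1 : 1 ≤ T)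
    (hτX : 10 * τ ^ 20 ≤ X) (hZ : 0 ≤ Z) :
    1 ≤ Real.log X ^ 4 * X * (Z / T + X ^ (2 / 3 : ℝ) * τ ^ (-1 / 3 : ℝ)) := by
  have x0 : 0 < X := by linarith
  have τX : τ ≤ X := by
    have := le_self_pow₀ (show 1 ≤ τ by linarith) (show 20 ≠ 0 by norm_num)
    linarith
  have b1 : X ^ (-1 / 3 : ℝ) ≤ τ ^ (-1 / 3 : ℝ) :=
    Real.rpow_le_rpow_of_nonpos (by linarith) τX (by norm_num)
  have b2 : 1 ≤ X ^ (2 / 3 : ℝ) * X ^ (-1 / 3 : ℝ) := by
    rw [← Real.rpow_add x0]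
    exact Real.one_le_rpow (by linarith) (by norm_num)
  have b3 : 1 ≤ Z / T + X ^ (2 / 3 : ℝ) * τ ^ (-1 / 3 : ℝ) := by
    have := mul_le_mul_of_nonneg_left b1 (by positivity : 0 ≤ X ^ (2 / 3 : ℝ))
    have : 0 ≤ Z / T := by positivity
    linarith
  exact one_le_mul_of_one_le_of_one_le (one_le_mul_of_one_le_of_one_le
    (one_le_pow₀ (by linarith)) (by linarith)) b3

theorem fin (S U : Finset O) (c : O → ℕ) (m : ℕ) (f : O → O → ℂ) (G : ℝ) (G0 : 0 ≤ G)
    (near : ∀ d ∈ Finset.range 5,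
      ‖∑ a ∈ S, ∑ b ∈ U, if c a + c b + 3 = m + d then f a b else 0‖ ^ 2 ≤ G)
    (far : ‖∑ a ∈ S, ∑ b ∈ U, if m ≤ c a + c b + 3 ∧ c a + c b + 3 < m + 5 then 0 else f a b‖ ^ 2 ≤ G) :
    ‖∑ a ∈ S, ∑ b ∈ U, f a b‖ ^ 2 ≤ 36 * G := by
  have dec : ∑ a ∈ S, ∑ b ∈ U, f a b =
      (∑ d ∈ Finset.range 5, ∑ a ∈ S, ∑ b ∈ U, if c a + c b + 3 = m + d then f a b else 0) +
      ∑ a ∈ S, ∑ b ∈ U, if m ≤ c a + c b + 3 ∧ c a + c b + 3 < m + 5 then 0 else f a b := by
    rw [Finset.sum_comm (s := Finset.range 5), ← Finset.sum_add_distrib]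
    refine Finset.sum_congr rfl fun a _ => ?_
    rw [Finset.sum_comm (s := Finset.range 5), ← Finset.sum_add_distrib]
    refine Finset.sum_congr rfl fun b _ => ?_
    split_ifs with h
    · rw [Finset.sum_eq_single (c a + c b + 3 - m) (fun d _ hd => if_neg (by omega))
        (fun hd => absurd (Finset.mem_range.2 (by omega)) hd), if_pos (by omega), add_zero]
    · rw [Finset.sum_eq_zero fun d hd => if_neg (by have := Finset.mem_range.1 hd; omega), zero_add]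
  have fin : ‖∑ a ∈ S, ∑ b ∈ U, f a b‖ ≤ 6 * Real.sqrt G := by
    rw [dec]
    refine (norm_add_le _ _).trans ?_
    have b1 := norm_sum_le_of_le (Finset.range 5) fun d hd => Real.le_sqrt_of_sq_le (near d hd)
    have b2 := Real.le_sqrt_of_sq_le far
    rw [Finset.sum_const, Finset.card_range, nsmul_eq_mul] at b1
    push_cast at b1
    linarith
  refine (pow_le_pow_left₀ (norm_nonneg _) fin 2).trans (le_of_eq ?_)
  rw [mul_pow, Real.sq_sqrt G0]
  ring

end BILM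

open BILM in
theorem bilS (hC : CELStmt) (hB : BMStmt) : BILStmt := by
  obtain ⟨C, C0, hC⟩ := hC
  obtain ⟨K, K0, hB⟩ := hB
  refine ⟨36 * (256 * C + 256 * K ^ 2), by positivity, ?_⟩
  intro X T τ Z S U α β hX hτ hT hτX hZ hS hU hZ'
  have x1 : 21 ≤ X := le_trans (by have := Real.add_one_le_exp 20; linarith) hX
  have x0 : 0 < X := by linarith
  have L20 : 20 ≤ Real.log X := (Real.le_log_iff_exp_le x0).2 hX
  have T1 : 1 ≤ T := by nlinarith
  have t1 : τ ≤ T / (4 * Real.log X) := by rw [le_div_iff₀ (by linarith)]; linarith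
  have t8 := hτ.trans t1
  obtain ⟨l0, l8, lT⟩ := lam L20 t8
  have hbig := big x1 L20 hτ T1 hτX hZ
  have hnum := fun A B u v => num (A := A) (B := B) (u := u) (v := v) (Z := Z) x1 L20 hτ T1 t8 hτX
  generalize T / (4 * Real.log X) = T' at t1 t8 l0 l8 lT hnum
  have i0 : 0 < 1 / T' := by positivity
  obtain ⟨l, hl⟩ : ∃ l, l = Real.log (1 + 1 / T') := ⟨_, rfl⟩
  rw [← hl] at l0 l8 lT
  obtain ⟨m, cm⟩ : ∃ m : ℕ, (m : ℝ) * l ≤ Real.log X ∧ Real.log X < (m + 1) * l :=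
    ⟨_, cell l0 (by linarith)⟩
  have n1 : ∀ a, SP a → 1 ≤ N a := fun a ha => W1.bas.b1.N_one_le a (W1.bas.b2.ne a ha.1)
  obtain ⟨c, ca⟩ : ∃ c : O → ℕ, ∀ a, SP a →
      (c a : ℝ) * l ≤ Real.log (N a) ∧ Real.log (N a) < (c a + 1) * l :=
    ⟨_, fun a ha => cell l0 (n1 a ha)⟩
  have thin : ∀ a, SP a → Thin ((1 + 1 / T') ^ c a) T' a := fun a ha => by
    have a1 := n1 a ha
    constructor
    · rw [← Real.log_le_log_iff (by positivity) (by linarith), Real.log_pow, ← hl]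
      exact (ca a ha).1
    · rw [← pow_succ, ← Real.log_le_log_iff (by linarith) (by positivity), Real.log_pow, ← hl]
      push_cast
      exact (ca a ha).2.le
  have x0' : ∀ (α : O → ℂ) a, 0 ≤ ‖α a‖ ^ 2 * tau a / N a := fun α a => by
    simp only [tau, N]; positivity
  have sx := Finset.sum_nonneg fun a (_ : a ∈ S) => x0' α a
  have sy := Finset.sum_nonneg fun a (_ : a ∈ U) => x0' β a
  have E0 : 0 ≤ Z / T + X ^ (2 / 3 : ℝ) * τ ^ (-1 / 3 : ℝ) := by positivity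
  generalize Z / T + X ^ (2 / 3 : ℝ) * τ ^ (-1 / 3 : ℝ) = E at hbig hnum E0 ⊢
  have L0 : 0 ≤ Real.log X ^ 4 := by positivity
  refine (fin S U c m _ ((256 * C + 256 * K ^ 2) * Real.log X ^ 4 * X * E *
    (∑ a ∈ S, ‖α a‖ ^ 2 * tau a / N a) * ∑ b ∈ U, ‖β b‖ ^ 2 * tau b / N b) (by positivity)
    (fun d hd => ?_) ?_).trans (le_of_eq (by ring))
  · refine diag S U c _ _ _ (m + d) _ (by positivity) (x0' α) (x0' β) fun i => ?_
    rcases (S.filter fun a => c a = i).eq_empty_or_nonempty with e | ⟨a0, ha0⟩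
    · simp [e]
    rcases (U.filter fun b => i + c b + 3 = m + d).eq_empty_or_nonempty with e | ⟨b0, hb0⟩
    · simp [e]
    obtain ⟨ha1, ha2⟩ := Finset.mem_filter.1 ha0
    obtain ⟨hb1, hb2⟩ := Finset.mem_filter.1 hb0
    have sa := (hS a0 ha1).1
    have sb := (hU b0 hb1).1
    obtain ⟨lo, hi⟩ := win x0 l0 l8 (n1 a0 sa) (n1 b0 sb) cm (ca a0 sa) (ca b0 sb)
      (Finset.mem_range.1 hd) (ha2 ▸ hb2)
    obtain ⟨z1, z2⟩ := hZ' a0 ha1 b0 hb1 lo hi
    have s1 : ∀ a ∈ S.filter fun a => c a = i, SP a ∧ Thin ((1 + 1 / T') ^ c a0) T' a := fun a ha => by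
      obtain ⟨b1, b2⟩ := Finset.mem_filter.1 ha
      have := thin a (hS a b1).1
      rw [b2, ← ha2] at this
      exact ⟨(hS a b1).1, this⟩
    have s2 : ∀ b ∈ U.filter fun b => i + c b + 3 = m + d,
        SP b ∧ Thin ((1 + 1 / T') ^ c b0) T' b := fun b hb => by
      obtain ⟨b1, b2⟩ := Finset.mem_filter.1 hb
      have := thin b (hU b b1).1
      rw [show c b = c b0 by omega] at this
      exact ⟨(hU b b1).1, this⟩
    have A1 : 1 ≤ (1 + 1 / T') ^ c a0 := one_le_pow₀ (by linarith)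
    have B1 : 1 ≤ (1 + 1 / T') ^ c b0 := one_le_pow₀ (by linarith)
    obtain ⟨AB', AB, g2⟩ := hnum _ _ _ _ A1 B1 (thin a0 sa).1 (thin a0 sa).2 (thin b0 sb).1
      (thin b0 sb).2 lo hi z1 z2
    generalize (1 + 1 / T') ^ c a0 = A at s1 A1 AB' AB g2
    generalize (1 + 1 / T') ^ c b0 = B at s2 B1 AB' AB g2
    refine (hC τ T' T A B X _ _ α β hτ t1 T1 A1 B1 x0 AB' s1 s2).trans ?_
    have g3 := l2 (by linarith) (by linarith) _ α s1
    have g4 := l2 (by linarith) (by linarith) _ β s2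
    have p1 := Finset.sum_nonneg fun a (_ : a ∈ S.filter fun a => c a = i) => x0' α a
    have p2 := Finset.sum_nonneg fun a (_ : a ∈ U.filter fun b => i + c b + 3 = m + d) => x0' β a
    have p3 : 0 ≤ ∑ b ∈ U with i + c b + 3 = m + d, ‖β b‖ ^ 2 * tau b :=
      Finset.sum_nonneg fun a _ => by unfold tau; positivity
    have p4 : 0 ≤ ∑ a ∈ S with c a = i, ‖α a‖ ^ 2 * tau a :=
      Finset.sum_nonneg fun a _ => by unfold tau; positivity
    generalize ∑ b ∈ U with i + c b + 3 = m + d, ‖β b‖ ^ 2 * tau b = q2 at g4 p3 ⊢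
    generalize ∑ a ∈ S with c a = i, ‖α a‖ ^ 2 * tau a = q1 at g3 p4 ⊢
    generalize ∑ b ∈ U with i + c b + 3 = m + d, ‖β b‖ ^ 2 * tau b / N b = r2 at g4 p2 ⊢
    generalize ∑ a ∈ S with c a = i, ‖α a‖ ^ 2 * tau a / N a = r1 at g3 p1 ⊢
    rw [mul_assoc C]
    calc _ ≤ C * (32 * Real.log X ^ 4 * E) * (2 * A * r1) * (2 * B * r2) := by gcongr
      _ = 128 * C * Real.log X ^ 4 * (A * B) * E * r1 * r2 := by ring
      _ ≤ 128 * C * Real.log X ^ 4 * (2 * X) * E * r1 * r2 := by gcongr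
      _ = (256 * C + 0) * Real.log X ^ 4 * X * E * r1 * r2 := by ring
      _ ≤ _ := by gcongr; positivity
  · have pt : ∀ a ∈ S, ∀ b ∈ U, ‖if m ≤ c a + c b + 3 ∧ c a + c b + 3 < m + 5 then 0 else
        α a * β b * cub a b * bT T (N a * N b / X)‖ ≤ ‖α a‖ * ‖β b‖ * (K / X ^ 4) := by
      intro a ha b hb
      split_ifs with h
      · rw [norm_zero]; positivity
      · have na := n1 a (hS a ha).1
        have nb := n1 b (hU b hb).1
        have b3 := out x0 L20 l0 (by linarith) lT na nb cm (ca a (hS a ha).1) (ca b (hU b hb).1) h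
        have b4 := ((hB T T1).1.dec (N a * N b / X) (by positivity)).trans
          (mul_le_mul_of_nonneg_left b3 K0)
        simp only [norm_mul, norm_real, Real.norm_eq_abs]
        rw [div_eq_mul_inv K]
        exact mul_le_mul (mul_le_of_le_one_right (by positivity) (W1.bas.b6.norm_le _ _)) b4
          (abs_nonneg _) (by positivity)
    have b1 : ‖∑ a ∈ S, ∑ b ∈ U, if m ≤ c a + c b + 3 ∧ c a + c b + 3 < m + 5 then 0 else
        α a * β b * cub a b * bT T (N a * N b / X)‖ ≤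
        (∑ a ∈ S, ‖α a‖) * (∑ b ∈ U, ‖β b‖) * (K / X ^ 4) := by
      rw [Finset.sum_mul_sum, Finset.sum_mul]
      refine norm_sum_le_of_le _ fun a ha => ?_
      rw [Finset.sum_mul]
      exact norm_sum_le_of_le _ fun b hb => pt a ha b hb
    refine (pow_le_pow_left₀ (norm_nonneg _) b1 2).trans ?_
    rw [mul_pow, mul_pow]
    have b2 := l1 x0.le S α hS
    have b3 := l1 x0.le U β hU
    generalize ∑ b ∈ U, ‖β b‖ ^ 2 * tau b / N b = r2 at b3 sy ⊢
    generalize ∑ a ∈ S, ‖α a‖ ^ 2 * tau a / N a = r1 at b2 sx ⊢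
    calc _ ≤ r1 * (16 * X ^ 4) * (r2 * (16 * X ^ 4)) * (K / X ^ 4) ^ 2 := by gcongr
      _ = (0 + 256 * K ^ 2) * 1 * r1 * r2 := by field_simp; ring
      _ ≤ (256 * C + 256 * K ^ 2) * (Real.log X ^ 4 * X * E) * r1 * r2 := by gcongr; positivity
      _ = _ := by ring

end Vale.Agent.P006.S
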