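import Vale.Agent.P006.S2

/-! P006 branch S: Mellin kernels of the thin weights. -/

noncomputable section
open Complex MeasureTheory
open scoped Classical ComplexConjugate

namespace Vale.Agent.P006.S

namespace BMM

def EE (T σ y u : ℝ) : ℂ := cexp ((σ + u * I) ^ 2 / (4 * T ^ 2) - y * (σ + u * I))

theorem norm_EE (T σ y u : ℝ) :
    ‖EE T σ y u‖ = Real.exp (σ ^ 2 / (4 * T ^ 2) - y * σ) * Real.exp (-(u ^ 2 / (4 * T ^ 2))) := by
  have e : ((σ + u * I) ^ 2 / (4 * T ^ 2) - y * (σ + u * I) : ℂ) =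
      ((σ ^ 2 / (4 * T ^ 2) - y * σ + -(u ^ 2 / (4 * T ^ 2)) : ℝ) : ℂ) +
        ((2 * σ * u / (4 * T ^ 2) - y * u : ℝ) : ℂ) * I := by
    push_cast
    linear_combination (u ^ 2 / (4 * T ^ 2) : ℂ) * I_sq
  rw [EE, e, Complex.norm_exp, ← Real.exp_add]
  congr 1
  rw [add_re, ofReal_re, re_ofReal_mul, I_re, mul_zero, add_zero]

theorem norm_s (σ u : ℝ) : ‖(σ + u * I : ℂ)‖ ^ 2 = σ ^ 2 + u ^ 2 := by
  rw [← Complex.normSq_eq_norm_sq, Complex.normSq_add_mul_I]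

theorem intg {T : ℝ} (hT : 0 < T) (σ y : ℝ) (k : ℕ) (hk : k ≤ 2) :
    Integrable fun u : ℝ => (σ + u * I : ℂ) ^ k * EE T σ y u := by
  have hb : 0 < 1 / (8 * T ^ 2) := by positivity
  refine ((integrable_exp_neg_mul_sq hb).const_mul
    (Real.exp (σ ^ 2 / (4 * T ^ 2) - y * σ) * (1 + σ ^ 2 + 8 * T ^ 2))).mono' ?_
    (Filter.Eventually.of_forall fun u => ?_)
  · unfold EE
    exact (by fun_prop : Continuous _).aestronglyMeasurable
  · rw [norm_mul, norm_pow, norm_EE]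
    have h1 : ‖(σ + u * I : ℂ)‖ ^ k ≤ 1 + σ ^ 2 + u ^ 2 := by
      have := norm_s σ u
      have h0 := norm_nonneg (σ + u * I : ℂ)
      interval_cases k
      · nlinarith [sq_nonneg σ, sq_nonneg u]
      · nlinarith [sq_nonneg (‖(σ + u * I : ℂ)‖ - 1)]
      · nlinarith
    set a := u ^ 2 / (8 * T ^ 2) with ha
    have a0 : 0 ≤ a := by positivity
    have e1 : -(u ^ 2 / (4 * T ^ 2)) = -a + -a := by rw [ha]; field_simp; ring
    have e2 : -(1 / (8 * T ^ 2)) * u ^ 2 = -a := by rw [ha]; ring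
    have e3 : u ^ 2 = 8 * T ^ 2 * a := by rw [ha]; field_simp
    have h2 : a * Real.exp (-a) ≤ 1 := by
      rw [Real.exp_neg, ← div_eq_mul_inv, div_le_one (Real.exp_pos _)]
      linarith [Real.add_one_le_exp a]
    have h3 : Real.exp (-a) ≤ 1 := Real.exp_le_one_iff.2 (by linarith)
    have h4 : (1 + σ ^ 2 + u ^ 2) * Real.exp (-a) ≤ 1 + σ ^ 2 + 8 * T ^ 2 := by
      rw [e3]
      nlinarith [sq_nonneg σ, sq_nonneg T, mul_le_mul_of_nonneg_left h2 (by positivity : 0 ≤ 8 * T ^ 2),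
        mul_le_mul_of_nonneg_left h3 (by positivity : 0 ≤ 1 + σ ^ 2)]
    rw [e1, e2, Real.exp_add]
    have p1 := Real.exp_pos (σ ^ 2 / (4 * T ^ 2) - y * σ)
    have p2 := Real.exp_pos (-a)
    calc _ ≤ (1 + σ ^ 2 + u ^ 2) * (Real.exp (σ ^ 2 / (4 * T ^ 2) - y * σ) *
          (Real.exp (-a) * Real.exp (-a))) := by gcongr
      _ = Real.exp (σ ^ 2 / (4 * T ^ 2) - y * σ) * ((1 + σ ^ 2 + u ^ 2) * Real.exp (-a)) *
          Real.exp (-a) := by ring
      _ ≤ _ := by gcongr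

theorem der (T σ y u : ℝ) : HasDerivAt (EE T σ y)
    (I * ((σ + u * I) / (2 * T ^ 2) - y) * EE T σ y u) u := by
  have h0 : HasDerivAt (fun z : ℂ => cexp ((σ + z * I) ^ 2 / (4 * T ^ 2) - y * (σ + z * I)))
      (I * ((σ + u * I) / (2 * T ^ 2) - y) * EE T σ y u) (u : ℂ) := by
    have h1 : HasDerivAt (fun z : ℂ => (σ + z * I : ℂ)) I (u : ℂ) := by
      simpa using ((hasDerivAt_id (u : ℂ)).mul_const I).const_add (σ : ℂ)
    have h2 := (((h1.pow 2).div_const (4 * T ^ 2)).sub (h1.const_mul (y : ℂ))).cexp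
    refine h2.congr_deriv ?_
    show cexp ((σ + u * I) ^ 2 / (4 * T ^ 2) - y * (σ + u * I)) *
      ((2 : ℕ) * (σ + u * I) ^ (2 - 1) * I / (4 * T ^ 2) - y * I) = _
    rw [EE]
    push_cast
    ring
  exact h0.comp_ofReal

theorem I0 {T : ℝ} (hT : 0 < T) (σ y : ℝ) :
    ∫ u, EE T σ y u = ((2 * T * Real.sqrt Real.pi * Real.exp (-(T * y) ^ 2) : ℝ) : ℂ) := by
  have T0 : (T : ℂ) ≠ 0 := ofReal_ne_zero.2 hT.ne'
  have hb : (-(1 / (4 * T ^ 2)) : ℂ).re < 0 := by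
    have : (-(1 / (4 * T ^ 2)) : ℂ) = ((-(1 / (4 * T ^ 2)) : ℝ) : ℂ) := by push_cast; ring
    rw [this, ofReal_re, neg_lt_zero]; positivity
  have h := integral_cexp_quadratic hb (I * (σ / (2 * T ^ 2) - y)) (σ ^ 2 / (4 * T ^ 2) - y * σ)
  have e : ∀ u : ℝ, EE T σ y u = cexp (-(1 / (4 * T ^ 2)) * u ^ 2 +
      I * (σ / (2 * T ^ 2) - y) * u + (σ ^ 2 / (4 * T ^ 2) - y * σ)) := by
    intro u
    unfold EE
    congr 1
    linear_combination (u ^ 2 / (4 * T ^ 2) : ℂ) * I_sq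
  simp only [e]
  rw [h]
  have e1 : (Real.pi / -(-(1 / (4 * T ^ 2))) : ℂ) = ((4 * T ^ 2 * Real.pi : ℝ) : ℂ) := by
    push_cast; field_simp
  have e2 : ((4 * T ^ 2 * Real.pi : ℝ) : ℂ) ^ (1 / 2 : ℂ) = ((2 * T * Real.sqrt Real.pi : ℝ) : ℂ) := by
    have : (1 / 2 : ℂ) = ((1 / 2 : ℝ) : ℂ) := by push_cast; ring
    rw [this, ← ofReal_cpow (by positivity), ← Real.sqrt_eq_rpow,
      show 4 * T ^ 2 * Real.pi = (2 * T) ^ 2 * Real.pi by ring, Real.sqrt_mul (by positivity),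
      Real.sqrt_sq (by positivity)]
  rw [e1, e2]
  push_cast
  congr 2
  field_simp
  linear_combination (4 * (σ - 2 * T ^ 2 * y) ^ 2 : ℂ) * I_sq

theorem I1 {T : ℝ} (hT : 0 < T) (σ y : ℝ) :
    ∫ u : ℝ, (σ + u * I : ℂ) * EE T σ y u = 2 * T ^ 2 * y * ∫ u, EE T σ y u := by
  have T0 : (T : ℂ) ≠ 0 := ofReal_ne_zero.2 hT.ne'
  have i0 := intg hT σ y 0 (by norm_num)
  have i1 := intg hT σ y 1 (by norm_num)
  simp only [pow_zero, one_mul, pow_one] at i0 i1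
  have e : ∀ u : ℝ, I * ((σ + u * I) / (2 * T ^ 2) - y) * EE T σ y u =
      I / (2 * T ^ 2) * ((σ + u * I) * EE T σ y u) - I * y * EE T σ y u := fun u => by ring
  have h := integral_eq_zero_of_hasDerivAt_of_integrable (der T σ y)
    (by simp only [e]; exact (i1.const_mul _).sub (i0.const_mul _)) i0
  simp only [e] at h
  rw [integral_sub (i1.const_mul _) (i0.const_mul _), integral_const_mul, integral_const_mul] at h
  generalize (∫ u : ℝ, (σ + u * I : ℂ) * EE T σ y u) = A at h ⊢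
  generalize (∫ u : ℝ, EE T σ y u) = B at h ⊢
  field_simp at h
  refine mul_left_cancel₀ I_ne_zero ?_
  linear_combination h

theorem I2 {T : ℝ} (hT : 0 < T) (σ y : ℝ) :
    ∫ u : ℝ, (σ + u * I : ℂ) ^ 2 * EE T σ y u =
      2 * T ^ 2 * (2 * T ^ 2 * y ^ 2 - 1) * ∫ u, EE T σ y u := by
  have T0 : (T : ℂ) ≠ 0 := ofReal_ne_zero.2 hT.ne'
  have i0 := intg hT σ y 0 (by norm_num)
  have i1 := intg hT σ y 1 (by norm_num)
  have i2 := intg hT σ y 2 (by norm_num)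
  simp only [pow_zero, one_mul, pow_one] at i0 i1
  have d : ∀ u : ℝ, HasDerivAt (fun u : ℝ => (σ + u * I : ℂ) * EE T σ y u)
      (I * EE T σ y u + I / (2 * T ^ 2) * ((σ + u * I) ^ 2 * EE T σ y u) -
        I * y * ((σ + u * I) * EE T σ y u)) u := fun u => by
    have h1 : HasDerivAt (fun z : ℝ => (σ + z * I : ℂ)) I u := by
      have : HasDerivAt (fun z : ℂ => (σ + z * I : ℂ)) I (u : ℂ) := by
        simpa using ((hasDerivAt_id (u : ℂ)).mul_const I).const_add (σ : ℂ)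
      exact this.comp_ofReal
    refine (h1.mul (der T σ y u)).congr_deriv ?_
    ring
  have h := integral_eq_zero_of_hasDerivAt_of_integrable d
    (((i0.const_mul _).add (i2.const_mul _)).sub (i1.const_mul _)) i1
  have j : Integrable fun u : ℝ => I * EE T σ y u + I / (2 * T ^ 2) * ((σ + u * I) ^ 2 * EE T σ y u) :=
    (i0.const_mul _).add (i2.const_mul _)
  rw [integral_sub j (i1.const_mul _),
    integral_add (i0.const_mul _) (i2.const_mul _), integral_const_mul, integral_const_mul,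
    integral_const_mul, I1 hT] at h
  generalize (∫ u : ℝ, (σ + u * I : ℂ) ^ 2 * EE T σ y u) = A at h ⊢
  generalize (∫ u : ℝ, EE T σ y u) = B at h ⊢
  field_simp at h
  refine mul_left_cancel₀ I_ne_zero ?_
  linear_combination h

theorem omE {x : ℝ} (hx : 0 < x) (T σ u : ℝ) : omT T (σ + u * I) * (x : ℂ) ^ (-(σ + u * I) : ℂ) =
    ((Real.sqrt Real.pi / T : ℝ) : ℂ) * EE T σ (Real.log x) u := by
  rw [omT, cpow_def_of_ne_zero (ofReal_ne_zero.2 hx.ne'), ← ofReal_log hx.le, EE, mul_assoc,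
    ← Complex.exp_add]
  congr 2
  ring

theorem norm_om {T : ℝ} (hT : 1 ≤ T) {s : ℂ} (hs : |s.re| ≤ 2) :
    ‖omT T s‖ ≤ 6 / T * Real.exp (-(4 * (s.im / (4 * T)) ^ 2)) := by
  have T0 : 0 < T := by linarith
  have h := norm_EE T s.re 0 s.im
  rw [EE, re_add_im] at h
  simp only [ofReal_zero, zero_mul, sub_zero] at h
  rw [omT, norm_mul, h, norm_real, Real.norm_of_nonneg (by positivity)]
  have h1 : Real.sqrt Real.pi ≤ 2 := Real.sqrt_le_iff.2 ⟨by norm_num, by linarith [Real.pi_le_four]⟩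
  have h2 : Real.exp (s.re ^ 2 / (4 * T ^ 2)) ≤ 3 := by
    have : s.re ^ 2 / (4 * T ^ 2) ≤ 1 := by
      rw [div_le_one (by positivity)]
      nlinarith [sq_abs s.re, abs_nonneg s.re]
    exact (Real.exp_le_exp.2 this).trans (by linarith [Real.exp_one_lt_d9])
  rw [show s.im ^ 2 / (4 * T ^ 2) = 4 * (s.im / (4 * T)) ^ 2 by field_simp]
  calc _ ≤ 2 / T * (3 * Real.exp (-(4 * (s.im / (4 * T)) ^ 2))) := by gcongr
    _ = _ := by ring

theorem fin {T a c : ℝ} (hT : 1 ≤ T) (hc : c ≤ 2 * (1 + 3 * a ^ 2)) :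
    6 / T * Real.exp (-(4 * a ^ 2)) * c ≤ 12 / T * Real.exp (-a ^ 2) := by
  have T0 : 0 < T := by linarith
  have h : c ≤ 2 * Real.exp (3 * a ^ 2) := by linarith [Real.add_one_le_exp (3 * a ^ 2)]
  calc _ ≤ 6 / T * Real.exp (-(4 * a ^ 2)) * (2 * Real.exp (3 * a ^ 2)) := by gcongr
    _ = 12 / T * (Real.exp (-(4 * a ^ 2)) * Real.exp (3 * a ^ 2)) := by ring
    _ = _ := by rw [← Real.exp_add]; congr 2; ring

theorem dec0 {z c : ℝ} (hc : c ≤ 12 * (1 + z ^ 2 / 2)) :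
    c * Real.exp (-z ^ 2) ≤ 12 * Real.exp (-z ^ 2 / 2) := by
  have h : c ≤ 12 * Real.exp (z ^ 2 / 2) := by linarith [Real.add_one_le_exp (z ^ 2 / 2)]
  calc _ ≤ 12 * Real.exp (z ^ 2 / 2) * Real.exp (-z ^ 2) := by gcongr
    _ = _ := by rw [mul_assoc, ← Real.exp_add]; congr 2; ring

end BMM

open BMM in
theorem bmS : BMStmt := by
  refine ⟨12, by norm_num, fun T hT => ?_⟩
  have T0 : 0 < T := by linarith
  have Tc : (T : ℂ) ≠ 0 := ofReal_ne_zero.2 T0.ne'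
  have pc : (Real.pi : ℂ) ≠ 0 := ofReal_ne_zero.2 Real.pi_ne_zero
  have sp : (Real.sqrt Real.pi : ℂ) * Real.sqrt Real.pi = Real.pi := by
    rw [← ofReal_mul, Real.mul_self_sqrt Real.pi_pos.le]
  have ns : ∀ s : ℂ, |s.re| ≤ 2 → ‖s‖ ^ 2 / (4 * T ^ 2) ≤ 1 + 4 * (s.im / (4 * T)) ^ 2 := by
    intro s hs
    have := norm_s s.re s.im
    rw [re_add_im] at this
    rw [this, add_div, show s.im ^ 2 / (4 * T ^ 2) = 4 * (s.im / (4 * T)) ^ 2 by field_simp]
    have : s.re ^ 2 / (4 * T ^ 2) ≤ 1 := by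
      rw [div_le_one (by positivity)]
      nlinarith [sq_abs s.re, abs_nonneg s.re]
    linarith
  have n2 : ‖(2 * T : ℂ)‖ = 2 * T := by
    rw [norm_mul, norm_real, Real.norm_of_nonneg T0.le]; simp
  have n4 : ‖(4 * T ^ 2 : ℂ)‖ = 4 * T ^ 2 := by
    rw [norm_mul, norm_pow, norm_real, Real.norm_of_nonneg T0.le]; simp
  refine ⟨⟨?_, fun s hs => ?_, fun σ x _ hx => ?_, fun x _ => ?_⟩,
    ⟨?_, fun s hs => ?_, fun σ x _ hx => ?_, fun x _ => ?_⟩⟩
  · unfold ob omT; fun_prop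
  · rw [ob, norm_mul]
    refine (mul_le_mul_of_nonneg_right (norm_om hT hs) (norm_nonneg _)).trans (fin hT ?_)
    have h := ns s hs
    rw [norm_div, n2]
    rw [show ‖s‖ ^ 2 / (4 * T ^ 2) = (‖s‖ / (2 * T)) ^ 2 by field_simp; ring] at h
    nlinarith [sq_nonneg (‖s‖ / (2 * T) - 1), sq_nonneg (s.im / (4 * T))]
  · have e : ∀ u : ℝ, ob T (σ + u * I) * (x : ℂ) ^ (-(σ + u * I) : ℂ) =
        ((Real.sqrt Real.pi / T : ℝ) : ℂ) / (2 * T) * ((σ + u * I) * EE T σ (Real.log x) u) := by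
      intro u
      rw [ob, mul_right_comm, omE hx]; ring
    simp only [e]
    rw [integral_const_mul, I1 T0, I0 T0, bT]
    generalize Real.exp (-(T * Real.log x) ^ 2) = E
    generalize Real.log x = y
    push_cast
    field_simp
    linear_combination (-(y * E) : ℂ) * sp
  · rw [bT, abs_mul, abs_of_pos (Real.exp_pos _)]
    refine dec0 ?_
    nlinarith [sq_abs (T * Real.log x), sq_nonneg (|T * Real.log x| - 1)]
  · unfold ob2 omT; fun_prop
  · rw [ob2, norm_mul]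
    refine (mul_le_mul_of_nonneg_right (norm_om hT hs) (norm_nonneg _)).trans (fin hT ?_)
    have h := ns s hs
    have h1 := norm_add_le (1 / 2 : ℂ) (s ^ 2 / (4 * T ^ 2))
    rw [norm_div (s ^ 2), n4, norm_pow] at h1
    have : ‖(1 / 2 : ℂ)‖ = 1 / 2 := by simp
    nlinarith [sq_nonneg (s.im / (4 * T))]
  · have e : ∀ u : ℝ, ob2 T (σ + u * I) * (x : ℂ) ^ (-(σ + u * I) : ℂ) =
        ((Real.sqrt Real.pi / T : ℝ) : ℂ) / 2 * EE T σ (Real.log x) u +
        ((Real.sqrt Real.pi / T : ℝ) : ℂ) / (4 * T ^ 2) * ((σ + u * I) ^ 2 * EE T σ (Real.log x) u) := by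
      intro u
      rw [ob2, mul_right_comm, omE hx]; ring
    have i0 := intg T0 σ (Real.log x) 0 (by norm_num)
    simp only [pow_zero, one_mul] at i0
    simp only [e]
    rw [integral_add (i0.const_mul _) ((intg T0 σ _ 2 le_rfl).const_mul _), integral_const_mul,
      integral_const_mul, I2 T0, I0 T0, b2]
    generalize Real.exp (-(T * Real.log x) ^ 2) = E
    generalize Real.log x = y
    push_cast
    field_simp
    linear_combination (-(8 * T ^ 2 * y ^ 2 * E) : ℂ) * sp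
  · rw [b2, abs_mul, abs_of_pos (Real.exp_pos _), abs_of_nonneg (sq_nonneg _)]
    refine dec0 ?_
    nlinarith [sq_nonneg (T * Real.log x)]

end Vale.Agent.P006.S
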