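import Vale.Agent.P006.S2

/-! P006 branch S: one pair of cells. -/

noncomputable section
open Complex Finset MeasureTheory
open scoped Classical

namespace Vale.Agent.P006.S

open Vale.Agent.P026 W1

namespace CELM

theorem tau1 {a : O} (ha : Prim a) : 1 ≤ tau a := by
  rw [tau, Nat.one_le_cast, one_le_card]
  exact ⟨1, ((memS bas).2 a 1 (bas.b2.ne a ha)).2 ⟨bas.b2.one, one_dvd _⟩⟩

theorem cs {S U : Finset O} {α β : O → ℂ} {D : ℝ} (hS : ∀ a ∈ S, Prim a)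
    (h : ∑ m ∈ S, ‖∑ n ∈ U, β n * cub m n‖ ^ 2 ≤ D) :
    ‖∑ a ∈ S, ∑ b ∈ U, α a * β b * cub a b‖ ^ 2 ≤ (∑ a ∈ S, ‖α a‖ ^ 2 * tau a) * D := by
  simp only [mul_assoc, ← mul_sum]
  refine (pow_le_pow_left₀ (norm_nonneg _) (norm_sum_le_of_le _ fun a _ => (norm_mul _ _).le) 2).trans
    ((sum_mul_sq_le_sq_mul_sq _ _ _).trans (mul_le_mul (sum_le_sum fun a ha =>
      le_mul_of_one_le_right (sq_nonneg _) (tau1 (hS a ha))) h (sum_nonneg fun _ _ => sq_nonneg _)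
      (sum_nonneg fun a ha => mul_nonneg (sq_nonneg _) (zero_le_one.trans (tau1 (hS a ha))))))

end CELM

open CELM in
theorem celS (hT : TTStmt) (hB : BMStmt) : CELStmt := by
  obtain ⟨C, C0, hC⟩ := hT
  obtain ⟨K, K0, hK⟩ := hB
  refine ⟨(8 * K) ^ 2 * C, by positivity, fun τ T' T A B X S U α β h1 h2 h3 h4 h5 h6 h7 hS hU => ?_⟩
  set D := C * (1 + Real.log (1 + max A B)) ^ 3 *
    (max A B / T' + (A * B) ^ (2 / 3 : ℝ) * τ ^ (-1 / 3 : ℝ)) *
      (∑ a ∈ S, ‖α a‖ ^ 2 * tau a) * ∑ b ∈ U, ‖β b‖ ^ 2 * tau b with hD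
  have key : ∀ α' β' : O → ℂ, (∀ a ∈ S, ‖α' a‖ = ‖α a‖) → (∀ b ∈ U, ‖β' b‖ = ‖β b‖) →
      ‖∑ a ∈ S, ∑ b ∈ U, α' a * β' b * cub a b‖ ^ 2 ≤ D := fun α' β' e1 e2 => by
    rw [hD, ← sum_congr rfl fun a ha => congrArg (· ^ 2 * tau a) (e1 a ha),
      ← sum_congr rfl fun a ha => congrArg (· ^ 2 * tau a) (e2 a ha)]
    rcases le_total B A with k | k
    · rw [max_eq_left k]
      exact (cs (fun a ha => (hS a ha).1.1) (hC τ T' A B S U β' h1 h2 h5 k h7 hS hU)).trans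
        (le_of_eq (by ring))
    · rw [max_eq_right k, sum_comm, sum_congr rfl fun b hb => sum_congr rfl fun a ha => by
        rw [mul_comm (α' a), cr a b (hS a ha).1.1 (hU b hb).1.1], mul_comm A]
      exact (cs (fun a ha => (hU a ha).1.1) (hC τ T' B A U S α' h1 h2 h4 k (mul_comm A B ▸ h7)
        hU hS)).trans (le_of_eq (by ring))
  have D0 : 0 ≤ D := (sq_nonneg _).trans (key α β (fun _ _ => rfl) fun _ _ => rfl)
  obtain ⟨⟨k1, k2, k3, -⟩, -⟩ := hK T h3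
  have g0 : 0 < (16 * T ^ 2)⁻¹ := by positivity
  have bd : ∀ u : ℝ, ‖ob T ((0 : ℝ) + u * I)‖ ≤ K / T * Real.exp (-(16 * T ^ 2)⁻¹ * u ^ 2) := fun u => by
    refine (k2 _ (by simp)).trans (le_of_eq ?_)
    congr 2
    simp; field_simp; norm_num
  have gi := (integrable_exp_neg_mul_sq g0).const_mul (K / T)
  have oc : Continuous fun u : ℝ => ob T ((0 : ℝ) + u * I) := k1.continuous.comp (by fun_prop)
  have nc : ∀ (x : ℝ) (u : ℝ), 0 < x → ‖(x : ℂ) ^ (-((0 : ℝ) + u * I))‖ = 1 := fun x u hx => by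
    rw [norm_cpow_eq_rpow_re_of_pos hx]; simp
  have ii : ∀ x : ℝ, 0 < x →
      Integrable fun u : ℝ => ob T ((0 : ℝ) + u * I) * (x : ℂ) ^ (-((0 : ℝ) + u * I)) := fun x hx =>
    gi.mono' (oc.mul (Continuous.const_cpow (by fun_prop) (Or.inl (by exact_mod_cast hx.ne')))
      ).aestronglyMeasurable (ae_of_all _ fun u => by rw [norm_mul, nc x u hx, mul_one]; exact bd u)
  have pa : ∀ a ∈ S, 0 < N a := fun a ha => by linarith [(hS a ha).2.1]
  have pb : ∀ b ∈ U, 0 < N b := fun b hb => by linarith [(hU b hb).2.1]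
  have px : ∀ a ∈ S, ∀ b ∈ U, 0 < N a * N b / X := fun a ha b hb =>
    div_pos (mul_pos (pa a ha) (pb b hb)) h6
  have e : ∑ a ∈ S, ∑ b ∈ U, α a * β b * cub a b * bT T (N a * N b / X) = (1 / (2 * Real.pi) : ℝ) *
      ∫ u : ℝ, ob T ((0 : ℝ) + u * I) * ((X⁻¹ : ℝ) : ℂ) ^ (-((0 : ℝ) + u * I)) * ∑ a ∈ S, ∑ b ∈ U,
        α a * (N a : ℂ) ^ (-((0 : ℝ) + u * I)) * (β b * (N b : ℂ) ^ (-((0 : ℝ) + u * I))) * cub a b := by
    have : ∀ u : ℝ, ob T ((0 : ℝ) + u * I) * ((X⁻¹ : ℝ) : ℂ) ^ (-((0 : ℝ) + u * I)) * ∑ a ∈ S, ∑ b ∈ U,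
        α a * (N a : ℂ) ^ (-((0 : ℝ) + u * I)) * (β b * (N b : ℂ) ^ (-((0 : ℝ) + u * I))) * cub a b =
        ∑ a ∈ S, ∑ b ∈ U, α a * β b * cub a b *
          (ob T ((0 : ℝ) + u * I) * ((N a * N b / X : ℝ) : ℂ) ^ (-((0 : ℝ) + u * I))) := fun u => by
      simp only [mul_sum]
      refine sum_congr rfl fun a ha => sum_congr rfl fun b hb => ?_
      rw [div_eq_mul_inv, ofReal_mul, ofReal_mul, ← ofReal_mul (N a),
        mul_cpow_ofReal_nonneg (mul_pos (pa a ha) (pb b hb)).le (by positivity), ofReal_mul,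
        mul_cpow_ofReal_nonneg (pa a ha).le (pb b hb).le]
      ring
    simp only [this]
    rw [integral_finsetSum _ fun a ha => integrable_finsetSum _ fun b hb =>
      (ii _ (px a ha b hb)).const_mul _, mul_sum]
    refine sum_congr rfl fun a ha => ?_
    rw [integral_finsetSum _ fun b hb => (ii _ (px a ha b hb)).const_mul _, mul_sum]
    refine sum_congr rfl fun b hb => ?_
    rw [integral_const_mul, k3 0 _ (by simp) (px a ha b hb), mul_left_comm]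
  have b := norm_integral_le_of_norm_le (gi.mul_const (Real.sqrt D))
    (f := fun u : ℝ => ob T ((0 : ℝ) + u * I) * ((X⁻¹ : ℝ) : ℂ) ^ (-((0 : ℝ) + u * I)) * ∑ a ∈ S, ∑ b ∈ U,
      α a * (N a : ℂ) ^ (-((0 : ℝ) + u * I)) * (β b * (N b : ℂ) ^ (-((0 : ℝ) + u * I))) * cub a b)
    (ae_of_all _ fun u => by
      rw [norm_mul, norm_mul, nc _ u (by positivity), mul_one]
      exact mul_le_mul (bd u) (Real.le_sqrt_of_sq_le (key _ _
        (fun a ha => by rw [norm_mul, nc _ u (pa a ha), mul_one])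
        fun a ha => by rw [norm_mul, nc _ u (pb a ha), mul_one])) (norm_nonneg _) (by positivity))
  rw [integral_mul_const, integral_const_mul, integral_gaussian] at b
  have q : Real.sqrt (Real.pi / (16 * T ^ 2)⁻¹) ≤ 8 * T := Real.sqrt_le_iff.2 ⟨by positivity, by
    rw [div_inv_eq_mul]; nlinarith [Real.pi_le_four, sq_nonneg T]⟩
  have fin : ‖∑ a ∈ S, ∑ b ∈ U, α a * β b * cub a b * bT T (N a * N b / X)‖ ≤ 8 * K * Real.sqrt D := by
    rw [e, norm_mul, norm_real, Real.norm_of_nonneg (by positivity)]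
    refine (mul_le_of_le_one_left (norm_nonneg _) ?_).trans (b.trans ?_)
    · rw [div_le_one (by positivity)]; linarith [Real.pi_gt_three]
    · calc _ ≤ K / T * (8 * T) * Real.sqrt D := by gcongr
        _ = _ := by field_simp
  refine (pow_le_pow_left₀ (norm_nonneg _) fin 2).trans (le_of_eq ?_)
  rw [mul_pow, Real.sq_sqrt D0, hD]
  ring

end Vale.Agent.P006.S
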