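import Vale.Agent.P006.S2
import Vale.Agent.P006.Pit

/-! P006 branch S: the trivial range. -/

noncomputable section
open Finset
open scoped Classical

namespace Vale.Agent.P006.S

open Vale.Agent.P026 W1 Vau

namespace CUTM

theorem pt {T x : ℝ} (hT : 1 ≤ T) (hx : 0 < x) :
    Real.exp (-(T * Real.log x) ^ 2) ≤ 3 * ((1 + T * |x - 1|) ^ 2)⁻¹ := by
  have a : 1 + T * |x - 1| ≤ Real.exp (T * |Real.log x|) := by
    rcases le_total 1 x with h | h
    · rw [abs_of_nonneg (by linarith), abs_of_nonneg (Real.log_nonneg h), mul_comm T (Real.log x),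
        Real.exp_mul, Real.exp_log hx]
      simpa using one_add_mul_self_le_rpow_one_add (s := x - 1) (by linarith) hT
    · rw [abs_of_nonpos (by linarith), abs_of_nonpos (Real.log_nonpos hx.le h)]
      nlinarith [Real.add_one_le_exp (T * -Real.log x), Real.log_le_sub_one_of_pos hx]
  have b : 0 < 1 + T * |x - 1| := by positivity
  rw [le_mul_inv_iff₀ (by positivity)]
  refine (mul_le_mul_of_nonneg_left (pow_le_pow_left₀ b.le a 2) (Real.exp_pos _).le).trans ?_
  rw [← Real.exp_nat_mul, ← Real.exp_add]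
  refine (Real.exp_le_exp.2 ?_).trans Real.exp_one_lt_three.le
  rw [mul_pow, ← sq_abs (Real.log x)]
  push_cast
  nlinarith [sq_nonneg (T * |Real.log x| - 1)]

theorem tel {a : ℝ} (ha : 0 < a) (n : ℕ) : ∑ j ∈ range n, ((1 + a * j) ^ 2)⁻¹ ≤ 1 + a⁻¹ := by
  have : ∀ n : ℕ, ∑ j ∈ range (n + 1), ((1 + a * j) ^ 2)⁻¹ ≤ 1 + a⁻¹ - a⁻¹ * (1 + a * n)⁻¹ := by
    intro n
    induction n with
    | zero => simp
    | succ n ih =>
      rw [sum_range_succ]
      push_cast
      have p : 0 < 1 + a * n := by positivity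
      have e : a⁻¹ * (1 + a * n)⁻¹ - a⁻¹ * (1 + a * (n + 1))⁻¹ =
          ((1 + a * n) * (1 + a * (n + 1)))⁻¹ := by field_simp; ring
      have : ((1 + a * (n + 1)) ^ 2)⁻¹ ≤ ((1 + a * n) * (1 + a * (n + 1)))⁻¹ :=
        inv_anti₀ (by positivity) (by nlinarith)
      linarith
  refine (sum_le_sum_of_subset_of_nonneg (range_mono n.le_succ) fun _ _ _ => by positivity).trans
    ((this n).trans ?_)
  have : 0 ≤ a⁻¹ * (1 + a * n)⁻¹ := by positivity
  linarith

theorem tot {a X : ℝ} (ha : 0 < a) (hX : 0 ≤ X) (m : ℕ) :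
    ∑ k ∈ Icc 0 m, ((1 + a * |k - X|) ^ 2)⁻¹ ≤ 2 * (1 + a⁻¹) := by
  refine (sum_le_sum_of_subset_of_nonneg (t := range (⌊X⌋₊ + 1 + m))
    (fun k hk => mem_range.2 (by have := (mem_Icc.1 hk).2; omega)) fun _ _ _ => by positivity).trans ?_
  rw [sum_range_add, ← sum_range_reflect, two_mul]
  have f1 := Nat.floor_le hX
  have f2 := Nat.lt_floor_add_one X
  have key : ∀ (j : ℕ) (y : ℝ), j ≤ |y| → ((1 + a * |y|) ^ 2)⁻¹ ≤ ((1 + a * j) ^ 2)⁻¹ :=
    fun j y h => inv_anti₀ (by positivity) (by gcongr)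
  refine add_le_add (le_trans (sum_le_sum fun j hj => key j _ (le_abs.2 (Or.inr ?_))) (tel ha _))
    (le_trans (sum_le_sum fun j _ => key j _ (le_abs.2 (Or.inl ?_))) (tel ha _))
  · rw [Nat.add_sub_cancel, Nat.cast_sub (by have := mem_range.1 hj; omega)]
    linarith
  · push_cast; linarith

end CUTM

open CUTM in
theorem cutS : CUTStmt := by
  refine ⟨24, by norm_num, fun X T hX hT => ?_⟩
  have l0 : 0 ≤ Real.log X := Real.log_nonneg (by linarith)
  have a0 : 0 < T / X := by positivity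
  calc _ ≤ ∑ n ∈ PS (X ^ 2), if Prime n then
        6 * Real.log X * ((1 + T / X * |(Nn n : ℝ) - X|) ^ 2)⁻¹ else 0 := sum_le_sum fun n hn => by
        obtain ⟨h1, h2⟩ := mem_PS.1 hn
        have n1 := N1 h1
        split_ifs with k
        · have b1 : Lam n ≤ 2 * Real.log X := (Lam_le h1).trans
            ((Real.log_le_log (by linarith) h2).trans (by rw [Real.log_pow]; norm_num))
          have b2 : ‖g0 n‖ ≤ 1 := by rw [g0, if_pos k.squarefree, Z0.norm_gt h1 k.squarefree]
          have b3 := pt hT (x := N n / X) (by positivity)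
          rw [show T * |N n / X - 1| = T / X * |(Nn n : ℝ) - X| by
            rw [div_sub_one (by linarith), abs_div, abs_of_pos (by linarith : 0 < X), N]; ring] at b3
          calc _ ≤ 2 * Real.log X * 1 * (3 * ((1 + T / X * |(Nn n : ℝ) - X|) ^ 2)⁻¹) := by gcongr
            _ = _ := by ring
        · refine le_of_eq (mul_eq_zero_of_left (by_contra fun z => k ?_) _)
          obtain ⟨p, j, p1, -, j0, rfl⟩ := Lam_ne h1 (left_ne_zero_of_mul z)
          have s : Squarefree (p ^ j) := by_contra fun s => right_ne_zero_of_mul z (by simp [g0, s])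
          rwa [(s.eq_zero_or_one_of_pow_of_not_isUnit p1.not_isUnit).resolve_left j0, pow_one]
    _ ≤ ∑ k ∈ Icc 0 ⌊X ^ 2⌋₊, 12 * Real.log X * ((1 + T / X * |(k : ℝ) - X|) ^ 2)⁻¹ := by
        rw [← sum_filter, PitM.sum_eq (X := X ^ 2) (by positivity) (fun p => by
          rw [mem_filter, mem_PS]; tauto)
          fun k => 6 * Real.log X * ((1 + T / X * |(k : ℝ) - X|) ^ 2)⁻¹]
        refine sum_le_sum fun k _ => (mul_le_mul_of_nonneg_right
          (Nat.cast_le.2 (PitM.cnt_le bas k)) (by positivity)).trans (le_of_eq ?_)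
        push_cast; ring
    _ ≤ _ := by
        rw [← mul_sum]
        refine (mul_le_mul_of_nonneg_left (tot a0 (by linarith) _) (by positivity)).trans (le_of_eq ?_)
        rw [inv_div]; ring

end Vale.Agent.P006.S
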