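import Vale.Agent.P006.S2
import Vale.Agent.P006.K.W8
import Vale.Agent.P006.A.TI

/-! Convexity bound for the Dirichlet series over squarefree elements. -/

noncomputable section
open Complex MeasureTheory Filter Topology
open scoped Classical ComplexConjugate

namespace Vale.Agent.P006.S
open Vale.Agent.P026 ZKM

namespace CVM

lemma N1 {k : O} (hk : Prim k) : 1 ≤ N k := W1.bas.b1.N_one_le _ (W1.bas.b2.ne _ hk)
lemma N0 (n : O) : 0 ≤ N n := Nat.cast_nonneg _

lemma MZ {w : ℂ} (hw : 1 < w.re) : ∀ s, Prim s →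
    Mf (pw w) (fun n => IsCoprime n s) * Zf (pw w) (fun n => IsCoprime n s) = 1 := by
  have hB := W1.bas
  have hf := summ hB hw
  refine hB.b2.ind1 _ ?_ fun p a hp hq ha ih => ?_
  · simpa only [isCoprime_one_right] using Mf_mul_Zf hB hf (pw_mul w) (pw_one w)
  · by_cases c : p ∣ a
    · simpa only [K.W8M.cop_iff' hp c] using ih
    · simp only [K.W8M.cop_iff hp]
      rw [Zf_split hB hf (pw_mul w) hp hq fun m => K.W8M.cop_mul hp c]
      rw [Mf_split hB hf (pw_mul w) hp hq fun m => K.W8M.cop_mul hp c] at ih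
      linear_combination ih

lemma pwe {x : ℝ} (hx : 0 < x) (z : ℂ) : (x : ℂ) ^ 2 / (Real.sqrt (x ^ 3) : ℝ) *
    ((x ^ 3 : ℝ) : ℂ) ^ (-z) = (x : ℂ) ^ (-(3 * z - 1 / 2)) := by
  have h3 : 0 < x ^ 3 := by positivity
  have e : (x : ℂ) = cexp (Real.log x) := by rw [← ofReal_exp, Real.exp_log hx]
  rw [cpow_def_of_ne_zero (ofReal_ne_zero.2 hx.ne'), cpow_def_of_ne_zero (ofReal_ne_zero.2 h3.ne'),
    ← ofReal_log hx.le, ← ofReal_log h3.le, Real.sqrt_eq_rpow, Real.rpow_def_of_pos h3, Real.log_pow,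
    ofReal_exp, e, ← exp_nat_mul, ← exp_sub, ← exp_add]
  congr 1
  push_cast
  ring

lemma term {z : ℂ} {σ : ℝ} (hz : σ ≤ z.re) (r k : O) :
    ‖if Prim k then K.cc k * cub r k * (N k : ℂ) ^ (-z) else 0‖ ≤ ‖bb k‖ * N k ^ (-(1 / 2 + σ)) := by
  have := N0 k
  split_ifs with h
  · have n1 := N1 h
    rw [norm_mul, norm_mul, norm_cpow_eq_rpow_re_of_pos (by linarith), neg_add,
      Real.rpow_add (by linarith), ← mul_assoc]
    exact mul_le_mul ((mul_le_of_le_one_right (norm_nonneg _) (W1.bas.b6.norm_le _ _)).trans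
      (Z.TIM.ccle h)) (Real.rpow_le_rpow_of_exponent_le n1 (by rw [neg_re]; linarith))
      (by positivity) (by positivity)
  · rw [norm_zero]; positivity

lemma LS_eq (r : O) {z : ℂ} (hz : 1 < z.re) :
    Z.LS r z = Zf (pw (3 * z - 1 / 2)) (fun n => IsCoprime n r) * DS r z := by
  have hB := W1.bas
  set f : O → ℂ := fun k => if Prim k then
    cub lam k / (Real.sqrt (N k) : ℂ) * cub r k * (N k : ℂ) ^ (-z) else 0 with hf
  have e0 : ∀ k, bb k * f k = if Prim k then K.cc k * cub r k * (N k : ℂ) ^ (-z) else 0 := fun k => by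
    simp only [hf, K.cc]
    split_ifs
    · ring
    · simp
  have hs : Summable fun k => bb k * f k :=
    (W1.bb.summ (1 / 2 + z.re) (by linarith)).of_norm_bounded fun k => by
      rw [e0]; exact term le_rfl r k
  rw [Z.LS, ← tsum_congr e0, W1.bb.tsum_eq f hs, Zf, ← tsum_mul_right]
  refine tsum_congr fun u => ?_
  rw [DS, ← tsum_mul_left]
  refine tsum_congr fun n => ?_
  by_cases c : Prim u ∧ Prim n ∧ Squarefree n
  · obtain ⟨c1, c2, c3⟩ := c
    have p3 := hB.b2.pow u 3 c1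
    have u0 := hB.b2.ne u c1
    have n0 := hB.b2.ne n c2
    have a1 := N1 c1
    have a2 := N1 c2
    have lu : IsCoprime lam u := hB.b1.prime_lam.irreducible.coprime_iff_not_dvd.2
      ((hB.b2.cop_iff u).1 (hB.b2.cop u c1))
    simp only [hf, c1, c2, c3, hB.b2.mul _ _ c2 p3, true_and, and_true, if_true, g0, gt]
    rw [hB.b6.mul_r _ _ _ n0 (pow_ne_zero 3 u0), hB.b6.mul_r _ _ _ n0 (pow_ne_zero 3 u0),
      hB.b6.pow_r _ _ _ u0, hB.b6.pow_r _ _ _ u0, hB.b6.cube _ _ lu, hB.b1.N_mul, hB.b1.N_pow,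
      Real.sqrt_mul (N0 n), ofReal_mul, ofReal_mul, mul_cpow_ofReal_nonneg (N0 n) (by positivity)]
    by_cases c4 : IsCoprime u r
    · have e : pw (3 * z - 1 / 2) (Nn u) = (N u : ℂ) ^ (-(3 * z - 1 / 2)) := by
        rw [pw, N, ofReal_natCast]
      rw [if_pos c4, hB.b6.cube _ _ c4.symm, e, ← pwe (by linarith)]
      ring
    · rw [if_neg c4, hB.b6.zero r u u0 fun h => c4 h.symm]
      simp
  · rw [if_neg c]
    by_cases c1 : Prim u
    · by_cases c2 : Prim n
      · rw [g0, if_neg fun h => c ⟨c1, c2, h⟩]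
        simp
      · simp [c2]
    · simp [c1]

lemma mterm {z : ℂ} {σ : ℝ} (hz : 1 / 2 + σ ≤ z.re) (S : O → Prop) (n : O) :
    ‖if Prim n ∧ S n then mu n * pw (3 * z - 1 / 2) (Nn n) else 0‖ ≤ N n ^ (-(1 + 3 * σ)) := by
  have := N0 n
  split_ifs with h
  · have n1 := N1 h.1
    rw [norm_mul, pw, ← ofReal_natCast]
    refine (mul_le_of_le_one_left (norm_nonneg _) (norm_mu n)).trans ?_
    change ‖(N n : ℂ) ^ _‖ ≤ _
    rw [norm_cpow_eq_rpow_re_of_pos (by linarith)]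
    refine Real.rpow_le_rpow_of_exponent_le n1 ?_
    simp
    linarith
  · rw [norm_zero]; positivity

lemma Md (S : O → Prop) :
    DifferentiableOn ℂ (fun z => Mf (pw (3 * z - 1 / 2)) S) {z | 1 / 2 < z.re} := by
  intro z hz
  have h : 1 / 2 < z.re := hz
  have ho : IsOpen {w : ℂ | 1 / 2 + (z.re - 1 / 2) / 2 < w.re} :=
    isOpen_lt continuous_const Complex.continuous_re
  refine ((differentiableOn_tsum_of_summable_norm (W1.bas.b3.summ (1 + 3 * ((z.re - 1 / 2) / 2))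
    (by linarith)) (fun n => ?_) ho fun n w hw => mterm (le_of_lt hw) S n).differentiableAt
    (ho.mem_nhds (show _ < z.re by linarith))).differentiableWithinAt
  split_ifs with c
  · refine (Differentiable.const_mul ?_ _).differentiableOn
    exact Differentiable.const_cpow (by fun_prop)
      (Or.inl (Nat.cast_ne_zero.2 (Nn_pos W1.bas c.1).ne'))
  · exact differentiableOn_const _

end CVM

open CVM

theorem cvS (hCT : Z.CTStmt) (hP : PLStmt) (hG : G0Stmt) : CVStmt := by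
  intro δ h0 h1
  obtain ⟨ρ, hρ⟩ := hCT
  obtain ⟨C, c0, hC⟩ := hρ (δ / 2) (by linarith) (by linarith)
  obtain ⟨C1, c1, hC1⟩ := hP (-(δ / 2)) (1 + δ / 2) (3 + 4 * (δ / 2)) 1 8 (by linarith) (by linarith)
    zero_le_one
  have s1 := W1.bb.summ (1 / 2 + (1 + δ / 2)) (by linarith)
  have s2 := W1.bas.b3.summ (1 + 3 * δ) (by linarith)
  set A := ∑' k, ‖bb k‖ * N k ^ (-(1 / 2 + (1 + δ / 2))) with hA
  set B := ∑' n : O, N n ^ (-(1 + 3 * δ)) with hB
  have A0 : 0 ≤ A := tsum_nonneg fun k => mul_nonneg (norm_nonneg _) (Real.rpow_nonneg (N0 k) _)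
  have B0 : 0 ≤ B := tsum_nonneg fun k => Real.rpow_nonneg (N0 k) _
  refine ⟨(‖ρ‖ + (C1 + 1) * ((C + 1) * (A + 1))) * B, by positivity, fun r hr => ?_⟩
  obtain ⟨F, f1, f2, f3, f4, f5⟩ := hC r hr.1
  obtain ⟨K0, f2⟩ := f2 (-(δ / 2))
  have n1 := N1 hr.1
  have bM : ∀ z : ℂ, 1 / 2 + δ ≤ z.re → ‖Mf (pw (3 * z - 1 / 2)) fun n => IsCoprime n r‖ ≤ B :=
    fun z hz => tsum_of_norm_bounded s2.hasSum (mterm hz _)
  have bR : ∀ z : ℂ, 1 + δ / 2 ≤ z.re → z.re ≤ 5 / 4 → ‖F z‖ ≤ (A + 1) * (1 + |z.im|) :=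
    fun z a1 a2 => by
    have b1 : ‖Z.LS r z‖ ≤ A := tsum_of_norm_bounded s1.hasSum (term a1 r)
    have b2 : ‖z - 5 / 6‖ ≤ 1 + |z.im| := by
      have := norm_le_abs_re_add_abs_im (z - 5 / 6)
      have e : |z.re - 5 / 6| ≤ 1 := abs_le.2 ⟨by linarith, by linarith⟩
      simp at this
      linarith
    rw [f4 z (by linarith) (by linarith), norm_mul, mul_comm]
    exact mul_le_mul (by linarith) b2 (norm_nonneg _) (by linarith)
  have bF : ∀ z : ℂ, 1 / 2 + δ ≤ z.re → z.re ≤ 5 / 4 → ‖F z‖ ≤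
      (C1 + 1) * ((C + 1) * (A + 1)) * N r ^ (1 / 4 + δ) * (1 + |z.im|) ^ (2 + δ) := fun z a1 a2 => by
    have w1 : 1 ≤ 1 + |z.im| := by linarith [abs_nonneg z.im]
    have p1 : 1 ≤ N r ^ (1 / 4 + δ) := Real.one_le_rpow n1 (by linarith)
    rcases le_total (1 + δ / 2) z.re with h | h
    · calc _ ≤ (A + 1) * (1 + |z.im|) := bR z h a2
        _ = 1 * (1 * (A + 1)) * 1 * (1 + |z.im|) ^ (1 : ℝ) := by rw [Real.rpow_one]; ring
        _ ≤ _ := by gcongr <;> linarith
    · have := hC1 F K0 ((C + 1) * N r ^ (1 / 2 + 3 * (δ / 2))) (A + 1)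
        (f1.mono fun s hs => by have := hs.2; change s.re < 3 / 2; linarith)
        (fun s b1 b2 => f2 s b1 (by linarith)) (by positivity) (by positivity)
        (fun t => by
          rw [ofReal_neg]
          exact (f5 t).trans (by gcongr; linarith))
        (fun t => by simpa using bR (((1 + δ / 2 : ℝ) : ℂ) + t * I) (by simp) (by simp; linarith))
        z (by linarith) h
      set θ := (1 + δ / 2 - z.re) / (1 + δ / 2 - -(δ / 2)) with hθ
      have t0 : 0 ≤ θ := div_nonneg (by linarith) (by linarith)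
      have t1 : θ ≤ 1 / 2 := by rw [hθ, div_le_iff₀ (by linarith)]; linarith
      have t2 : (z.re - -(δ / 2)) / (1 + δ / 2 - -(δ / 2)) = 1 - θ := by
        rw [hθ, eq_sub_iff_add_eq, ← add_div, div_eq_one_iff_eq (by linarith)]; ring
      rw [t2, Real.mul_rpow (by positivity) (by positivity), Real.mul_rpow (by positivity) (by positivity),
        Real.mul_rpow (by positivity) (by positivity), ← Real.rpow_mul (by linarith),
        ← Real.rpow_mul (by linarith), ← Real.rpow_mul (by linarith)] at this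
      have q1 : (C + 1) ^ θ ≤ C + 1 := Real.rpow_le_self_of_one_le (by linarith) (by linarith)
      have q2 : (A + 1) ^ (1 - θ) ≤ A + 1 := Real.rpow_le_self_of_one_le (by linarith) (by linarith)
      have q3 : N r ^ ((1 / 2 + 3 * (δ / 2)) * θ) ≤ N r ^ (1 / 4 + δ) :=
        Real.rpow_le_rpow_of_exponent_le n1 (by nlinarith)
      have q4 : (1 + |z.im|) ^ ((3 + 4 * (δ / 2)) * θ) * (1 + |z.im|) ^ (1 * (1 - θ)) ≤
          (1 + |z.im|) ^ (2 + δ) := by
        rw [← Real.rpow_add (by linarith)]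
        exact Real.rpow_le_rpow_of_exponent_le w1 (by nlinarith)
      calc _ ≤ _ := this
        _ = C1 * ((C + 1) ^ θ * (A + 1) ^ (1 - θ)) * N r ^ ((1 / 2 + 3 * (δ / 2)) * θ) *
            ((1 + |z.im|) ^ ((3 + 4 * (δ / 2)) * θ) * (1 + |z.im|) ^ (1 * (1 - θ))) := by ring
        _ ≤ _ := by gcongr; linarith
  have k0 : 0 ≤ (C1 + 1) * ((C + 1) * (A + 1)) := by positivity
  refine ⟨fun z => F z * Mf (pw (3 * z - 1 / 2)) fun n => IsCoprime n r,
    (f1.mono fun s hs => hs.2).mul ((Md _).mono fun s hs => hs.1), ?_, fun z a1 a2 => ?_,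
    fun z a1 a2 => ?_⟩
  · have f : ∀ p : O, 0 ≤ 1 - (N p)⁻¹ ∧ 1 - (N p)⁻¹ ≤ 1 := fun p =>
      ⟨sub_nonneg.2 (Nat.cast_inv_le_one _), sub_le_self _ (inv_nonneg.2 (Nat.cast_nonneg _))⟩
    have e0 : 0 ≤ K.EP r := Finset.prod_nonneg fun p _ => (f p).1
    have e1 : K.EP r ≤ 1 := Finset.prod_le_one (fun p _ => (f p).1) fun p _ => (f p).2
    have e2 : ‖K.cc r‖ ≤ 1 := by rw [hG.2.2.2 r hr.1 hr.2]; exact hG.2.1 r hr.1
    have e3 := bM (5 / 6) (by norm_num; linarith)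
    rw [norm_mul, f3, norm_mul, K.MM, norm_mul, norm_conj, norm_real,
      Real.norm_of_nonneg (by positivity)]
    calc _ ≤ ‖ρ‖ * (1 * (N r ^ (-1 / 6 : ℝ) * 1)) * B := by gcongr
      _ = ‖ρ‖ * B * N r ^ (-1 / 6 : ℝ) := by ring
      _ ≤ _ := by gcongr; linarith
  · have := MZ (w := 3 * z - 1 / 2) (by simp; linarith) r hr.1
    simp only
    rw [f4 z a1 a2, LS_eq r a1]
    linear_combination (z - 5 / 6) * DS r z * this
  · rw [norm_mul]
    calc _ ≤ (C1 + 1) * ((C + 1) * (A + 1)) * N r ^ (1 / 4 + δ) * (1 + |z.im|) ^ (2 + δ) * B :=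
          mul_le_mul (bF z a1 a2) (bM z a1) (norm_nonneg _) (by positivity)
      _ = (C1 + 1) * ((C + 1) * (A + 1)) * B * N r ^ (1 / 4 + δ) * (1 + |z.im|) ^ (2 + δ) := by ring
      _ ≤ _ := by gcongr; linarith [norm_nonneg ρ]

end Vale.Agent.P006.S
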