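import Vale.Agent.P006.S2
import Vale.Agent.P006.S.ALL

noncomputable section
open Complex MeasureTheory
open scoped Classical ComplexConjugate

namespace Vale.Agent.P006.S
open Vale.Agent.P026

namespace DIVM
open Finset W1

theorem lat {σ : ℝ} (hσ : σ < 1) : ∃ C : ℝ, 0 < C ∧ ∀ (z : ℝ) (s : Finset O), 0 ≤ z →
    (∀ m ∈ s, m ≠ 0 ∧ N m ≤ z) → ∑ m ∈ s, (z / N m) ^ σ ≤ C * z := by
  obtain ⟨r, r0, r1, hr⟩ : ∃ r : ℝ, 0 ≤ r ∧ r < 1 ∧ ∀ j : ℕ, ((2 : ℝ) ^ j) ^ σ / 2 ^ j ≤ r ^ j := by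
    refine ⟨2 ^ (σ - 1), by positivity, Real.rpow_lt_one_of_one_lt_of_neg one_lt_two (by linarith),
      fun j => le_of_eq ?_⟩
    rw [← Real.rpow_natCast, ← Real.rpow_natCast, ← Real.rpow_mul zero_le_two,
      ← Real.rpow_mul zero_le_two, ← Real.rpow_sub two_pos]
    congr 1; ring
  have : 0 < 1 - r := by linarith
  refine ⟨16 * (2 ^ σ + 1) * (1 - r)⁻¹, by positivity, fun z s hz hs => ?_⟩
  rw [← sum_fiberwise_of_maps_to (g := fun m => Nat.log 2 ⌊z / N m⌋₊)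
    (t := s.image fun m => Nat.log 2 ⌊z / N m⌋₊) fun m hm => mem_image_of_mem _ hm]
  refine (sum_le_sum (g := fun j => 16 * (2 ^ σ + 1) * z * r ^ j) fun j _ => ?_).trans ?_
  · have key : ∀ m ∈ s.filter fun m => Nat.log 2 ⌊z / N m⌋₊ = j,
        2 ^ j ≤ z / N m ∧ z / N m ≤ 2 * 2 ^ j := fun m hm => by
      obtain ⟨h1, rfl⟩ := mem_filter.1 hm
      have n1 := bas.b1.N_one_le m (hs m h1).1
      have q : 1 ≤ z / N m := (one_le_div (by linarith)).2 (hs m h1).2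
      have q' : ⌊z / N m⌋₊ ≠ 0 := (Nat.floor_pos.2 q).ne'
      constructor
      · exact_mod_cast (Nat.le_floor_iff (by linarith)).1 (Nat.pow_log_le_self 2 q')
      · have := (Nat.floor_lt (by linarith)).1 (Nat.lt_pow_succ_log_self one_lt_two ⌊z / N m⌋₊)
        push_cast at this
        rw [pow_succ] at this
        linarith
    have c := bas.b3.card_le (z / 2 ^ j) (s.filter fun m => Nat.log 2 ⌊z / N m⌋₊ = j) (by positivity)
      fun m hm => ⟨(hs m (mem_filter.1 hm).1).1, by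
        have n1 := bas.b1.N_one_le m (hs m (mem_filter.1 hm).1).1
        have := (key m hm).1
        rw [le_div_iff₀ (by linarith)] at this
        rw [le_div_iff₀ (by positivity)]
        linarith⟩
    refine (sum_le_card_nsmul _ _ ((2 ^ σ + 1) * ((2 : ℝ) ^ j) ^ σ) fun m hm => ?_).trans ?_
    · have p : (0 : ℝ) < ((2 : ℝ) ^ j) ^ σ := by positivity
      have p2 : (0 : ℝ) < 2 ^ σ := by positivity
      rcases le_total 0 σ with k | k
      · refine (Real.rpow_le_rpow (by linarith [(key m hm).1, show (0 : ℝ) < 2 ^ j by positivity])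
          (key m hm).2 k).trans ?_
        rw [Real.mul_rpow zero_le_two (by positivity)]
        nlinarith
      · refine (Real.rpow_le_rpow_of_nonpos (by positivity) (key m hm).1 k).trans ?_
        nlinarith
    · rw [nsmul_eq_mul]
      calc _ ≤ 16 * (z / 2 ^ j) * ((2 ^ σ + 1) * ((2 : ℝ) ^ j) ^ σ) := by gcongr
        _ = 16 * (2 ^ σ + 1) * z * (((2 : ℝ) ^ j) ^ σ / 2 ^ j) := by ring
        _ ≤ _ := by gcongr; exact hr j
  · rw [← mul_sum, mul_right_comm _ (1 - r)⁻¹ z, ← tsum_geometric_of_lt_one r0 r1]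
    exact mul_le_mul_of_nonneg_left ((summable_geometric_of_lt_one r0 r1).sum_le_tsum _
      fun _ _ => by positivity) (by positivity)

theorem tsum_le (Y : ℝ) (S : Finset O) (hS : ∀ n ∈ S, Prim n ∧ N n ≤ Y) :
    ∑ n ∈ S, tau n / N n ≤ (∑ d ∈ Vau.PS Y, (N d)⁻¹) * ∑ d ∈ Vau.PS Y, (N d)⁻¹ := by
  have h0 : ∀ x : O × O, 0 ≤ (N x.1)⁻¹ * (N x.2)⁻¹ := fun x =>
    mul_nonneg (inv_nonneg.2 (Vau.N0 _)) (inv_nonneg.2 (Vau.N0 _))
  rw [sum_mul_sum, ← sum_product']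
  have h1 : ∀ n ∈ S, tau n / N n ≤
      ∑ x ∈ (Vau.PS Y ×ˢ Vau.PS Y) with x.1 * x.2 = n, (N x.1)⁻¹ * (N x.2)⁻¹ := by
    intro n hn
    obtain ⟨p1, p2⟩ := hS n hn
    have n0 := bas.b2.ne n p1
    have e : ∑ x ∈ (Vau.PS Y ×ˢ Vau.PS Y) with x.1 * x.2 = n, (N x.1)⁻¹ * (N x.2)⁻¹ =
        (((Vau.PS Y ×ˢ Vau.PS Y).filter fun x => x.1 * x.2 = n).card : ℝ) * (N n)⁻¹ := by
      rw [← nsmul_eq_mul, ← sum_const]
      refine sum_congr rfl fun x hx => ?_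
      rw [← (mem_filter.1 hx).2, bas.b1.N_mul, mul_inv]
    rw [e, div_eq_mul_inv]
    refine mul_le_mul_of_nonneg_right ?_ (inv_nonneg.2 (Vau.N0 _))
    unfold tau
    have : dv n ⊆ ((Vau.PS Y ×ˢ Vau.PS Y).filter fun x => x.1 * x.2 = n).image Prod.fst := by
      intro d hd
      obtain ⟨d1, c, rfl⟩ := ((memS bas).2 n d n0).1 hd
      have e1 := bas.b2.cancel d c d1 p1
      refine mem_image.2 ⟨(d, c), mem_filter.2 ⟨mem_product.2 ⟨Vau.mem_PS.2 ⟨d1, ?_⟩,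
        Vau.mem_PS.2 ⟨e1, ?_⟩⟩, rfl⟩, rfl⟩
      · exact (Vau.N_dvd n0 (Dvd.intro _ rfl)).trans p2
      · exact (Vau.N_dvd n0 (Dvd.intro_left _ rfl)).trans p2
    exact_mod_cast (card_le_card this).trans card_image_le
  refine (sum_le_sum h1).trans ?_
  rw [sum_fiberwise_eq_sum_filter]
  exact sum_le_sum_of_subset_of_nonneg (filter_subset _ _) fun x _ _ => h0 x

end DIVM

theorem divS : DIVStmt := by
  have hB := W1.bas
  obtain ⟨C, hC0, hC⟩ := DIVM.lat (σ := 1 / 4) (by norm_num)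
  refine ⟨4096 + C, by positivity, fun Y S hY hS => ?_⟩
  have hS' : ∀ n ∈ S, n ≠ 0 ∧ N n ≤ Y := fun n hn => ⟨hB.b2.ne n (hS n hn).1, (hS n hn).2⟩
  have hl : 0 ≤ Real.log Y := Real.log_nonneg hY
  have hY0 : 0 < Y := by linarith
  refine ⟨?_, ?_, ?_, ?_⟩
  · have h1 := ALLM.harm hB hY (Vau.PS Y) fun n hn =>
      ⟨hB.b2.ne n (Vau.mem_PS.1 hn).1, (Vau.mem_PS.1 hn).2⟩
    have h0 : 0 ≤ ∑ d ∈ Vau.PS Y, (N d)⁻¹ := Finset.sum_nonneg fun d _ => inv_nonneg.2 (Vau.N0 _)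
    refine (DIVM.tsum_le Y S hS).trans ((mul_le_mul h1 h1 h0 (by positivity)).trans ?_)
    have : 0 ≤ C * (1 + Real.log Y) ^ 2 := by positivity
    nlinarith
  · refine (ALLM.harm hB hY S hS').trans ?_
    gcongr
    linarith
  · have h1 := hC Y S hY0.le hS'
    have e : ∑ n ∈ S, N n ^ (-1 / 4 : ℝ) = Y ^ (-1 / 4 : ℝ) * ∑ n ∈ S, (Y / N n) ^ (1 / 4 : ℝ) := by
      rw [Finset.mul_sum]
      refine Finset.sum_congr rfl fun n hn => ?_
      have n1 := Vau.N1 (hS n hn).1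
      rw [Real.div_rpow hY0.le (by linarith), ← mul_div_assoc, ← Real.rpow_add hY0,
        show (-1 / 4 : ℝ) = -(1 / 4) by norm_num, Real.rpow_neg (by linarith)]
      simp
    rw [e]
    calc Y ^ (-1 / 4 : ℝ) * ∑ n ∈ S, (Y / N n) ^ (1 / 4 : ℝ) ≤ Y ^ (-1 / 4 : ℝ) * (C * Y) := by
          gcongr
      _ = C * Y ^ (3 / 4 : ℝ) := by
          rw [show (3 / 4 : ℝ) = -1 / 4 + 1 by norm_num, Real.rpow_add hY0, Real.rpow_one]; ring
      _ ≤ _ := by gcongr; linarith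
  · refine (hB.b3.card_le Y S hY0.le hS').trans ?_
    gcongr
    linarith

end Vale.Agent.P006.S
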