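import Vale.Agent.P006.S1
import Vale.Agent.P026.M.GAM

/-! P006 branch S: size of the dual kernel. -/

noncomputable section
open Complex MeasureTheory
open scoped Classical ComplexConjugate

namespace Vale.Agent.P006.S
open Vale.Agent.P026

namespace DKM

lemma mom {s T : ℝ} (hs : -1 < s) (hT : 0 < T) :
    Integrable (fun u : ℝ => |u| ^ s * Real.exp (-(4 * T ^ 2)⁻¹ * |u| ^ (2 : ℝ))) ∧
      ∫ u : ℝ, |u| ^ s * Real.exp (-(4 * T ^ 2)⁻¹ * |u| ^ (2 : ℝ)) =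
        2 ^ (s + 1) * T ^ (s + 1) * Real.Gamma ((s + 1) / 2) := by
  have e : ∫ u : ℝ, |u| ^ s * Real.exp (-(4 * T ^ 2)⁻¹ * |u| ^ (2 : ℝ)) =
      2 ^ (s + 1) * T ^ (s + 1) * Real.Gamma ((s + 1) / 2) := by
    rw [integral_comp_abs (f := fun u => u ^ s * Real.exp (-(4 * T ^ 2)⁻¹ * u ^ (2 : ℝ))),
      _root_.integral_rpow_mul_exp_neg_mul_rpow two_pos hs (by positivity),
      show (4 * T ^ 2)⁻¹ = (2 * T) ^ (-2 : ℝ) by
        rw [Real.rpow_neg (by positivity), Real.rpow_two]; ring,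
      ← Real.rpow_mul (by positivity), show -2 * (-(s + 1) / 2) = s + 1 by ring,
      Real.mul_rpow (by positivity) hT.le]
    ring
  refine ⟨Integrable.of_integral_ne_zero ?_, e⟩
  have := Real.Gamma_pos_of_pos (s := (s + 1) / 2) (by linarith)
  rw [e]
  positivity

lemma om {T σ : ℝ} (hT : 1 ≤ T) (hσ : σ ^ 2 ≤ 1) (u : ℝ) :
    ‖omT T (σ + u * I)‖ ≤ 6 / T * Real.exp (-(4 * T ^ 2)⁻¹ * |u| ^ (2 : ℝ)) := by
  have h0 : 0 < T := by linarith
  rw [omT, norm_mul, norm_real, norm_exp, Real.norm_of_nonneg (by positivity),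
    show (4 * T ^ 2 : ℂ) = ((4 * T ^ 2 : ℝ) : ℂ) by push_cast; ring, div_ofReal_re,
    show ((σ + u * I : ℂ) ^ 2).re = σ ^ 2 - u ^ 2 by simp [sq], Real.rpow_two, sq_abs,
    show (σ ^ 2 - u ^ 2) / (4 * T ^ 2) = σ ^ 2 / (4 * T ^ 2) + -(4 * T ^ 2)⁻¹ * u ^ 2 by ring, Real.exp_add,
    ← mul_assoc]
  gcongr
  have h1 : Real.sqrt Real.pi ≤ 2 := Real.sqrt_le_iff.2 ⟨by norm_num, by linarith [Real.pi_lt_four]⟩
  have h2 : Real.exp (σ ^ 2 / (4 * T ^ 2)) ≤ 3 := by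
    refine (Real.exp_le_exp.2 ((div_le_one (by positivity)).2 (by nlinarith))).trans ?_
    linarith [Real.exp_one_lt_d9]
  calc _ ≤ 2 / T * 3 := by gcongr
    _ = _ := by ring

lemma cont (T : ℝ) {σ : ℝ} (hσ : σ < 1) : Continuous (dk T σ) := by
  have h1 : Continuous fun u : ℝ => Gamma (1 - (σ + u * I)) := continuous_iff_continuousAt.2 fun u =>
    ContinuousAt.comp (g := Gamma) (GAMM.dG _ (by simp; linarith)).continuousAt (by fun_prop)
  have h2 : Continuous fun u : ℝ => (Gamma (σ + u * I))⁻¹ :=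
    differentiable_one_div_Gamma.continuous.comp (f := fun u : ℝ => (σ + u * I : ℂ)) (by fun_prop)
  unfold dk omT
  simp only [div_eq_mul_inv (Gamma _)]
  fun_prop

end DKM

open DKM in
theorem dkS (hG : GRStmt) : DKStmt := by
  obtain ⟨C, hC, h⟩ := hG
  have g1 := Real.Gamma_pos_of_pos (s := (-1 / 2 + 1) / 2) (by norm_num)
  have g2 := Real.Gamma_pos_of_pos (s := (0 + 1) / 2) (by norm_num)
  have g3 := Real.Gamma_pos_of_pos (s := (2 + 1) / 2) (by norm_num)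
  refine ⟨6 * C * (2 ^ (-1 / 2 + 1 : ℝ) * Real.Gamma ((-1 / 2 + 1) / 2)) +
    12 * C * (2 * Real.Gamma ((0 + 1) / 2) + 8 * Real.Gamma ((2 + 1) / 2)), by positivity, fun T hT => ?_⟩
  have h0 : 0 < T := by linarith
  obtain ⟨i1, e1⟩ := mom (s := -1 / 2) (by norm_num) h0
  obtain ⟨i2, e2⟩ := mom (s := 0) (by norm_num) h0
  obtain ⟨i3, e3⟩ := mom (s := 2) (by norm_num) h0
  have b1 : ∀ᵐ u : ℝ, ‖dk T (3 / 4) u‖ ≤
      6 * C / T * (|u| ^ (-1 / 2 : ℝ) * Real.exp (-(4 * T ^ 2)⁻¹ * |u| ^ (2 : ℝ))) := by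
    filter_upwards [(Set.finite_singleton (0 : ℝ)).countable.ae_notMem volume] with u hu
    have hu : 0 < |u| := abs_pos.2 hu
    have k : (1 + |u|) ^ (-1 / 2 : ℝ) ≤ |u| ^ (-1 / 2 : ℝ) :=
      Real.rpow_le_rpow_of_nonpos hu (by linarith) (by norm_num)
    rw [dk, norm_mul]
    calc _ ≤ 6 / T * Real.exp (-(4 * T ^ 2)⁻¹ * |u| ^ (2 : ℝ)) * (C * |u| ^ (-1 / 2 : ℝ)) :=
          mul_le_mul (om hT (by norm_num) u) ((h u).1.trans (by gcongr)) (norm_nonneg _) (by positivity)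
      _ = _ := by ring
  have b2 : ∀ᵐ u : ℝ, ‖dk T (-1 / 2) u‖ ≤
      12 * C / T * (|u| ^ (0 : ℝ) * Real.exp (-(4 * T ^ 2)⁻¹ * |u| ^ (2 : ℝ)) +
        |u| ^ (2 : ℝ) * Real.exp (-(4 * T ^ 2)⁻¹ * |u| ^ (2 : ℝ))) := by
    refine Filter.Eventually.of_forall fun u => ?_
    have k : (1 + |u|) ^ 2 ≤ 2 * (|u| ^ (0 : ℝ) + |u| ^ (2 : ℝ)) := by
      rw [Real.rpow_zero, Real.rpow_two]; nlinarith [sq_nonneg (1 - |u|)]
    rw [dk, norm_mul]
    calc _ ≤ 6 / T * Real.exp (-(4 * T ^ 2)⁻¹ * |u| ^ (2 : ℝ)) * (C * (2 * (|u| ^ (0 : ℝ) + |u| ^ (2 : ℝ)))) :=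
          mul_le_mul (om hT (by norm_num) u) ((h u).2.trans (by gcongr)) (norm_nonneg _) (by positivity)
      _ = _ := by ring
  have j1 := i1.const_mul (6 * C / T)
  have j2 := (i2.add i3).const_mul (12 * C / T)
  refine ⟨j1.mono' (cont T (by norm_num)).aestronglyMeasurable b1,
    j2.mono' (cont T (by norm_num)).aestronglyMeasurable b2, ?_, ?_⟩
  · refine (integral_mono_of_nonneg (Filter.Eventually.of_forall fun _ => norm_nonneg _) j1 b1).trans ?_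
    rw [integral_const_mul, e1, Real.rpow_add h0, Real.rpow_one, add_mul]
    refine le_add_of_le_of_nonneg (le_of_eq ?_) (by positivity)
    field_simp
  · refine (integral_mono_of_nonneg (Filter.Eventually.of_forall fun _ => norm_nonneg _) j2 b2).trans ?_
    rw [integral_const_mul, integral_add' i2 i3, e2, e3, add_mul]
    refine le_add_of_nonneg_of_le (by positivity) ?_
    rw [zero_add, Real.rpow_one, Real.rpow_one, show (2 + 1 : ℝ) = (3 : ℕ) by norm_num, Real.rpow_natCast,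
      Real.rpow_natCast]
    rw [zero_add] at g2
    have k : 1 ≤ T ^ 2 := one_le_pow₀ hT
    calc _ = 12 * C * (2 * Real.Gamma (1 / 2) * 1 + 8 * Real.Gamma ((3 : ℕ) / 2) * T ^ 2) := by
          field_simp; ring
      _ ≤ 12 * C * (2 * Real.Gamma (1 / 2) * T ^ 2 + 8 * Real.Gamma ((3 : ℕ) / 2) * T ^ 2) := by gcongr
      _ = _ := by ring

end Vale.Agent.P006.S
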