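import Vale.Agent.P006.S1
import Vale.Agent.P006.Poi3
import Vale.Agent.P026.M.W1

/-! P006 row S/DUT: thin columns, squarefree rows. -/

noncomputable section
open Complex
open scoped Classical ComplexConjugate

namespace Vale.Agent.P006.S
open Vale.Agent.P026

theorem dutS (h4 : TH4Stmt) : DUTStmt := by
  obtain ⟨C, C0, h4⟩ := h4
  have hB := W1.bas
  refine ⟨2 * C, by positivity, fun τ B Y S U a τ1 B1 Y0 hY hS hU => ?_⟩
  have τ0 : 0 < τ := by linarith
  have B0 : 0 < B := by linarith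
  have YB : Y ≤ B := le_trans (le_mul_of_one_le_right Y0.le (one_le_pow₀ τ1)) hY
  have n1 : ∀ n ∈ S, 1 ≤ N n := fun n hn => hB.b1.N_one_le _ (hB.b2.ne _ (hS n hn).1.1)
  have L0 : 0 ≤ Real.log (1 + B) := Real.log_nonneg (by linarith)
  have ex : ∀ n ∈ S, ∃ j : ℕ, j ∈ Finset.range (⌊2 * Real.log (1 + B)⌋₊ + 1) ∧
      Y / 2 ^ j / 2 < N n ∧ N n ≤ Y / 2 ^ j := fun n hn => by
    have n0 : 0 < N n := by linarith [n1 n hn]
    obtain ⟨j, a1, a2⟩ := exists_nat_pow_near ((one_le_div n0).2 (hS n hn).2) one_lt_two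
    rw [le_div_iff₀ n0] at a1
    rw [div_lt_iff₀ n0, pow_succ] at a2
    refine ⟨j, ?_, ?_, ?_⟩
    · rw [Finset.mem_range, Nat.lt_succ_iff]
      refine Nat.le_floor ?_
      have h1 : (2 : ℝ) ^ j ≤ 1 + B := by
        have := le_mul_of_one_le_right (by positivity : (0 : ℝ) ≤ 2 ^ j) (n1 n hn)
        linarith
      have h2 := Real.log_le_log (by positivity) h1
      rw [Real.log_pow] at h2
      have h3 := Real.log_two_gt_d9
      have h4 : (0 : ℝ) ≤ j := Nat.cast_nonneg j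
      nlinarith
    · rw [div_div, div_lt_iff₀ (by positivity)]; linarith
    · rw [le_div_iff₀ (by positivity)]; linarith
  choose! j j0 j1 j2 using ex
  set D := C * (B / τ + (B * Y) ^ (2 / 3 : ℝ) * τ ^ (-1 / 3 : ℝ)) * ∑ n ∈ U, ‖a n‖ ^ 2 with hD
  have sA : 0 ≤ ∑ n ∈ U, ‖a n‖ ^ 2 := Finset.sum_nonneg fun _ _ => by positivity
  have D0 : 0 ≤ D := by positivity
  have key : ∀ i : ℕ, ∑ m ∈ S.filter (fun m => j m = i), ‖∑ n ∈ U, a n * cub m n‖ ^ 2 ≤ D := by
    intro i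
    have p1 : (1 : ℝ) ≤ 2 ^ i := one_le_pow₀ one_le_two
    have Yi : Y / 2 ^ i ≤ Y := div_le_self Y0.le p1
    have Yp : 0 < Y / 2 ^ i := by positivity
    have h1 := Poi3.dual U (S.filter fun m => j m = i) (fun n m => cub n m) _ (by positivity)
      (fun c => h4 τ B (Y / 2 ^ i) U _ c τ1 B0 Yp
        ((mul_le_mul_of_nonneg_right Yi (by positivity)).trans hY) (fun n hn => (hU n hn).2)
        fun k hk => by
          obtain ⟨a1, a2⟩ := Finset.mem_filter.1 hk
          exact ⟨(hS k a1).1, a2 ▸ j1 k a1, a2 ▸ j2 k a1⟩) a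
    refine le_trans (le_of_eq (Finset.sum_congr rfl fun m hm => ?_)) (h1.trans ?_)
    · rw [Finset.sum_congr rfl fun n hn => by
        rw [W1.cr m n (hS m (Finset.mem_filter.1 hm).1).1.1 (hU n hn).1.1]]
    · rw [hD]; gcongr
  rw [← Finset.sum_fiberwise_of_maps_to j0]
  refine (Finset.sum_le_card_nsmul _ _ _ fun i _ => key i).trans ?_
  rw [nsmul_eq_mul, Finset.card_range]
  have c1 : ((⌊2 * Real.log (1 + B)⌋₊ + 1 : ℕ) : ℝ) ≤ 2 * (1 + Real.log (1 + B)) := by
    have := Nat.floor_le (by positivity : 0 ≤ 2 * Real.log (1 + B))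
    push_cast; linarith
  calc _ ≤ 2 * (1 + Real.log (1 + B)) * D := mul_le_mul_of_nonneg_right c1 D0
    _ = _ := by rw [hD]; ring

end Vale.Agent.P006.S
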