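import Vale.Agent.P006.S2

/-! P006 branch S: integration over the width of the cutoff. -/

noncomputable section
open Complex MeasureTheory Filter Topology
open scoped Classical ComplexConjugate

namespace Vale.Agent.P006.S
open Vale.Agent.P026

namespace ENDM

def SS (X T : ℝ) : ℂ :=
  ∑ n ∈ Vau.PS (X ^ 2), Vau.Lam n * g0 n * (((if N n ≤ X then 1 else 0) - Phi T (N n / X) : ℝ) : ℂ)

theorem triv (hP : PHStmt) {X T : ℝ} (hX : 0 < X) (hT : 0 < T) : ‖SS X T‖ ≤
    ∑ n ∈ Vau.PS (X ^ 2), Vau.Lam n * ‖g0 n‖ * Real.exp (-(T * Real.log (N n / X)) ^ 2) := by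
  refine (norm_sum_le _ _).trans (Finset.sum_le_sum fun n hn => ?_)
  have n0 : 0 < N n := zero_lt_one.trans_le (Vau.N1 (Vau.mem_PS.1 hn).1)
  have h := hP.1 T (N n / X) hT (by positivity)
  simp only [div_le_one hX] at h
  rw [norm_mul, norm_mul, norm_real, norm_real, Real.norm_eq_abs, Real.norm_eq_abs,
    abs_of_nonneg (Vau.Lam_nonneg n)]
  refine mul_le_mul_of_nonneg_left (h.trans ?_) (mul_nonneg (Vau.Lam_nonneg n) (norm_nonneg _))
  linarith [Real.exp_pos (-(T * Real.log (N n / X)) ^ 2)]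

theorem step (hP : PHStmt) {X T T1 B : ℝ} (hT : 0 < T) (h1 : T ≤ T1)
    (hB : ∀ t, T ≤ t → t ≤ T1 → ‖∑ n ∈ Vau.PS (X ^ 2), Vau.Lam n * ff X t n‖ ≤ B) :
    ‖SS X T - SS X T1‖ ≤ B * Real.log (T1 / T) := by
  have c : ∀ (x : ℝ) (z : ℂ), IntervalIntegrable (fun t : ℝ => z * ((bT t x / t : ℝ) : ℂ)) volume T T1 := by
    intro x z
    refine ContinuousOn.intervalIntegrable ?_
    rw [Set.uIcc_of_le h1]
    refine continuousOn_const.mul (continuous_ofReal.comp_continuousOn
      (ContinuousOn.div ?_ continuousOn_id fun t ht => (hT.trans_le ht.1).ne'))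
    unfold bT
    fun_prop
  have e : SS X T - SS X T1 = (-(Real.sqrt Real.pi)⁻¹ : ℝ) *
      ∫ t in T..T1, ∑ n ∈ Vau.PS (X ^ 2), Vau.Lam n * g0 n * ((bT t (N n / X) / t : ℝ) : ℂ) := by
    rw [intervalIntegral.integral_finsetSum fun n _ => c _ _, Finset.mul_sum]
    unfold SS
    rw [← Finset.sum_sub_distrib]
    refine Finset.sum_congr rfl fun n _ => ?_
    rw [intervalIntegral.integral_const_mul, intervalIntegral.integral_ofReal, ← mul_sub, ← ofReal_sub,
      mul_left_comm, ← ofReal_mul, ← hP.2 T T1 (N n / X) hT h1]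
    congr 2
    ring
  have B0 : 0 ≤ B := (norm_nonneg _).trans (hB T le_rfl h1)
  have i : IntervalIntegrable (fun t : ℝ => B * t⁻¹) volume T T1 := by
    refine ContinuousOn.intervalIntegrable ?_
    rw [Set.uIcc_of_le h1]
    exact continuousOn_const.mul (continuousOn_id.inv₀ fun t ht => (hT.trans_le ht.1).ne')
  have h := intervalIntegral.norm_integral_le_of_norm_le (μ := volume)
    (f := fun t => ∑ n ∈ Vau.PS (X ^ 2), Vau.Lam n * g0 n * ((bT t (N n / X) / t : ℝ) : ℂ)) h1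
    (Eventually.of_forall fun t ht => ?_) i
  · rw [intervalIntegral.integral_const_mul, integral_inv_of_pos hT (hT.trans_le h1)] at h
    rw [e, norm_mul, norm_real, norm_neg, norm_inv, Real.norm_eq_abs, abs_of_nonneg (Real.sqrt_nonneg _)]
    have p : 1 ≤ Real.sqrt Real.pi := Real.one_le_sqrt.2 (by linarith [Real.pi_gt_three])
    exact (mul_le_of_le_one_left (norm_nonneg _) (inv_le_one_of_one_le₀ p)).trans h
  · have t0 : 0 < t := hT.trans ht.1
    have e2 : ∑ n ∈ Vau.PS (X ^ 2), Vau.Lam n * g0 n * ((bT t (N n / X) / t : ℝ) : ℂ) =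
        (∑ n ∈ Vau.PS (X ^ 2), Vau.Lam n * ff X t n) * ((t⁻¹ : ℝ) : ℂ) := by
      rw [Finset.sum_mul]
      refine Finset.sum_congr rfl fun n hn => ?_
      rw [ff, if_pos (Vau.mem_PS.1 hn).2]
      push_cast
      ring
    rw [e2, norm_mul, norm_real, Real.norm_eq_abs, abs_of_pos (inv_pos.2 t0)]
    exact mul_le_mul_of_nonneg_right (hB t ht.1.le ht.2) (inv_pos.2 t0).le

theorem lim (C : ℝ) : Tendsto (fun X : ℝ => C * (Real.log X / X ^ (1 / 300 : ℝ) + (Real.log X)⁻¹))
    atTop (𝓝 0) := by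
  have h1 := (isLittleO_log_rpow_atTop (show (0 : ℝ) < 1 / 300 by norm_num)).tendsto_div_nhds_zero
  have h2 := Real.tendsto_log_atTop.inv_tendsto_atTop
  simpa using (h1.add h2).const_mul C

end ENDM

open ENDM in
theorem endS (hV : VAStmt) (hC : CUTStmt) (hP : PHStmt) : SEnd := by
  obtain ⟨C, X0, C0, hV⟩ := hV
  obtain ⟨D, D0, hC⟩ := hC
  intro ε hε
  have h1 := (lim (C + D)).eventually (gt_mem_nhds hε)
  have h2 := ((isLittleO_log_rpow_atTop (show (0 : ℝ) < 1 / 300 by norm_num)).tendsto_div_nhds_zero).eventually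
    (gt_mem_nhds one_pos)
  obtain ⟨X1, hX1⟩ := eventually_atTop.1 (h1.and (h2.and ((eventually_ge_atTop X0).and (eventually_ge_atTop 3))))
  refine ⟨X1, fun X T hX hT => ?_⟩
  obtain ⟨a1, a2, a3, a4⟩ := hX1 X hX
  change ‖SS X T‖ ≤ _
  have X0' : 0 < X := by linarith
  have L1 : 1 ≤ Real.log X := by
    rw [Real.le_log_iff_exp_le X0']
    linarith [Real.exp_one_lt_d9]
  set L := Real.log X with hL
  set q := X ^ (1 / 300 : ℝ) with hq
  have q1 : 1 ≤ q := Real.one_le_rpow (by linarith) (by norm_num)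
  have q0 : 0 < q := by linarith
  have Lq : L ≤ q := ((div_lt_one q0).1 a2).le
  have pw : ∀ k : ℕ, X ^ ((k : ℝ) / 300) = q ^ k := fun k => by
    rw [hq, ← Real.rpow_natCast, ← Real.rpow_mul X0'.le]; congr 1; ring
  have e56 : X ^ (5 / 6 : ℝ) = q ^ 250 := by rw [← pw]; norm_num
  have e16 : X ^ (1 / 6 : ℝ) = q ^ 50 := by rw [← pw]; norm_num
  have e1 : X = q ^ 300 := by rw [← pw]; norm_num
  have em : X ^ (-1 / 300 : ℝ) = q⁻¹ := by
    rw [hq, ← Real.rpow_neg X0'.le]; norm_num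
  have T1' : 1 ≤ T := (one_le_pow₀ L1).trans hT
  set T1 := X ^ (1 / 6 : ℝ) * L ^ 2 with hT1
  have T11 : 1 ≤ T1 := by
    rw [hT1, e16]; exact one_le_mul_of_one_le_of_one_le (one_le_pow₀ q1) (one_le_pow₀ L1)
  have tr : ∀ t, T1 ≤ t → ‖SS X t‖ ≤ D * (L / q + L⁻¹) * q ^ 250 := fun t ht => by
    refine ((triv hP X0' (by linarith)).trans (hC X t a4 (T11.trans ht))).trans ?_
    have b1 : X / t ≤ q ^ 250 / L ^ 2 := by
      refine (div_le_div_of_nonneg_left X0'.le (by linarith) ht).trans_eq ?_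
      rw [hT1, e16]
      nth_rewrite 1 [e1]
      field_simp
    have b2 : L ≤ L / q * q ^ 250 := by
      have : L / q * q ^ 250 = L * q ^ 249 := by field_simp
      rw [this]
      exact le_mul_of_one_le_right (by linarith) (one_le_pow₀ q1)
    have b3 : L * (q ^ 250 / L ^ 2) = L⁻¹ * q ^ 250 := by field_simp
    have b4 := mul_le_mul_of_nonneg_left b1 (show 0 ≤ L by linarith)
    rw [mul_assoc, mul_assoc]
    refine mul_le_mul_of_nonneg_left ?_ D0
    rw [add_mul, mul_add, mul_one, ← b3]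
    exact add_le_add b2 b4
  have w0 : 0 ≤ (L / q + L⁻¹) * q ^ 250 := by positivity
  have fin : (C + D) * (L / q + L⁻¹) * q ^ 250 ≤ ε * X ^ (5 / 6 : ℝ) := by
    rw [e56]; exact mul_le_mul_of_nonneg_right a1.le (by positivity)
  rcases le_total T1 T with h | h
  · refine ((tr T h).trans ?_).trans fin
    nlinarith [mul_nonneg C0 w0]
  · have s := step hP (X := X) (B := C * q ^ 250 * ((L ^ 4)⁻¹ + q⁻¹)) (by linarith) h fun t ht1 ht2 => by
      have r := hV X t a3 ⟨(pow_le_pow_right₀ L1 (by norm_num)).trans (hT.trans ht1), ht2⟩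
      rw [e56, em, ← hL] at r
      refine r.trans (mul_le_mul_of_nonneg_left (add_le_add_left ?_ _) (by positivity))
      have b1 : t ^ (-1 / 10 : ℝ) ≤ (L ^ 100) ^ (-1 / 10 : ℝ) :=
        Real.rpow_le_rpow_of_nonpos (by positivity) (hT.trans ht1) (by norm_num)
      have b2 : (L ^ 100) ^ (-1 / 10 : ℝ) = (L ^ 10)⁻¹ := by
        rw [← Real.rpow_natCast, ← Real.rpow_mul (by linarith), ← Real.rpow_natCast,
          ← Real.rpow_neg (by linarith)]
        norm_num
      rw [b2] at b1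
      refine (mul_le_mul_of_nonneg_left b1 (by positivity)).trans_eq ?_
      field_simp
    have l : Real.log (T1 / T) ≤ L := by
      refine Real.log_le_log (by positivity) ((div_le_self (by linarith) T1').trans ?_)
      rw [hT1, e16]
      nth_rewrite 1 [e1]
      calc q ^ 50 * L ^ 2 ≤ q ^ 50 * q ^ 2 := by gcongr
        _ = q ^ 52 := by ring
        _ ≤ q ^ 300 := pow_le_pow_right₀ q1 (by norm_num)
    have s2 : C * q ^ 250 * ((L ^ 4)⁻¹ + q⁻¹) * L ≤ C * ((L / q + L⁻¹) * q ^ 250) := by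
      have b : (L ^ 4)⁻¹ * L ≤ L⁻¹ := by
        have : (L ^ 4)⁻¹ * L = (L ^ 3)⁻¹ := by field_simp
        rw [this]
        exact inv_anti₀ (by linarith) (le_self_pow₀ L1 (by norm_num))
      have := mul_le_mul_of_nonneg_left b (show 0 ≤ C * q ^ 250 by positivity)
      rw [div_eq_mul_inv]
      nlinarith
    have s3 := s.trans ((mul_le_mul_of_nonneg_left l (by positivity)).trans s2)
    have s4 := norm_add_le (SS X T - SS X T1) (SS X T1)
    rw [sub_add_cancel] at s4
    have := tr T1 le_rfl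
    nlinarith

end Vale.Agent.P006.S
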