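import Vale.Agent.P006.S2

/-! P006 branch S, row G0. -/

noncomputable section
open Complex
open scoped Classical ComplexConjugate

namespace Vale.Agent.P006.S
open Vale.Agent.P026

theorem g0S : G0Stmt := by
  refine ⟨fun a b ha hb => ?_, fun n hn => ?_, fun n hn => ?_, fun n hn hs => ?_⟩
  · by_cases hc : IsCoprime a b
    · by_cases hs : Squarefree (a * b)
      · rw [g0, g0, g0, if_pos hs, if_pos hs.of_mul_left, if_pos hs.of_mul_right,
          Z0.gt_mul ha hb hc]
      · rw [g0, if_neg hs]
        by_cases h1 : Squarefree a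
        · by_cases h2 : Squarefree b
          · exact absurd (squarefree_mul_iff.2 ⟨hc.isRelPrime, h1, h2⟩) hs
          · simp [g0, h2]
        · simp [g0, h1]
    · rw [W1.bas.b6.zero a b (W1.bas.b2.ne b hb) hc, mul_zero, g0, if_neg]
      exact fun hs => hc (squarefree_mul_iff.1 hs).1.isCoprime
  · unfold g0
    split_ifs with h
    · exact (Z0.norm_gt hn h).le
    · simp
  · by_contra h
    exact hn (by simp [g0, h])
  · rw [g0, if_pos hs]
    unfold K.cc gt
    have := W1.bb.eq n 1 hn W1.bas.b2.one hs
    have hN : N (1 : O) = 1 := by simpa using W1.bas.b1.N_pow 1 0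
    simp only [one_pow, mul_one, hN, ofReal_one] at this
    rw [this]

end Vale.Agent.P006.S
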