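import Vale.Agent.P006.S1
import Vale.Agent.P026.M.GAM

/-! P006 branch S: the gamma ratio on two lines. -/

noncomputable section
open Complex MeasureTheory
open scoped Classical ComplexConjugate

namespace Vale.Agent.P006.S
open Vale.Agent.P026

namespace GRM
open GAMM

lemma l1 (t : ℝ) : ‖Gamma (((1 / 2 + 1 : ℝ) : ℂ) - t * I) * (Gamma ((1 / 2 : ℝ) + t * I))⁻¹‖ ≤ 1 + |t| := by
  rw [step _ _ (by norm_num), mul_assoc, norm_mul]
  have h1 := nb (1 / 2) t 1 (by rw [abs_of_pos] <;> norm_num) le_rfl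
  have h2 := rat (1 / 2) t
  calc _ ≤ 1 * (1 + |t|) * 1 := mul_le_mul h1 h2 (norm_nonneg _) (by positivity)
    _ = _ := by ring

lemma mid (hP : PLStmt) : ∃ C : ℝ, 0 ≤ C ∧ ∀ u : ℝ,
    ‖Gamma (((1 / 4 + 1 : ℝ) : ℂ) - u * I) * (Gamma ((3 / 4 : ℝ) + u * I))⁻¹‖ ≤ C * (1 + |u|) ^ (1 / 2 : ℝ) := by
  obtain ⟨C, hC, h⟩ := hP (1 / 2) 1 1 0 (7 / 2) (by norm_num) zero_le_one le_rfl
  obtain ⟨A, a0, hA⟩ := strip_bd 1 2 one_pos
  obtain ⟨D, d0, hD⟩ := inv_bd 0 1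
  refine ⟨C, hC, fun u => ?_⟩
  have := h (fun s => Gamma (2 - s) * (Gamma s)⁻¹) (A * D) 1 1
    (fun s hs => (((dG _ (by have := hs.2; simp; linarith)).comp s (by fun_prop)).mul
      (differentiable_one_div_Gamma s)).differentiableWithinAt)
    (fun s h1 h2 => by
      rw [norm_mul, mul_assoc]
      exact mul_le_mul (hA _ (by simp; linarith) (by simp; linarith)) (hD s (by linarith) h2)
        (norm_nonneg _) a0)
    zero_le_one zero_le_one
    (fun t => by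
      have := l1 t
      rw [show (2 : ℂ) - ((1 / 2 : ℝ) + t * I) = (1 / 2 + 1 : ℝ) - t * I by push_cast; ring]
      simpa using this)
    (fun t => by
      have := rat 1 t
      rw [show (2 : ℂ) - ((1 : ℝ) + t * I) = (1 : ℝ) - t * I by push_cast; ring]
      simpa using this)
    ((3 / 4 : ℝ) + u * I) (by simp; norm_num) (by simp; norm_num)
  rw [show (2 : ℂ) - ((3 / 4 : ℝ) + u * I) = (1 / 4 + 1 : ℝ) - u * I by push_cast; ring,
    show (((3 / 4 : ℝ) : ℂ) + u * I).im = u by simp, show (((3 / 4 : ℝ) : ℂ) + u * I).re = 3 / 4 by simp] at this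
  norm_num at this ⊢
  exact this

end GRM

open GAMM in
theorem grS (hP : PLStmt) : GRStmt := by
  obtain ⟨C, hC, h⟩ := GRM.mid hP
  refine ⟨5 * C + 1, by positivity, fun u => ⟨?_, ?_⟩⟩
  · have h1 := h u
    have h0 : 0 < 1 + |u| := by positivity
    rw [step _ _ (by norm_num), mul_assoc, norm_mul] at h1
    rw [show (1 : ℂ) - ((3 / 4 : ℝ) + u * I) = (1 / 4 : ℝ) - u * I by push_cast; ring, div_eq_mul_inv]
    have h2 : 1 + |u| ≤ 5 * ‖((1 / 4 : ℝ) : ℂ) - u * I‖ := by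
      have a1 := abs_re_le_norm (((1 / 4 : ℝ) : ℂ) - u * I)
      have a2 := abs_im_le_norm (((1 / 4 : ℝ) : ℂ) - u * I)
      rw [show (((1 / 4 : ℝ) : ℂ) - u * I).re = 1 / 4 by simp, abs_of_pos (by norm_num)] at a1
      rw [show (((1 / 4 : ℝ) : ℂ) - u * I).im = -u by simp, abs_neg] at a2
      linarith
    have h3 : (1 + |u|) ^ (1 / 2 : ℝ) = (1 + |u|) * (1 + |u|) ^ (-1 / 2 : ℝ) := by
      rw [← Real.rpow_one_add' h0.le (by norm_num)]; norm_num
    have h4 : 0 < (1 + |u|) ^ (-1 / 2 : ℝ) := by positivity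
    rw [h3] at h1
    refine le_of_mul_le_mul_left ?_ h0
    nlinarith [mul_le_mul_of_nonneg_right h2
      (norm_nonneg (Gamma (((1 / 4 : ℝ) : ℂ) - u * I) * (Gamma ((3 / 4 : ℝ) + u * I))⁻¹)), mul_pos h0 h4]
  · rw [show (1 : ℂ) - ((-1 / 2 : ℝ) + u * I) = (1 / 2 + 1 : ℝ) - u * I by push_cast; ring, div_eq_mul_inv,
      one_div_Gamma_eq_self_mul_one_div_Gamma_add_one,
      show ((-1 / 2 : ℝ) : ℂ) + u * I + 1 = (1 / 2 : ℝ) + u * I by push_cast; ring, mul_left_comm, norm_mul,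
      show ((-1 / 2 : ℝ) : ℂ) + u * I = -((1 / 2 : ℝ) - u * I) by push_cast; ring, norm_neg]
    have h1 := nb (1 / 2) u 1 (by rw [abs_of_pos] <;> norm_num) le_rfl
    calc _ ≤ 1 * (1 + |u|) * (1 + |u|) := mul_le_mul h1 (GRM.l1 u) (norm_nonneg _) (by positivity)
      _ = 1 * (1 + |u|) ^ 2 := by ring
      _ ≤ _ := by gcongr; linarith

end Vale.Agent.P006.S
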