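import Vale.Agent.P006.S1
import Vale.Agent.P026.M.GAM
import Vale.Agent.P026.M.SH

/-! The thin weight as a superposition of Gaussians. -/

noncomputable section
open Complex MeasureTheory Filter Topology Set
open scoped Classical ComplexConjugate FourierTransform

namespace Vale.Agent.P006.S
open Vale.Agent.P026

namespace MUM

def F (T : ℝ) (s : ℂ) : ℂ := omT T s * (Gamma s)⁻¹
def m (T σ v : ℝ) : ℂ :=
  (1 / (2 * Real.pi) : ℝ) * ∫ u : ℝ, F T (σ + u * I) * (v : ℂ) ^ (σ + u * I)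

lemma Fd (T : ℝ) : Differentiable ℂ (F T) := by
  have : Differentiable ℂ (omT T) := by unfold omT; fun_prop
  exact this.mul differentiable_one_div_Gamma

lemma Fb {T : ℝ} (hT : 1 ≤ T) (a b : ℝ) : ∃ C : ℝ, 0 ≤ C ∧ ∀ s : ℂ, a ≤ s.re → s.re ≤ b →
    ‖F T s‖ ≤ C * Real.exp (-(1 * |s.im|)) := by
  obtain ⟨C, hC⟩ := gamS.inv a b
  refine ⟨Real.sqrt Real.pi / T * Real.exp (a ^ 2 + b ^ 2 + 81 / 4 * T ^ 2) * |C|, by positivity,
    fun s h1 h2 => ?_⟩
  have T0 : 0 < T := by linarith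
  have e : (s ^ 2 / (4 * T ^ 2)).re = (s.re ^ 2 - s.im ^ 2) / (4 * T ^ 2) := by
    rw [show (4 * (T : ℂ) ^ 2) = ((4 * T ^ 2 : ℝ) : ℂ) by push_cast; ring, div_ofReal_re, sq s, mul_re]
    ring
  have k : (s.re ^ 2 - s.im ^ 2) / (4 * T ^ 2) + 7 / 2 * |s.im| ≤
      a ^ 2 + b ^ 2 + 81 / 4 * T ^ 2 + -(1 * |s.im|) := by
    have r : s.re ^ 2 ≤ a ^ 2 + b ^ 2 := by
      rcases le_total 0 s.re with h | h <;> nlinarith
    have r2 : s.re ^ 2 / (4 * T ^ 2) ≤ s.re ^ 2 := div_le_self (sq_nonneg _) (by nlinarith)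
    have r3 : 9 / 2 * |s.im| - 81 / 4 * T ^ 2 ≤ s.im ^ 2 / (4 * T ^ 2) := by
      rw [le_div_iff₀ (by positivity), ← sq_abs s.im]
      nlinarith [sq_nonneg (|s.im| - 9 * T ^ 2)]
    rw [sub_div]
    linarith
  rw [F, omT, norm_mul, norm_mul, norm_exp, e, norm_real, Real.norm_of_nonneg (by positivity)]
  calc _ ≤ Real.sqrt Real.pi / T * Real.exp ((s.re ^ 2 - s.im ^ 2) / (4 * T ^ 2)) *
        (|C| * Real.exp (7 / 2 * |s.im|)) := by
        gcongr
        exact (hC s h1 h2).trans (by gcongr; exact le_abs_self C)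
    _ = Real.sqrt Real.pi / T * |C| *
        Real.exp ((s.re ^ 2 - s.im ^ 2) / (4 * T ^ 2) + 7 / 2 * |s.im|) := by
        rw [Real.exp_add]; ring
    _ ≤ Real.sqrt Real.pi / T * |C| *
        Real.exp (a ^ 2 + b ^ 2 + 81 / 4 * T ^ 2 + -(1 * |s.im|)) := by gcongr
    _ = _ := by rw [Real.exp_add]; ring

lemma Fi {T : ℝ} (hT : 1 ≤ T) (σ : ℝ) : Integrable fun u : ℝ => F T (σ + u * I) := by
  obtain ⟨C, -, hC⟩ := Fb hT σ σ
  exact SHM.int_line _ σ σ C 1 σ one_pos le_rfl le_rfl (Fd T).differentiableOn hC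

lemma shift {T : ℝ} (hT : 1 ≤ T) (a b : ℝ) {v : ℝ} (hv : 0 < v) : m T a v = m T b v := by
  wlog h : a ≤ b generalizing a b
  · exact (this b a (le_of_not_ge h)).symm
  obtain ⟨C, c0, hC⟩ := Fb hT a b
  have v0 : (v : ℂ) ≠ 0 := ofReal_ne_zero.2 hv.ne'
  rw [m, m, shS (fun s => F T s * (v : ℂ) ^ s) a b (C * (v ^ a + v ^ b)) 1 h one_pos
    ((Fd T).mul (differentiable_id.const_cpow (Or.inl v0))).differentiableOn fun s h1 h2 => ?_]
  have : v ^ s.re ≤ v ^ a + v ^ b := by
    rcases le_total v 1 with h' | h'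
    · linarith [Real.rpow_le_rpow_of_exponent_ge hv h' h1, Real.rpow_pos_of_pos hv b]
    · linarith [Real.rpow_le_rpow_of_exponent_le h' h2, Real.rpow_pos_of_pos hv a]
  rw [norm_mul, norm_cpow_eq_rpow_re_of_pos hv, mul_right_comm]
  exact mul_le_mul (hC s h1 h2) this (by positivity) (by positivity)

lemma bd {T : ℝ} (hT : 1 ≤ T) (σ : ℝ) : ∃ C : ℝ, 0 ≤ C ∧ ∀ v : ℝ, 0 < v →
    ‖m T 0 v‖ ≤ C * v ^ σ := by
  refine ⟨1 / (2 * Real.pi) * ∫ u : ℝ, ‖F T (σ + u * I)‖,
    mul_nonneg (by positivity) (integral_nonneg fun _ => norm_nonneg _), fun v hv => ?_⟩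
  rw [shift hT 0 σ hv, m, norm_mul, norm_real, Real.norm_of_nonneg (by positivity), mul_assoc,
    ← integral_mul_const]
  refine mul_le_mul_of_nonneg_left ((norm_integral_le_integral_norm _).trans_eq ?_) (by positivity)
  congr 1
  ext u
  rw [norm_mul, norm_cpow_eq_rpow_re_of_pos hv]
  simp

lemma meas2 (T σ : ℝ) :
    Measurable fun p : ℝ × ℝ => F T (σ + p.2 * I) * (p.1 : ℂ) ^ (σ + p.2 * I) := by
  have h1 : Measurable fun p : ℝ × ℝ => (σ : ℂ) + p.2 * I := by fun_prop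
  exact ((Fd T).continuous.measurable.comp h1).mul
    ((measurable_ofReal.comp measurable_fst).pow h1)

lemma meas (T σ : ℝ) : Measurable (m T σ) :=
  ((meas2 T σ).stronglyMeasurable.integral_prod_right' (ν := volume)).measurable.const_mul _

lemma par {T : ℝ} (hT : 1 ≤ T) (σ : ℝ) {k : ℝ → ℂ} (hm : Measurable k)
    (hk : MellinConvergent k σ) : ∫ v in Ioi (0 : ℝ), m T 0 v / v * k v =
      (1 / (2 * Real.pi) : ℝ) * ∫ u : ℝ, F T (σ + u * I) * mellin k (σ + u * I) := by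
  have hi : Integrable (Function.uncurry fun v u : ℝ =>
      F T (σ + u * I) * (v : ℂ) ^ (σ + u * I) / v * k v) ((volume.restrict (Ioi 0)).prod volume) := by
    refine (hk.norm.mul_prod (Fi hT σ).norm).mono'
      (((meas2 T σ).div (measurable_ofReal.comp measurable_fst)).mul
        (hm.comp measurable_fst)).aestronglyMeasurable ?_
    rw [Measure.restrict_prod_eq_prod_univ]
    refine (ae_restrict_iff' (measurableSet_Ioi.prod MeasurableSet.univ)).2
      (ae_of_all _ fun p hp => ?_)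
    have h0 : 0 < p.1 := hp.1
    simp only [Function.uncurry, norm_mul, norm_div, smul_eq_mul, norm_cpow_eq_rpow_re_of_pos h0,
      norm_real, Real.norm_of_nonneg h0.le]
    simp only [add_re, ofReal_re, mul_re, I_re, mul_zero, ofReal_im, I_im, zero_mul, sub_zero,
      add_zero, sub_re, one_re, Real.rpow_sub_one h0.ne']
    exact le_of_eq (by ring)
  have e1 : ∀ v ∈ Ioi (0 : ℝ), m T 0 v / v * k v = (1 / (2 * Real.pi) : ℝ) *
      ∫ u : ℝ, F T (σ + u * I) * (v : ℂ) ^ (σ + u * I) / v * k v := fun v hv => by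
    rw [shift hT 0 σ hv, m, integral_mul_const, integral_div]
    ring
  rw [setIntegral_congr_fun measurableSet_Ioi e1, integral_const_mul, integral_integral_swap hi]
  congr 2
  ext u
  rw [mellin, ← integral_const_mul]
  refine setIntegral_congr_fun measurableSet_Ioi fun v hv => ?_
  simp only [smul_eq_mul]
  rw [cpow_sub _ _ (ofReal_ne_zero.2 (ne_of_gt hv)), cpow_one]
  ring

lemma inv {T : ℝ} (hT : 1 ≤ T) (σ : ℝ) : mellin (m T 0) ((-σ : ℝ) : ℂ) = F T σ := by
  set h : ℝ → ℂ := fun y => F T (-(((-σ : ℝ) : ℂ) + 2 * Real.pi * y * I)) with hh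
  have e0 : ∀ y : ℝ, h y = F T (σ + ((-(2 * Real.pi) * y : ℝ) : ℂ) * I) := fun y => by
    simp only [hh]; congr 1; push_cast; ring
  have hi : Integrable h := by
    rw [funext e0]
    exact (Fi hT σ).comp_mul_left' (neg_ne_zero.2 (by positivity))
  have hc : Continuous h := (Fd T).continuous.comp (by fun_prop)
  have e1 : ∀ u : ℝ, Real.exp (σ * u) • m T 0 (Real.exp (-u)) = 𝓕⁻ h u := fun u => by
    have p := Real.exp_pos (-u)
    have a := mellinInv_eq_fourierInv (-σ) (fun s => F T (-s)) p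
    rw [Real.log_exp, neg_neg] at a
    have b : m T 0 (Real.exp (-u)) = mellinInv (-σ) (fun s => F T (-s)) (Real.exp (-u)) := by
      rw [shift hT 0 σ p, m, mellinInv, real_smul, ← integral_neg_eq_self]
      congr 2
      ext y
      rw [smul_eq_mul, mul_comm]
      congr 2 <;> (push_cast; ring)
    rw [b, a, ← ofReal_neg, ← ofReal_cpow p.le, smul_eq_mul, real_smul, ← mul_assoc, ← ofReal_mul,
      ← Real.exp_mul, ← Real.exp_add]
    simp [hh, mul_comm]
  have hg : Integrable (𝓕⁻ h) := by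
    obtain ⟨C1, c1, h1⟩ := bd hT (σ + 1)
    obtain ⟨C2, c2, h2⟩ := bd hT (σ - 1)
    rw [← funext e1]
    refine ((SHM.int_exp 1 one_pos).const_mul (C1 + C2)).mono'
      (((by fun_prop : Measurable fun u : ℝ => Real.exp (σ * u)).smul
        ((meas T 0).comp (by fun_prop))).aestronglyMeasurable) (ae_of_all _ fun u => ?_)
    have p := Real.exp_pos (-u)
    rw [norm_smul, Real.norm_of_nonneg (Real.exp_pos _).le]
    rcases le_total 0 u with h | h
    · calc _ ≤ Real.exp (σ * u) * (C1 * Real.exp (-u) ^ (σ + 1)) := by gcongr; exact h1 _ p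
        _ = C1 * Real.exp (-(1 * |u|)) := by
          rw [← Real.exp_mul, mul_left_comm, ← Real.exp_add, abs_of_nonneg h]; congr 2; ring
        _ ≤ _ := by gcongr; linarith
    · calc _ ≤ Real.exp (σ * u) * (C2 * Real.exp (-u) ^ (σ - 1)) := by gcongr; exact h2 _ p
        _ = C2 * Real.exp (-(1 * |u|)) := by
          rw [← Real.exp_mul, mul_left_comm, ← Real.exp_add, abs_of_nonpos h]; congr 2; ring
        _ ≤ _ := by gcongr; linarith
  have hf : Integrable (𝓕 h) := by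
    have := hg.comp_neg
    simpa only [Real.fourierInv_eq_fourier_neg, neg_neg] using this
  rw [mellin_eq_fourier]
  simp only [ofReal_re, neg_neg, ofReal_im, zero_div, e1]
  rw [hc.fourier_fourierInv_eq hi hf, e0]
  simp

def E (y t : ℝ) : ℂ := cexp (-(y * t : ℝ))

lemma Em {y : ℝ} (hy : 0 < y) {s : ℂ} (hs : 0 < s.re) :
    mellin (E y) s = (y : ℂ) ^ (-s) * Gamma s := by
  have := integral_cpow_mul_exp_neg_mul_Ioi hs hy
  rw [one_div, inv_cpow _ _ (by rw [arg_ofReal_of_nonneg hy.le]; exact Real.pi_pos.ne),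
    ← cpow_neg] at this
  simpa [mellin, E] using this

lemma Ec {y : ℝ} (hy : 0 < y) {s : ℂ} (hs : 0 < s.re) : MellinConvergent (E y) s := by
  refine (MellinConvergent.comp_mul_left (f := fun t : ℝ => cexp (-(t : ℂ))) hy).2 ?_
  simpa [MellinConvergent, mul_comm] using GammaIntegral_convergent hs

lemma gauss {T : ℝ} (hT : 1 ≤ T) {x : ℝ} (hx : 0 < x) :
    (1 / (2 * Real.pi) : ℝ) * ∫ u : ℝ, omT T ((1 : ℝ) + u * I) * (x : ℂ) ^ (-(((1 : ℝ) : ℂ) + u * I)) =
      wT T x := by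
  have T0 : 0 < T := by linarith
  have T1 : (T : ℂ) ≠ 0 := ofReal_ne_zero.2 T0.ne'
  set L := Real.log x
  have e : ∀ u : ℝ, omT T ((1 : ℝ) + u * I) * (x : ℂ) ^ (-(((1 : ℝ) : ℂ) + u * I)) =
      ((Real.sqrt Real.pi / T : ℝ) : ℂ) * cexp (((-(1 / (4 * T ^ 2)) : ℝ) : ℂ) * u ^ 2 +
        I * (1 / (2 * T ^ 2) - L) * u + (1 / (4 * T ^ 2) - L)) := fun u => by
    rw [omT, cpow_def_of_ne_zero (ofReal_ne_zero.2 hx.ne'), ← ofReal_log hx.le, mul_assoc, ← exp_add]
    congr 2
    push_cast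
    field_simp
    linear_combination 2 * (u : ℂ) ^ 2 * I_sq
  simp only [e]
  rw [integral_const_mul, integral_cexp_quadratic (by rw [ofReal_re]; exact neg_lt_zero.2 (by positivity)),
    wT, if_pos hx, ofReal_exp]
  have a1 : ((Real.pi : ℂ) / -((-(1 / (4 * T ^ 2)) : ℝ) : ℂ)) ^ (1 / 2 : ℂ) =
      ((2 * T * Real.sqrt Real.pi : ℝ) : ℂ) := by
    rw [← ofReal_neg, ← ofReal_div, show (1 / 2 : ℂ) = ((1 / 2 : ℝ) : ℂ) by simp,
      ← ofReal_cpow (by rw [neg_neg]; positivity), ← Real.sqrt_eq_rpow]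
    congr 1
    rw [Real.sqrt_eq_iff_mul_self_eq (by rw [neg_neg]; positivity) (by positivity)]
    have := Real.mul_self_sqrt Real.pi_pos.le
    field_simp
    nlinarith
  rw [a1, ← mul_assoc, ← mul_assoc, ← ofReal_mul, ← ofReal_mul]
  have a2 : 1 / (2 * Real.pi) * (Real.sqrt Real.pi / T) * (2 * T * Real.sqrt Real.pi) = 1 := by
    have := Real.mul_self_sqrt Real.pi_pos.le
    have := Real.pi_pos
    field_simp
    nlinarith
  rw [a2, ofReal_one, one_mul]
  congr 1
  push_cast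
  field_simp
  linear_combination (4 * (1 - 2 * (T : ℂ) ^ 2 * L) ^ 2) * I_sq

end MUM

open MUM

theorem muS : MUStmt := by
  intro T hT
  have mE : ∀ y, Measurable (E y) := fun y => by unfold E; fun_prop
  refine ⟨m T 0, meas T 0, ?_, fun x hx => ?_, ?_, fun y σ hy hσ => ?_⟩
  · obtain ⟨C1, c1, h1⟩ := bd hT 3
    obtain ⟨C2, c2, h2⟩ := bd hT (-2)
    refine ⟨C1 + C2, fun v hv => ⟨(h1 v hv).trans ?_, (h2 v hv).trans ?_⟩⟩
    · rw [show (3 : ℝ) = (3 : ℕ) by norm_num, Real.rpow_natCast]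
      gcongr; linarith
    · rw [Real.rpow_neg hv.le, Real.rpow_two]
      gcongr; linarith
  · rcases hx.eq_or_lt with rfl | hx
    · have := inv hT 0
      rw [mellin] at this
      rw [wT, if_neg (lt_irrefl _)]
      simpa [F, cpow_neg_one, div_eq_inv_mul] using this
    · rw [← gauss hT hx]
      refine (par hT 1 (mE x) (Ec hx (by simp))).trans ?_
      congr 2
      ext u
      have h0 : 0 < (((1 : ℝ) : ℂ) + u * I).re := by simp
      rw [Em hx h0, F]
      have := Gamma_ne_zero_of_re_pos h0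
      field_simp
  · have := inv hT 1
    rw [mellin] at this
    have e : F T (1 : ℝ) = omT T 1 := by simp [F]
    rw [← e, ← this]
    refine setIntegral_congr_fun measurableSet_Ioi fun v hv => ?_
    simp only [smul_eq_mul]
    rw [show ((-1 : ℝ) : ℂ) - 1 = -(2 : ℕ) by push_cast; ring, cpow_neg, cpow_natCast,
      div_eq_inv_mul]
  · have s1 : σ < 1 := by rcases hσ with rfl | rfl <;> norm_num
    have hc : MellinConvergent (fun t : ℝ => ((t⁻¹ : ℝ) : ℂ) ^ (1 : ℂ) • E y t⁻¹) σ := by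
      have := (MellinConvergent.comp_rpow (f := fun t : ℝ => (t : ℂ) ^ (1 : ℂ) • E y t) (s := σ)
        (a := -1) (by norm_num)).2 (MellinConvergent.cpow_smul.2 (Ec hy (by
          rw [← ofReal_div, add_re, ofReal_re, one_re]; linarith)))
      simpa only [Real.rpow_neg_one] using this
    have := par hT σ (k := fun t : ℝ => ((t⁻¹ : ℝ) : ℂ) ^ (1 : ℂ) • E y t⁻¹) (((measurable_ofReal.comp measurable_inv).pow_const _).smul
      ((mE y).comp measurable_inv)) hc
    convert this using 2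
    · ext v
      simp only [cpow_one, smul_eq_mul, E, div_eq_mul_inv]
      push_cast
      ring
    · congr 1
      ext u
      have h0 : 0 < (-((σ : ℂ) + u * I) + 1).re := by simp; linarith
      rw [mellin_comp_inv (fun t : ℝ => (t : ℂ) ^ (1 : ℂ) • E y t), mellin_cpow_smul, Em hy h0, dk, F,
        show -(-((σ : ℂ) + u * I) + 1) = σ + u * I - 1 by ring,
        show -((σ : ℂ) + u * I) + 1 = 1 - (σ + u * I) by ring]
      ring

end Vale.Agent.P006.S
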