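import Vale.Agent.P006.S2

/-! P006 branch S: the smooth cutoff. -/

noncomputable section
open Complex MeasureTheory
open scoped Classical ComplexConjugate

namespace Vale.Agent.P006.S

namespace PHM

def GG (a : ℝ) : ℝ := ∫ w in Set.Ioi a, Real.exp (-w ^ 2)

theorem ig : Integrable fun w : ℝ => Real.exp (-w ^ 2) := by
  simpa using integrable_exp_neg_mul_sq (b := 1) one_pos

theorem phi_eq {T : ℝ} (hT : 0 < T) (x : ℝ) :
    Phi T x = (Real.sqrt Real.pi)⁻¹ * GG (T * Real.log x) := by
  have h := integral_comp_mul_left_Ioi (fun w => Real.exp (-w ^ 2)) (Real.log x) hT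
  rw [Phi, h, GG, smul_eq_mul]
  field_simp

theorem sub (a b : ℝ) : GG a - GG b = ∫ w in a..b, Real.exp (-w ^ 2) :=
  intervalIntegral.integral_Ioi_sub_Ioi' ig.integrableOn ig.integrableOn

theorem nn (a : ℝ) : 0 ≤ GG a := integral_nonneg fun _ => (Real.exp_pos _).le

theorem sym (a : ℝ) : GG a + GG (-a) = Real.sqrt Real.pi := by
  have h1 := integral_comp_neg_Iic a fun w => Real.exp (-w ^ 2)
  simp only [neg_sq] at h1
  have h2 := intervalIntegral.integral_Iic_add_Ioi (b := a) ig.integrableOn ig.integrableOn
  have h3 := integral_gaussian 1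
  simp only [neg_mul, one_mul, div_one] at h3
  rw [GG, GG, ← h1, add_comm, h2, h3]

theorem tail {a : ℝ} (ha : 0 ≤ a) : GG a ≤ Real.exp (-a ^ 2) * (Real.sqrt Real.pi / 2) := by
  have h1 : GG a = ∫ w in Set.Ioi (0 : ℝ), Real.exp (-(w + a) ^ 2) := by
    rw [GG, ← integral_indicator measurableSet_Ioi, ← integral_indicator measurableSet_Ioi,
      ← integral_add_right_eq_self _ a]
    congr 1
    funext w
    simp only [Set.indicator, Set.mem_Ioi, lt_add_iff_pos_left]
  have h3 := integral_gaussian_Ioi 1
  simp only [neg_mul, one_mul, div_one] at h3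
  rw [h1, ← h3, ← integral_const_mul]
  refine setIntegral_mono_on (ig.comp_add_right a).integrableOn (ig.const_mul _).integrableOn
    measurableSet_Ioi fun w hw => ?_
  rw [← Real.exp_add, Real.exp_le_exp]
  have : 0 < w := hw
  nlinarith [mul_nonneg this.le ha]

end PHM

open PHM in
theorem phS : PHStmt := by
  have sp : 0 < Real.sqrt Real.pi := Real.sqrt_pos.2 Real.pi_pos
  refine ⟨fun T x hT hx => ?_, fun T0 T1 x h0 h1 => ?_⟩
  · rw [phi_eq hT]
    split_ifs with h
    · have a0 : 0 ≤ -(T * Real.log x) := by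
        have := Real.log_nonpos hx.le h
        nlinarith
      have h2 := tail a0
      have h3 := sym (T * Real.log x)
      have e : 1 - (Real.sqrt Real.pi)⁻¹ * PHM.GG (T * Real.log x) =
          (Real.sqrt Real.pi)⁻¹ * PHM.GG (-(T * Real.log x)) := by
        field_simp
        linarith
      rw [e, abs_of_nonneg (mul_nonneg (by positivity) (nn _)), inv_mul_le_iff₀ sp]
      rw [neg_sq] at h2
      linarith
    · have a0 : 0 ≤ T * Real.log x := mul_nonneg hT.le (Real.log_nonneg (not_le.1 h).le)
      have h2 := tail a0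
      rw [zero_sub, abs_neg, abs_of_nonneg (mul_nonneg (by positivity) (nn _)), inv_mul_le_iff₀ sp]
      linarith
  · rw [phi_eq h0, phi_eq (h0.trans_le h1)]
    have e : ∫ T in T0..T1, bT T x / T =
        ∫ T in T0..T1, Real.log x * Real.exp (-(T * Real.log x) ^ 2) := by
      refine intervalIntegral.integral_congr fun T hT => ?_
      rw [Set.uIcc_of_le h1] at hT
      have : 0 < T := h0.trans_le hT.1
      simp only [bT]
      field_simp
    rw [e, intervalIntegral.integral_const_mul,
      intervalIntegral.mul_integral_comp_mul_right (f := fun w => Real.exp (-w ^ 2)), ← sub]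
    ring

end Vale.Agent.P006.S
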