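import Vale.Agent.P006.S1
import Vale.Agent.P006.Pit
import Vale.Agent.P026.M.W1

/-! Many primary primes. -/

noncomputable section
open Filter Topology
open scoped Classical

namespace Vale.Agent.P006.S
open Vale.Agent.P026

theorem prS : PRStmt := by
  have hB := W1.bas
  set s : ℝ → Finset O := fun X => (hB.b3.fin X).toFinset.filter fun p => Prime p ∧ Prim p with hs
  have hm : ∀ X p, p ∈ s X ↔ Prime p ∧ Prim p ∧ N p ≤ X := fun X p => by
    simp only [hs, Finset.mem_filter, Set.Finite.mem_toFinset, Set.mem_ofPred_eq]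
    tauto
  obtain ⟨P0, hP⟩ := eventually_atTop.1
    ((pit0 hB s hm).eventually (lt_mem_nhds (show (1 / 2 : ℝ) < 1 by norm_num)))
  refine ⟨2 + |P0|, by positivity, fun P h4 => ⟨s P, fun q hq => (hm P q).1 hq, ?_⟩⟩
  have l1 : 1 ≤ Real.log P := by
    rw [Real.le_log_iff_exp_le (by linarith)]
    linarith [Real.exp_one_lt_d9]
  have p0 : 0 < P / Real.log P := div_pos (by linarith) (by linarith)
  have c0 : (0 : ℝ) ≤ (s P).card := Nat.cast_nonneg _
  rcases le_total P0 P with h | h
  · have := hP P h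
    rw [lt_div_iff₀ p0] at this
    nlinarith [abs_nonneg P0]
  · have m2 : (-2 : O) ∈ s P := (hm P _).2 ⟨hB.b1.prime_two.neg, ⟨-1, by norm_num⟩, by
      have := hB.b1.N_int (-2)
      push_cast at this
      rw [this]; linarith⟩
    have c1 : (1 : ℝ) ≤ (s P).card := by exact_mod_cast Finset.card_pos.2 ⟨_, m2⟩
    have : P / Real.log P ≤ P := div_le_self (by linarith) l1
    nlinarith [le_abs_self P0, abs_nonneg P0]

end Vale.Agent.P006.S
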