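import Vale.Agent.P006.S1
import Vale.Agent.P006.L.L1
import Vale.Agent.P006.L.L2

/-! P006 branch S: positivity step for the thin weight. -/

noncomputable section
open Complex MeasureTheory Finset
open scoped Classical ComplexConjugate

namespace Vale.Agent.P006.S
open Vale.Agent.P026

namespace TH1M

lemma bd {T : ℝ} {μ : ℝ → ℂ} (h : MU T μ) : ∃ C : ℝ, 0 ≤ C ∧ ∀ v : ℝ, 0 < v →
    ‖μ v‖ / v ≤ C * (1 + v ^ 2)⁻¹ ∧ ‖μ v‖ / v ^ 3 ≤ C * (1 + v ^ 2)⁻¹ := by
  obtain ⟨C, hC⟩ := h.bd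
  have h0 : 0 ≤ C := by simpa using (norm_nonneg _).trans (hC 1 one_pos).1
  refine ⟨2 * C, by positivity, fun v hv => ?_⟩
  obtain ⟨h1, h2⟩ := hC v hv
  rw [← div_eq_mul_inv, le_div_iff₀ (by positivity)] at h2
  rw [← div_eq_mul_inv, div_le_div_iff₀ hv (by positivity), div_le_div_iff₀ (by positivity) (by positivity)]
  have hn := norm_nonneg (μ v)
  rcases le_total v 1 with k | k
  · have k2 : v ^ 2 ≤ 1 := pow_le_one₀ hv.le k
    have k3 : C * v ^ 3 ≤ C * v := by
      refine mul_le_mul_of_nonneg_left ?_ h0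
      nlinarith
    constructor <;> nlinarith [mul_le_mul_of_nonneg_left k2 hn]
  · have k2 : 1 ≤ v ^ 2 := one_le_pow₀ k
    have k3 : 1 ≤ v ^ 3 := one_le_pow₀ k
    constructor <;> nlinarith [mul_le_mul_of_nonneg_left k2 hn, mul_le_mul_of_nonneg_left k h0,
      mul_le_mul_of_nonneg_left k3 h0]

lemma core (hB : Bas) {T B D : ℝ} {μ : ℝ → ℂ} (h : MU T μ) (hB0 : 0 < B) (c : O → ℂ)
    (hc : ∀ m, ‖c m‖ ≤ D) (G : ℝ → ℂ)
    (hG : ∀ v : ℝ, 0 < v → HasSum (fun m : O => c m * cexp (-(N m / (B / v) : ℝ))) (G v)) :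
    IntegrableOn (fun v : ℝ => μ v / v * G v) (Set.Ioi 0) ∧
      HasSum (fun m : O => c m * wT T (N m / B)) (∫ v in Set.Ioi (0 : ℝ), μ v / v * G v) := by
  have : Countable O := (QuadraticAlgebra.equivProd (-1 : ℤ) (-1)).injective.countable
  obtain ⟨C, hC0, hC⟩ := bd h
  have hD : 0 ≤ D := (norm_nonneg _).trans (hc 0)
  set F : O → ℝ → ℂ := fun m v => μ v / v * (c m * cexp (-(N m / B * v : ℝ))) with hF
  set w : O → ℝ := fun m => D * ((if m = 0 then 1 else 0) + 2 * B ^ 2 * N m ^ (-2 : ℝ)) with hw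
  have sw : Summable w := ((summable_of_ne_finset_zero (s := {0}) (by simp +contextual)).add
    ((hB.b3.summ 2 one_lt_two).mul_left _)).mul_left D
  have hm : ∀ m, Measurable (F m) := fun m => by
    have := h.meas
    simp only [hF]
    fun_prop
  have hb : ∀ m (v : ℝ), 0 < v → ‖F m v‖ ≤ w m * (C * (1 + v ^ 2)⁻¹) := by
    intro m v hv
    have hN : 0 ≤ N m := Nat.cast_nonneg _
    simp only [hF, hw, norm_mul, norm_div, norm_real, Real.norm_of_nonneg hv.le, norm_exp, neg_re,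
      ofReal_re]
    rw [mul_left_comm, mul_assoc]
    refine mul_le_mul (hc m) ?_ (by positivity) hD
    by_cases h0 : m = 0
    · subst h0
      simpa [hB.b1.N_zero] using (hC v hv).1
    · have h1 : 0 < N m := lt_of_lt_of_le one_pos (hB.b1.N_one_le m h0)
      have h2 : Real.exp (-(N m / B * v)) ≤ 2 / (N m / B * v) ^ 2 := by
        rw [Real.exp_neg, ← one_div, div_le_div_iff₀ (by positivity) (by positivity)]
        have := Real.pow_div_factorial_le_exp (N m / B * v) (by positivity) 2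
        norm_num at this
        linarith
      rw [if_neg h0, zero_add, Real.rpow_neg hN, Real.rpow_two]
      calc _ ≤ ‖μ v‖ / v * (2 / (N m / B * v) ^ 2) := by gcongr
        _ = 2 * B ^ 2 * (N m ^ 2)⁻¹ * (‖μ v‖ / v ^ 3) := by field_simp
        _ ≤ _ := by gcongr; exact (hC v hv).2
  have hs : ∀ v : ℝ, 0 < v → HasSum (fun m => F m v) (μ v / v * G v) := by
    intro v hv
    simpa only [div_div_eq_mul_div, mul_div_right_comm] using (hG v hv).mul_left (μ v / v)
  have hi : IntegrableOn (fun v : ℝ => (∑' m, w m) * (C * (1 + v ^ 2)⁻¹)) (Set.Ioi 0) :=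
    ((integrable_inv_one_add_sq.const_mul C).const_mul _).integrableOn
  constructor
  · refine IntegrableOn.congr_fun (f := fun v => ∑' m, F m v) ?_ (fun v hv => (hs v hv).tsum_eq)
      measurableSet_Ioi
    refine Integrable.mono' hi (Measurable.tsum hm).aestronglyMeasurable ?_
    exact ae_restrict_of_forall_mem measurableSet_Ioi fun v hv =>
      tsum_of_norm_bounded (sw.hasSum.mul_right _) fun m => hb m v hv
  · have := hasSum_integral_of_dominated_convergence (μ := volume.restrict (Set.Ioi (0 : ℝ))) (F := F)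
      (fun m v => w m * (C * (1 + v ^ 2)⁻¹)) (fun m => (hm m).aestronglyMeasurable)
      (fun m => ae_restrict_of_forall_mem measurableSet_Ioi fun v hv => hb m v hv)
      (Filter.Eventually.of_forall fun v => sw.mul_right _)
      (by simp only [tsum_mul_right]; exact hi)
      (ae_restrict_of_forall_mem measurableSet_Ioi fun v hv => hs v hv)
    refine this.congr_fun ?_ |>.congr_fun fun _ => rfl
    intro m
    have hN : 0 ≤ N m := Nat.cast_nonneg _
    rw [← h.fwd (N m / B) (by positivity), ← integral_const_mul]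
    simp only [hF, mul_left_comm]

lemma tk (hB : Bas) {T B : ℝ} {μ : ℝ → ℂ} (h : MU T μ) (hB0 : 0 < B) (n1 n2 : O) :
    IntegrableOn (fun v : ℝ => μ v / v * Tk (B / v) n1 n2) (Set.Ioi 0) := by
  have hc : ∀ m, ‖cub m n1 * conj (cub m n2)‖ ≤ 1 := fun m => by
    rw [norm_mul, RCLike.norm_conj]
    exact mul_le_one₀ (hB.b6.norm_le m n1) (norm_nonneg _) (hB.b6.norm_le m n2)
  refine (core hB h hB0 _ hc _ fun v hv => Summable.hasSum ?_).1
  refine Summable.of_norm_bounded (GPOM.gsum hB (div_pos hB0 hv)) fun m => ?_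
  rw [norm_mul]
  exact mul_le_of_le_one_left (norm_nonneg _) (hc m)

lemma pk (hB : Bas) (hP : KPStmt) {T A : ℝ} {μ : ℝ → ℂ} (h : MU T μ) (hA : 0 < A) (X : ℝ) (b : O → ℂ) :
    IntegrableOn (fun v : ℝ => μ v / v * Fm (Pk (A / v)) X b) (Set.Ioi 0) := by
  simp only [Fm, mul_sum]
  refine integrable_finsetSum _ fun n1 m1 => integrable_finsetSum _ fun n2 m2 => ?_
  simp only [mul_left_comm (μ _ / _)]
  refine Integrable.const_mul ?_ _
  obtain ⟨⟨p1, s1⟩, -⟩ := (L2M.msq hB).1 m1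
  obtain ⟨⟨p2, s2⟩, -⟩ := (L2M.msq hB).1 m2
  obtain ⟨g, k1, k2, hg, h1, rfl, rfl, hc⟩ := hB.b2.gcd n1 n2 p1
  have h2 : Prim k2 := hB.b2.cancel _ _ hg p2
  refine IntegrableOn.congr_fun ?_ (fun v hv => by
    rw [hP (A / v) g k1 k2 (div_pos hA hv) hg h1 h2 (L2M.sqf3 s1 s2 hc)]) measurableSet_Ioi
  simp only [mul_sum]
  refine integrable_finsetSum _ fun e he => integrable_finsetSum _ fun f hf => ?_
  split_ifs
  · have n1 := hB.b1.N_one_le e (hB.b2.ne _ ((L2M.mdv hB hg).1 he).1)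
    have n2 := hB.b1.N_one_le f (hB.b2.ne _ ((L2M.mdv hB hg).1 hf).1)
    simp only [mul_left_comm (μ _ / _), div_right_comm A _ (N e * N f ^ 2)]
    exact (tk hB h (by positivity) k1 k2).const_mul _
  · simp

lemma fm (hB : Bas) {T B : ℝ} {μ : ℝ → ℂ} (h : MU T μ) (hB0 : 0 < B) (X : ℝ) (a : O → ℂ) :
    IntegrableOn (fun v : ℝ => μ v / v * Fm (Tk (B / v)) X a) (Set.Ioi 0) ∧
      HasSum (fun m : O => ‖∑ n ∈ SQ X, a n * cub m n‖ ^ 2 * wT T (N m / B))
        (∫ v in Set.Ioi (0 : ℝ), μ v / v * Fm (Tk (B / v)) X a).re := by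
  have := core hB h hB0 (D := (∑ n ∈ SQ X, ‖a n‖) ^ 2)
    (fun m => ((‖∑ n ∈ SQ X, a n * cub m n‖ ^ 2 : ℝ) : ℂ)) (fun m => by
      rw [norm_real, Real.norm_of_nonneg (by positivity)]
      gcongr
      refine (norm_sum_le _ _).trans (sum_le_sum fun n _ => ?_)
      rw [norm_mul]
      exact mul_le_of_le_one_right (norm_nonneg _) (hB.b6.norm_le m n))
    (fun v => Fm (Tk (B / v)) X a) fun v hv => by
      simpa only [ofReal_mul, ofReal_exp, ofReal_neg] using L2M.hasSum_fm hB (div_pos hB0 hv) X a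
  exact ⟨this.1, by simpa only [← ofReal_mul, ofReal_re] using Complex.hasSum_re this.2⟩

lemma key (hK : KIStmt) {M : ℝ} (hM : 0 < M) (X : ℝ) (a : O → ℂ) :
    ∑ f ∈ SQ X, (N f : ℂ) * Fm (Tk (M / N f ^ 2)) X (fun k => sh X a f k * cub (f ^ 2) k) =
      ∑ e ∈ SQ X, Fm (Pk M) X (sh X a e) := by
  have h1 := L2M.swap X a (fun f k1 k2 => (N f : ℂ) * (cub (f ^ 2) k1 * conj (cub (f ^ 2) k2)) *
    Tk (M / N f ^ 2) k1 k2)
  have h2 := L2M.swap X a (fun _ k1 k2 => Pk M k1 k2)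
  rw [sum_congr rfl fun n1 m1 => sum_congr rfl fun n2 m2 => by rw [hK M X n1 n2 hM m1 m2],
    h2] at h1
  unfold Fm
  rw [h1]
  refine sum_congr rfl fun f _ => ?_
  rw [mul_sum]
  refine sum_congr rfl fun k1 _ => ?_
  rw [mul_sum]
  refine sum_congr rfl fun k2 _ => ?_
  rw [map_mul]; ring

lemma wnn (T x : ℝ) : 0 ≤ wT T x := by
  unfold wT
  split_ifs
  · positivity
  · rfl

lemma wge {A T : ℝ} {m : O} (hT : 1 ≤ T) (hA : 0 < A) (h : Thin A T m) : 1 / 3 ≤ wT T (N m / A) := by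
  have h1 : 1 ≤ N m / A := (one_le_div hA).2 h.1
  have h2 : N m / A ≤ 1 + 1 / T := by rw [div_le_iff₀ hA, mul_comm]; exact h.2
  have h3 := Real.log_nonneg h1
  have h4 : Real.log (N m / A) ≤ 1 / T := by linarith [Real.log_le_sub_one_of_pos (x := N m / A) (by linarith)]
  rw [le_div_iff₀ (by linarith), mul_comm] at h4
  have h5 : (T * Real.log (N m / A)) ^ 2 ≤ 1 := pow_le_one₀ (by positivity) h4
  rw [wT, if_pos (by linarith)]
  have := Real.exp_neg_one_gt_d9
  linarith [Real.exp_le_exp.2 (neg_le_neg h5)]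

lemma th1 (hB : Bas) (hP : KPStmt) (hK : KIStmt) : TH1Stmt := by
  intro T A X μ a S hT h hA hS
  have hN : ∀ f ∈ SQ X, 0 < N f := fun f hf => lt_of_lt_of_le one_pos
    (hB.b1.N_one_le f (hB.b2.ne _ ((L2M.msq hB).1 hf).1.1))
  have e : ∑ e ∈ SQ X, PW μ A X (sh X a e) = ∑ f ∈ SQ X, (N f : ℂ) * ∫ v in Set.Ioi (0 : ℝ),
      μ v / v * Fm (Tk (A / N f ^ 2 / v)) X (fun k => sh X a f k * cub (f ^ 2) k) := by
    simp only [PW, ← integral_const_mul]
    rw [← integral_finsetSum _ fun e _ => pk hB hP h hA X (sh X a e),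
      ← integral_finsetSum _ fun f hf => (fm hB h (by have := hN f hf; positivity) X _).1.const_mul _]
    refine setIntegral_congr_fun measurableSet_Ioi fun v hv => ?_
    simp only [← mul_sum, ← key hK (div_pos hA hv) X a]
    rw [mul_sum]
    refine sum_congr rfl fun f _ => ?_
    rw [div_right_comm, mul_left_comm]
  rw [← re_sum, e, re_sum]
  rcases (SQ X).eq_empty_or_nonempty with h0 | ⟨n, hn⟩
  · simp [h0]
  · have h1 : (1 : O) ∈ SQ X := L2M.sq_of hB hn hB.b2.one (one_mul n)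
    have hN1 : N (1 : O) = 1 := by simpa using hB.b1.N_pow 1 0
    have h2 := single_le_sum (f := fun f => ((N f : ℂ) * ∫ v in Set.Ioi (0 : ℝ),
      μ v / v * Fm (Tk (A / N f ^ 2 / v)) X (fun k => sh X a f k * cub (f ^ 2) k)).re) (fun f hf => by
        have := hN f hf
        rw [re_ofReal_mul]
        exact mul_nonneg this.le ((fm hB h (by positivity) X _).2.nonneg fun m =>
          mul_nonneg (by positivity) (wnn _ _))) h1
    refine le_trans ?_ (mul_le_mul_of_nonneg_left h2 (by norm_num))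
    simp only [hN1, one_pow, div_one, ofReal_one, one_mul, hB.b6.one_l, mul_one]
    have h3 := ((fm hB h hA X (sh X a 1)).2).mul_left 3
    refine le_trans (sum_le_sum fun m hm => ?_) (sum_le_hasSum S
      (fun _ _ => mul_nonneg (by norm_num) (mul_nonneg (by positivity) (wnn _ _))) h3)
    rw [show ∑ n ∈ SQ X, sh X a 1 n * cub m n = ∑ n ∈ SQ X, a n * cub m n from
      sum_congr rfl fun n hn => by simp [sh, hn]]
    nlinarith [sq_nonneg ‖∑ n ∈ SQ X, a n * cub m n‖, wge hT hA (hS m hm)]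

end TH1M

theorem th1S : TH1Stmt := TH1M.th1 W1.bas kpS (kiS ktS kpS)

end Vale.Agent.P006.S
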