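import Vale.Agent.P006.S.TH2a

noncomputable section
open Complex MeasureTheory Filter Topology
open scoped Classical ComplexConjugate

namespace Vale.Agent.P006.S
open Vale.Agent.P026

namespace TH2M
open SS0M L3M

/-- one frequency -/
def Ew (μ : ℝ → ℂ) (A : ℝ) (T : Finset O) (b : O → ℂ) (h : O) : ℂ :=
  ∑ n1 ∈ T, ∑ n2 ∈ T, zz b h n1 * conj (zz b h n2) *
    (((Real.sqrt (N n1 * N n2) : ℂ))⁻¹ * Gk μ (sg * A * N h / (N n1 * N n2)))

theorem zz_le (b : O → ℂ) (h n : O) : ‖zz b h n‖ ≤ ‖b n‖ * ‖gs n‖ / Real.sqrt (N n) := by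
  rw [zz, norm_div, norm_mul, norm_conj, norm_mul, norm_real, Real.norm_of_nonneg (Real.sqrt_nonneg _)]
  gcongr
  exact mul_le_of_le_one_left (norm_nonneg _) (W1.bas.b6.norm_le _ _)

theorem eF {M X : ℝ} {b : O → ℂ} {T : Finset O} (hM : 0 < M) (hTd : T = (SQ X).filter fun n => b n ≠ 0)
    (n0 : ∀ n ∈ T, 0 < N n) : Fm (Pk M) X b = (Real.pi * M : ℝ) / kap * ∑' h, Eh M T b h := by
  have hB := W1.bas
  have sm : ∀ h : O, ∀ n1 ∈ T, ∀ n2 ∈ T, Summable fun h => zz b h n1 * conj (zz b h n2) *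
      (((Real.sqrt (N n1 * N n2) : ℂ))⁻¹ * cexp (-(sg * M * N h / (N n1 * N n2) : ℝ))) := by
    intro _ n1 h1 n2 h2
    have p1 := n0 n1 h1
    have p2 := n0 n2 h2
    refine Summable.of_norm_bounded ((summ_exp hB (c := sg * M / (N n1 * N n2))
      (by have := sg1; positivity)).mul_left (‖b n1‖ * ‖gs n1‖ / Real.sqrt (N n1) *
      (‖b n2‖ * ‖gs n2‖ / Real.sqrt (N n2)) * ‖((Real.sqrt (N n1 * N n2) : ℂ))⁻¹‖)) fun h => ?_
    rw [norm_mul, norm_mul, norm_mul, norm_conj, cexp_norm, ← mul_assoc, div_mul_eq_mul_div (sg * M)]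
    gcongr <;> apply zz_le
  unfold Eh
  rw [Summable.tsum_finsetSum fun n1 h1 => summable_sum fun n2 h2 => sm 0 n1 h1 n2 h2, Finset.mul_sum, Fm,
    ← Finset.sum_filter_of_ne (p := fun n => b n ≠ 0) fun n _ h (e : b n = 0) => h (by simp [e]), ← hTd]
  refine Finset.sum_congr rfl fun n1 h1 => ?_
  rw [Summable.tsum_finsetSum fun n2 h2 => sm 0 n1 h1 n2 h2, Finset.mul_sum,
    ← Finset.sum_filter_of_ne (p := fun n => b n ≠ 0) fun n _ h (e : b n = 0) => h (by simp [e]), ← hTd]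
  refine Finset.sum_congr rfl fun n2 h2 => ?_
  rw [Pk, ← tsum_mul_left, ← tsum_mul_left, ← tsum_mul_left]
  refine tsum_congr fun h => ?_
  have p1 := n0 n1 h1
  have p2 := n0 n2 h2
  have r1 : (Real.sqrt (N n1) : ℂ) ≠ 0 := ofReal_ne_zero.2 (Real.sqrt_pos.2 p1).ne'
  have r2 : (Real.sqrt (N n2) : ℂ) ≠ 0 := ofReal_ne_zero.2 (Real.sqrt_pos.2 p2).ne'
  have e : ((N n1 * N n2 : ℝ) : ℂ) = (Real.sqrt (N n1) : ℂ) ^ 2 * (Real.sqrt (N n2) : ℂ) ^ 2 := by
    rw [← ofReal_pow, ← ofReal_pow, Real.sq_sqrt p1.le, Real.sq_sqrt p2.le, ofReal_mul]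
  have k := Poi3.kap_ne
  simp only [zz, map_mul, map_div₀, conj_conj, conj_ofReal, Real.sqrt_mul p1.le, e]
  rw [ofReal_mul (Real.sqrt _)]
  field_simp

theorem ePW {τ A X : ℝ} {μ : ℝ → ℂ} {b : O → ℂ} {T : Finset O} (hμ : MU τ μ) (hA : 0 < A)
    (hTd : T = (SQ X).filter fun n => b n ≠ 0) (n0 : ∀ n ∈ T, 0 < N n) :
    PW μ A X b = (Real.pi * A : ℝ) / kap * ∑' h, Ew μ A T b h := by
  have s := swap hμ (T ×ˢ T) (fun h p => zz b h p.1 * conj (zz b h p.2) *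
    ((Real.sqrt (N p.1 * N p.2) : ℂ))⁻¹) (fun p => ‖b p.1‖ * ‖gs p.1‖ / Real.sqrt (N p.1) *
      (‖b p.2‖ * ‖gs p.2‖ / Real.sqrt (N p.2)) * ‖((Real.sqrt (N p.1 * N p.2) : ℂ))⁻¹‖)
    (fun p => sg * A / (N p.1 * N p.2)) (fun h p => by
      rw [norm_mul, norm_mul, norm_conj]
      gcongr <;> apply zz_le) (fun p hp => by
      have p1 := n0 _ (Finset.mem_product.1 hp).1
      have p2 := n0 _ (Finset.mem_product.1 hp).2
      have := sg1
      positivity)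
  simp only [Finset.sum_product] at s
  have e : ∑' h, Ew μ A T b h = _ := (tsum_congr fun h => ?_).trans s.symm
  · rw [e, ← integral_const_mul]
    refine setIntegral_congr_fun measurableSet_Ioi fun v hv => ?_
    have hv : 0 < v := hv
    have v0 : (v : ℂ) ≠ 0 := ofReal_ne_zero.2 hv.ne'
    rw [eF (div_pos hA hv) hTd n0, ← mul_assoc, ← tsum_mul_left, ← tsum_mul_left]
    refine tsum_congr fun h => ?_
    simp only [Eh, Finset.mul_sum]
    refine Finset.sum_congr rfl fun n1 _ => Finset.sum_congr rfl fun n2 _ => ?_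
    rw [gk, show sg * (A / v) * N h / (N n1 * N n2) = sg * A / (N n1 * N n2) * N h / v by ring]
    generalize cexp _ = E
    push_cast
    field_simp
  · refine Finset.sum_congr rfl fun n1 _ => Finset.sum_congr rfl fun n2 _ => ?_
    rw [show sg * A * N h / (N n1 * N n2) = sg * A / (N n1 * N n2) * N h by ring]
    ring

theorem zero' {τ : ℝ} {μ : ℝ → ℂ} (hτ : 1 ≤ τ) (hμ : MU τ μ) (A : ℝ) {T : Finset O} (b : O → ℂ)
    (hT : ∀ n ∈ T, SP n) : ‖Ew μ A T b 0‖ ≤ 6 / τ * ‖b 1‖ ^ 2 := by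
  have t0 : 0 < τ := by linarith
  have g : Gk μ 0 = omT τ 1 := by
    rw [← hμ.zero]
    simp [Gk, gk]
  have e : Ew μ A T b 0 = omT τ 1 * Eh A T b 0 := by
    simp only [Ew, Eh, W1.bas.b1.N_zero, mul_zero, zero_div, g, Finset.mul_sum]
    refine Finset.sum_congr rfl fun n1 _ => Finset.sum_congr rfl fun n2 _ => ?_
    simp only [ofReal_zero, neg_zero, Complex.exp_zero]
    ring
  have o : ‖omT τ 1‖ ≤ 6 / τ := by
    have e1 : (1 : ℂ) ^ 2 / (4 * τ ^ 2) = ((1 / (4 * τ ^ 2) : ℝ) : ℂ) := by push_cast; ring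
    rw [omT, norm_mul, e1, norm_real, Complex.norm_exp_ofReal, Real.norm_of_nonneg (by positivity),
      div_mul_eq_mul_div]
    gcongr
    have a : Real.sqrt Real.pi ≤ 2 := Real.sqrt_le_iff.2 ⟨by norm_num, by linarith [Real.pi_lt_four]⟩
    have c : 1 / (4 * τ ^ 2) ≤ 1 := by
      rw [div_le_one (by positivity)]
      nlinarith
    have d := (Real.exp_le_exp.2 c).trans Real.exp_one_lt_three.le
    nlinarith [Real.exp_pos (1 / (4 * τ ^ 2)), Real.sqrt_nonneg Real.pi]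
  rw [e, norm_mul]
  exact mul_le_mul o (zero A b hT) (norm_nonneg _) (by positivity)

theorem spb {Y K B σ : ℝ} {S T : Finset O} (b : O → ℂ) (hY : 0 < Y) (hB : 0 ≤ B)
    (hσ : σ = 1 / 4 ∨ σ = 3 / 2) (hT : ∀ n ∈ T, SP n ∧ Y / 2 < N n ∧ N n ≤ Y) (hA : LA K Y B)
    (hS : ∀ h ∈ S, h ≠ 0 ∧ N h ≤ K) (u : ℝ) : ∑ h ∈ S, ‖Poi3.SP T (zz b h) N σ u‖ ^ 2 ≤
      B * (2 * Y ^ (-1 + 2 * σ) * ∑ n ∈ T, ‖b n‖ ^ 2) := by
  have n0 : ∀ n ∈ T, 0 < N n := fun n hn => by linarith [(hT n hn).2.1]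
  have := hA S T (fun n => conj (b n * conj (gs n) / Real.sqrt (N n) * (N n : ℂ) ^ (-1 / 2 + σ + u * I)))
    hS fun n hn => ⟨(hT n hn).1, (hT n hn).2.2⟩
  refine le_trans (le_of_eq (Finset.sum_congr rfl fun h _ => ?_)) (this.trans ?_)
  · rw [← norm_conj, Poi3.SP, map_sum]
    congr 2
    refine Finset.sum_congr rfl fun n _ => ?_
    simp only [zz, map_mul, map_div₀, conj_conj]
    ring
  · refine mul_le_mul_of_nonneg_left ?_ hB
    rw [Finset.mul_sum]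
    refine Finset.sum_le_sum fun n hn => ?_
    have p := n0 n hn
    rw [norm_conj, norm_mul, norm_div, norm_mul, norm_conj, norm_cpow_eq_rpow_re_of_pos p, norm_real,
      mul_pow, div_pow, mul_pow, W1.hd.n3 n (W1.bas.b2.cop n (hT n hn).1.1) (hT n hn).1.2, Real.norm_eq_abs,
      sq_abs, Real.sq_sqrt p.le, mul_div_cancel_right₀ _ p.ne', mul_comm, ← Real.rpow_natCast,
      ← Real.rpow_mul p.le]
    gcongr
    rcases hσ with rfl | rfl
    · refine le_trans (le_of_eq (by congr 1; simp; norm_num)) ((Real.rpow_le_rpow_of_nonpos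
        (show 0 < Y / 4 by positivity) (show Y / 4 ≤ N n by linarith [(hT n hn).2.1])
        (show (-1 + 2 * (1 / 4) : ℝ) ≤ 0 by norm_num)).trans_eq ?_)
      rw [Real.div_rpow hY.le (by norm_num), show (4 : ℝ) = 2 ^ (2 : ℝ) by norm_num,
        ← Real.rpow_mul (by norm_num)]
      norm_num
      ring
    · refine le_trans (le_of_eq (by congr 1; simp; norm_num)) ((Real.rpow_le_rpow p.le (hT n hn).2.2
        (show (0 : ℝ) ≤ -1 + 2 * (3 / 2) by norm_num)).trans ?_)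
      linarith [Real.rpow_pos_of_pos hY (-1 + 2 * (3 / 2))]

theorem block {τ A Y K B σ L J : ℝ} {μ : ℝ → ℂ} {S T : Finset O} (b : O → ℂ) (hμ : MU τ μ) (hM : 0 < A)
    (hY : 0 < Y) (hL : 0 < L) (hB : 0 ≤ B) (hσ : σ = 1 / 4 ∨ σ = 3 / 2)
    (hi : Integrable (dk τ (1 - σ))) (hJ : ∫ u, ‖dk τ (1 - σ) u‖ ≤ J)
    (hT : ∀ n ∈ T, SP n ∧ Y / 2 < N n ∧ N n ≤ Y) (hA : LA K Y B)
    (hS : ∀ h ∈ S, h ≠ 0 ∧ L ≤ N h ∧ N h ≤ K) :
    ∑ h ∈ S, ‖Ew μ A T b h‖ ≤ J * (A * L) ^ (-σ) * (B * Y ^ (-1 + 2 * σ) * ∑ n ∈ T, ‖b n‖ ^ 2) := by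
  have s0 : 0 < σ := by rcases hσ with h | h <;> rw [h] <;> norm_num
  have n0 : ∀ n ∈ T, 0 < N n := fun n hn => by linarith [(hT n hn).2.1]
  have a := spb b hY hB hσ hT hA fun h hh => ⟨(hS h hh).1, (hS h hh).2.2⟩
  have hG : ∀ y : ℝ, 0 < y → Gk μ y =
      (1 / (2 * Real.pi) : ℝ) * ∫ u : ℝ, dk τ (1 - σ) (-u) * (y : ℂ) ^ (-(σ + u * I)) := by
    intro y hy
    have := hμ.dual y (1 - σ) hy (by rcases hσ with h | h <;> rw [h] <;> norm_num)
    rw [Gk]
    unfold gk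
    rw [this, ← integral_neg_eq_self]
    congr 2
    funext u
    congr 2
    push_cast
    ring
  have q : ∀ h ∈ S, A * L ≤ sg * A * N h := fun h hh =>
    mul_le_mul (le_mul_of_one_le_left hM.le sg1) (hS h hh).2.1 hL.le (by nlinarith [sg1])
  have s := fun h hh => sep T (zz b h) N n0 hi.comp_neg ((mul_pos hM hL).trans_le (q h hh)) hG
  calc _ ≤ ∑ h ∈ S, 1 / 4 * (A * L) ^ (-σ) * ∫ u : ℝ, ‖dk τ (1 - σ) (-u)‖ *
        (‖Poi3.SP T (zz b h) N σ u‖ ^ 2 + ‖Poi3.SP T (zz b h) N σ (-u)‖ ^ 2) := by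
        refine Finset.sum_le_sum fun h hh => (s h hh).2.trans ?_
        refine mul_le_mul_of_nonneg_right (mul_le_mul_of_nonneg_left (Real.rpow_le_rpow_of_nonpos
          (mul_pos hM hL) (q h hh) (by linarith)) (by norm_num)) (integral_nonneg fun u => by positivity)
    _ ≤ 1 / 4 * (A * L) ^ (-σ) * ∫ u : ℝ, ‖dk τ (1 - σ) (-u)‖ *
        (2 * (B * (2 * Y ^ (-1 + 2 * σ) * ∑ n ∈ T, ‖b n‖ ^ 2))) := by
        rw [← Finset.mul_sum, ← integral_finsetSum _ fun h hh => (s h hh).1]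
        gcongr
        · exact integrable_finsetSum _ fun h hh => (s h hh).1
        · exact hi.comp_neg.norm.mul_const _
        · intro u
          simp only [← Finset.mul_sum, Finset.sum_add_distrib]
          exact mul_le_mul_of_nonneg_left (by linarith [a u, a (-u)]) (norm_nonneg _)
    _ ≤ _ := by
        rw [integral_mul_const, integral_neg_eq_self (fun u => ‖dk τ (1 - σ) u‖)]
        have := mul_le_mul_of_nonneg_right hJ
          (by positivity : 0 ≤ (A * L) ^ (-σ) * (B * Y ^ (-1 + 2 * σ) * ∑ n ∈ T, ‖b n‖ ^ 2))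
        linarith

theorem ar {τ A Y L σ e : ℝ} (ht : 0 < τ) (hA : 0 < A) (hY : 0 < Y) (hL : 0 < L) (he : e = 2 * σ - 1) :
    τ ^ e * (A * L) ^ (-σ) * Y ^ (-1 + 2 * σ) = (Y * τ)⁻¹ * (L / (Y ^ 2 * τ ^ 2 / A)) ^ (-σ) := by
  refine Real.log_injOn_pos (Set.mem_Ioi.2 (by positivity)) (Set.mem_Ioi.2 (by positivity)) ?_
  simp (disch := positivity) only [Real.log_mul, Real.log_div, Real.log_rpow, Real.log_inv, Real.log_pow]
  rw [he]
  push_cast
  ring

theorem ar2 {τ A Y : ℝ} (ht : 0 < τ) (hA : 0 < A) (hY : 0 < Y) :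
    A * (Y * τ)⁻¹ * (Y * (Y ^ 2 * τ ^ 2 / A) ^ (1 / 3 : ℝ)) = (A * Y) ^ (2 / 3 : ℝ) * τ ^ (-1 / 3 : ℝ) := by
  refine Real.log_injOn_pos (Set.mem_Ioi.2 (by positivity)) (Set.mem_Ioi.2 (by positivity)) ?_
  simp (disch := positivity) only [Real.log_mul, Real.log_div, Real.log_rpow, Real.log_inv, Real.log_pow]
  push_cast
  ring

end TH2M

open TH2M L3M SS0M in
theorem th2S (hD : DKStmt) (hS : SLAStmt) : TH2Stmt := by
  have hB := W1.bas
  have a1 := rr1
  obtain ⟨CD, CD0, hD⟩ := hD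
  obtain ⟨CS, CS0, hS⟩ := hS
  have c0 : 0 ≤ CD * CS * (72 / (rr - 1)) :=
    mul_nonneg (by positivity) (div_nonneg (by norm_num) (by linarith))
  refine ⟨24 + 4 * (CD * CS * (72 / (rr - 1))), by positivity,
    fun τ A X Y μ b hτ hμ hA hY hYA hb => ?_⟩
  have t0 : 0 < τ := by linarith
  obtain ⟨d1, d2, d3, d4⟩ := hD τ hτ
  obtain ⟨K, hKd⟩ : ∃ K, K = Y ^ 2 * τ ^ 2 / A := ⟨_, rfl⟩
  have hK : 0 < K := by rw [hKd]; positivity
  have hKY : K ≤ Y := by
    rw [hKd, div_le_iff₀ hA]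
    nlinarith
  have sK : Real.sqrt K = Y * τ / Real.sqrt A := by
    rw [hKd, ← mul_pow, Real.sqrt_div (by positivity), Real.sqrt_sq (by positivity)]
  obtain ⟨T, hTd⟩ : ∃ T, T = (SQ X).filter fun n => b n ≠ 0 := ⟨_, rfl⟩
  have hT : ∀ n ∈ T, SP n ∧ Y / 2 < N n ∧ N n ≤ Y := fun n hn => by
    rw [hTd, Finset.mem_filter] at hn
    exact ⟨(((memS hB).1 X n).1 hn.1).1, hb n hn.2⟩
  have n0 : ∀ n ∈ T, 0 < N n := fun n hn => by linarith [(hT n hn).2.1]
  have eb : ∑ n ∈ SQ X, ‖b n‖ ^ 2 = ∑ n ∈ T, ‖b n‖ ^ 2 := by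
    rw [hTd]
    refine (Finset.sum_filter_of_ne (p := fun n => b n ≠ 0) ?_).symm
    exact fun n _ h (e : b n = 0) => h (by simp [e])
  obtain ⟨D, hDd⟩ : ∃ D, D = CD * CS * (72 / (rr - 1)) * (Y * τ)⁻¹ *
    (Y * K ^ (1 / 3 : ℝ) * min 1 (Real.sqrt K)) * ∑ n ∈ T, ‖b n‖ ^ 2 := ⟨_, rfl⟩
  have D0 : 0 ≤ D := by
    rw [hDd]
    positivity
  have main : ∀ S : Finset O, ∑ h ∈ S, ‖Ew μ A T b h‖ ≤ 6 / τ * ‖b 1‖ ^ 2 + D := fun S => by
    have f : ∀ h ∈ S.erase 0, Nat.log 2 (Nn h) ∈ Finset.range (S.sup (fun h => Nat.log 2 (Nn h)) + 1) :=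
      fun h hh => Finset.mem_range_succ_iff.2
        (Finset.le_sup (f := fun h => Nat.log 2 (Nn h)) (Finset.mem_of_mem_erase hh))
    have r : ∑ h ∈ S.erase 0, ‖Ew μ A T b h‖ ≤ D := by
      by_cases hY1 : 1 ≤ Y
      swap
      · have : T = ∅ := Finset.eq_empty_of_forall_notMem fun n hn =>
          hY1 ((hB.b1.N_one_le n (hB.b2.ne n (hT n hn).1.1)).trans (hT n hn).2.2)
        simpa [Ew, this] using D0
      rw [← Finset.sum_fiberwise_of_maps_to f]
      generalize S.sup (fun h => Nat.log 2 (Nn h)) + 1 = J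
      calc _ ≤ ∑ j ∈ Finset.range J, D * (Hp K (j + 1) - Hp K j) := by
            refine Finset.sum_le_sum fun j _ => ?_
            have j1 : (1 : ℝ) ≤ 2 ^ (j + 1) := one_le_pow₀ one_le_two
            have hσ : sg2 K j = 1 / 4 ∨ sg2 K j = 3 / 2 := by unfold sg2; split_ifs <;> simp
            refine (block (σ := sg2 K j) (L := 2 ^ j) (J := CD * τ ^ (2 * sg2 K j - 1)) b hμ hA hY
              (by positivity) (by positivity) hσ ?_ ?_ hT (hS _ Y j1 hY1) fun h hh => ?_).trans ?_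
            · rcases hσ with h | h <;> rw [h] <;> norm_num at d1 d2 ⊢ <;> assumption
            · rcases hσ with h | h <;> rw [h] <;> norm_num at d3 d4 ⊢ <;> assumption
            · obtain ⟨h1, rfl⟩ := Finset.mem_filter.1 hh
              have h0 := (Finset.mem_erase.1 h1).1
              have h2 : Nn h ≠ 0 := fun e => by
                have := hB.b1.N_one_le h h0
                rw [N, e] at this
                norm_num at this
              refine ⟨h0, ?_, ?_⟩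
              · unfold N
                exact_mod_cast Nat.pow_log_le_self 2 h2
              · unfold N
                exact_mod_cast (Nat.lt_pow_succ_log_self one_lt_two _).le
            · have b1 := mul_le_mul_of_nonneg_left (blk2 hK hY1 hKY j)
                (by positivity : 0 ≤ CD * CS * (Y * τ)⁻¹ * ∑ n ∈ T, ‖b n‖ ^ 2)
              have e := ar (L := 2 ^ j) (σ := sg2 K j) t0 hA hY (by positivity) rfl
              rw [← hKd] at e
              refine le_trans (le_of_eq ?_) (b1.trans (le_of_eq ?_))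
              · linear_combination (CD * CS * (Y * (2 ^ (j + 1)) ^ (1 / 3 : ℝ) +
                  Y ^ (2 / 3 : ℝ) * (2 ^ (j + 1)) ^ (2 / 3 : ℝ) + (2 ^ (j + 1)) ^ (4 / 3 : ℝ)) *
                  ∑ n ∈ T, ‖b n‖ ^ 2) * e
              · rw [hDd]
                ring
        _ ≤ D := by
            rw [← Finset.mul_sum, Finset.sum_range_sub]
            refine mul_le_of_le_one_right D0 ?_
            have u : ∀ j, 0 ≤ Hp K j ∧ Hp K j ≤ 1 := fun j =>
              ⟨by unfold Hp; positivity, (div_le_one (by positivity)).2 (by linarith)⟩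
            linarith [(u J).2, (u 0).1]
    have z := zero' hτ hμ A b fun n hn => (hT n hn).1
    by_cases c : (0 : O) ∈ S
    · rw [← Finset.add_sum_erase _ _ c]
      linarith
    · rw [Finset.erase_eq_of_notMem c] at r
      have : 0 ≤ 6 / τ * ‖b 1‖ ^ 2 := by positivity
      linarith
  have sE := summable_of_sum_le (fun h => norm_nonneg (Ew μ A T b h)) main
  have k : ‖((Real.pi * A : ℝ) : ℂ) / kap‖ ≤ 4 * A := by
    have s3 : 8 / 5 ≤ Real.sqrt 3 := Real.le_sqrt_of_sq_le (by norm_num)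
    rw [norm_div, norm_real, kap, norm_div, norm_real, Real.norm_of_nonneg (by positivity),
      Real.norm_of_nonneg (by positivity), Complex.norm_two, div_le_iff₀ (by positivity)]
    nlinarith [Real.pi_lt_d2]
  refine (re_le_norm _).trans ?_
  rw [ePW hμ hA hTd n0, norm_mul, eb, ← sK, ← ar2 t0 hA hY, ← hKd]
  refine (mul_le_mul k ((norm_tsum_le_tsum_norm sE).trans (sE.tsum_le_of_sum_le main)) (norm_nonneg _)
    (by positivity)).trans ?_
  have p1 : 0 ≤ 4 * (CD * CS * (72 / (rr - 1))) * (A / τ) * ‖b 1‖ ^ 2 := by positivity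
  have p2 : 0 ≤ 24 * (A * (Y * τ)⁻¹ * (Y * K ^ (1 / 3 : ℝ))) * min 1 (Real.sqrt K) *
    ∑ n ∈ T, ‖b n‖ ^ 2 := by positivity
  rw [hDd]
  have e3 : 4 * A * (6 / τ * ‖b 1‖ ^ 2) = 24 * (A / τ) * ‖b 1‖ ^ 2 := by ring
  linarith

end Vale.Agent.P006.S
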