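import Vale.Agent.P006.S1
import Vale.Agent.P006.L.L5

/-! Thin rows: the weighted bound on one shell. -/

noncomputable section
open Complex
open scoped Classical ComplexConjugate

namespace Vale.Agent.P006.S
open Vale.Agent.P026 W1 H16

theorem th3S (hM : MUStmt) (h1 : TH1Stmt) (h2 : TH2Stmt) : TH3Stmt := by
  obtain ⟨C, hC, H2⟩ := h2
  refine ⟨3 * C, by positivity, fun τ A Y S T a τ1 hA hY hYA hS hT => ?_⟩
  obtain ⟨μ, hμ⟩ := hM τ τ1
  set a' : O → ℂ := fun n => if n ∈ T then a n else 0 with ha'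
  have hTS : T ⊆ SQ Y := fun n hn => mSQ.2 ⟨(hT n hn).1, (hT n hn).2.2⟩
  have e1 : ∀ m, ∑ n ∈ T, a n * cub m n = ∑ n ∈ SQ Y, a' n * cub m n := by
    intro m
    rw [← Finset.sum_subset hTS (f := fun n => a' n * cub m n) (fun n _ hn => by simp [ha', hn])]
    exact Finset.sum_congr rfl fun n hn => by simp [ha', hn]
  have g1 := h1 τ A Y μ a' S τ1 hμ hA hS
  have key : ∀ e ∈ SQ Y, (PW μ A Y (sh Y a' e)).re ≤ C * (A / τ) * ‖a' e‖ ^ 2 +
      C * ((A * Y) ^ (2 / 3 : ℝ) * τ ^ (-1 / 3 : ℝ)) *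
        (hw (Y * τ / Real.sqrt A) e * ∑ n ∈ SQ Y, ‖sh Y a' e n‖ ^ 2) := by
    intro e he
    have hs := mSQ.1 he
    have n1 := N1 hs.1.1
    have n0 : 0 < N e := by linarith
    have y0 : 0 < Y / N e := by positivity
    have y2 : Y / N e ≤ Y := div_le_self hY.le n1
    have hsh : Shell (Y / N e) (sh Y a' e) := by
      intro n hn
      unfold sh at hn
      have hm : e * n ∈ T := by
        by_contra hc
        apply hn
        simp [ha', hc]
      have := (hT _ hm).2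
      rw [bas.b1.N_mul] at this
      constructor
      · rw [div_div, mul_comm, ← div_div, div_lt_iff₀ n0]; linarith [this.1]
      · rw [le_div_iff₀ n0]; linarith [this.2]
    have hb := H2 τ A Y (Y / N e) μ (sh Y a' e) τ1 hμ hA y0
      ((mul_le_mul_of_nonneg_right y2 (sq_nonneg _)).trans hYA) hsh
    have e2 : sh Y a' e 1 = a' e := by simp [sh, he]
    rw [e2] at hb
    refine hb.trans_eq ?_
    have e3 : (A * (Y / N e)) ^ (2 / 3 : ℝ) = (A * Y) ^ (2 / 3 : ℝ) * N e ^ (-2 / 3 : ℝ) := by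
      rw [← mul_div_assoc, Real.div_rpow (mul_pos hA hY).le n0.le, div_eq_mul_inv,
        ← Real.rpow_neg n0.le]
      norm_num
    rw [e3, hw, show Y / N e * τ / Real.sqrt A = Y * τ / Real.sqrt A / N e by ring]
    ring
  have e3 : ∑ e ∈ SQ Y, ‖a' e‖ ^ 2 = ∑ n ∈ T, ‖a n‖ ^ 2 := by
    rw [← Finset.sum_subset hTS (f := fun n => ‖a' n‖ ^ 2) (fun n _ hn => by simp [ha', hn])]
    exact Finset.sum_congr rfl fun n hn => by simp [ha', hn]
  have e4 : ∑ e ∈ SQ Y, hw (Y * τ / Real.sqrt A) e * ∑ n ∈ SQ Y, ‖sh Y a' e n‖ ^ 2 =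
      ∑ n ∈ T, ‖a n‖ ^ 2 * rho (Y * τ / Real.sqrt A) n := by
    have := swap Y T (fun n hn => ⟨(hT n hn).1, (hT n hn).2.2⟩)
      (fun d n => ‖a n‖ ^ 2 * hw (Y * τ / Real.sqrt A) d)
    simp only [rho, Finset.mul_sum]
    rw [this]
    refine Finset.sum_congr rfl fun e _ => ?_
    rw [Finset.sum_filter]
    refine Finset.sum_congr rfl fun n _ => ?_
    by_cases hn : e * n ∈ T
    · simp [sh, ha', hn, hTS hn, mul_comm]
    · simp [sh, ha', hn]
  have g4 := Finset.sum_le_sum key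
  rw [Finset.sum_add_distrib, ← Finset.mul_sum, ← Finset.mul_sum, e3, e4] at g4
  simp only [e1]
  linarith

end Vale.Agent.P006.S
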