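import Vale.Agent.P006.S1
import Vale.Agent.P006.L.L6

/-! Removal of the divisor weight, thin rows. -/

noncomputable section
open Complex
open scoped Classical ComplexConjugate

namespace Vale.Agent.P006.S
open Vale.Agent.P026 W1 H16

namespace TH4M

theorem wt_le {T A Y : ℝ} (hT : 0 < T) (hA : 0 < A) (hY : 0 < Y) {d : O} (hd : Prim d) :
    hw (max 1 (Y * T / Real.sqrt A)) d *
      (A / T + (A * (Y / N d)) ^ (2 / 3 : ℝ) * T ^ (-1 / 3 : ℝ)) ≤
      2 * (A / T + (A * Y) ^ (2 / 3 : ℝ) * T ^ (-1 / 3 : ℝ)) * N d ^ (-(4 / 3) : ℝ) := by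
  have n0 : 0 < N d := zero_lt_one.trans_le (N1 hd)
  have s0 : 0 < Real.sqrt A := Real.sqrt_pos.2 hA
  have a1 := L6M.min_le (x := max 1 (Y * T / Real.sqrt A) / N d) (by positivity)
  have a2 : min 1 (max 1 (Y * T / Real.sqrt A) / N d) ≤ 1 := min_le_left _ _
  have a3 : (max 1 (Y * T / Real.sqrt A)) ^ (2 / 3 : ℝ) ≤
      1 + (Y * T / Real.sqrt A) ^ (2 / 3 : ℝ) := by
    have : 0 ≤ (Y * T / Real.sqrt A) ^ (2 / 3 : ℝ) := by positivity
    rcases le_total 1 (Y * T / Real.sqrt A) with h | h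
    · rw [max_eq_right h]; linarith
    · rw [max_eq_left h, Real.one_rpow]; linarith
  rw [Real.div_rpow (by positivity) n0.le] at a1
  replace a1 := a1.trans (div_le_div_of_nonneg_right a3 (by positivity))
  unfold hw
  generalize min 1 (max 1 (Y * T / Real.sqrt A) / N d) = u at a1 a2
  obtain ⟨s, hs, e⟩ := cube s0
  have eM : A = (s ^ 2) ^ 3 := by
    rw [← Real.sq_sqrt hA.le, e]; ring
  obtain ⟨t, ht, rfl⟩ := cube hY
  obtain ⟨r, hr, rfl⟩ := cube hT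
  obtain ⟨k, hk, ek⟩ := cube n0
  rw [e, ek] at a1
  rw [ek, eM]
  have e1 : t ^ 3 * r ^ 3 / s ^ 3 = (t * r / s) ^ 3 := by field_simp
  have e2 : (s ^ 2) ^ 3 * (t ^ 3 / k ^ 3) = (s ^ 2 * t / k) ^ 3 := by field_simp
  have e3 : (s ^ 2) ^ 3 * t ^ 3 = (s ^ 2 * t) ^ 3 := by ring
  rw [e1, p23 (by positivity), p23 hk] at a1
  rw [e2, e3, p23 (by positivity), p23 (by positivity), m23 hk, m43 hk, m13 hr]
  have b1 := mul_le_mul_of_nonneg_left a1
    (show 0 ≤ (k ^ 2)⁻¹ * ((s ^ 2) ^ 3 / r ^ 3) by positivity)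
  have b2 := mul_le_mul_of_nonneg_left a2
    (show 0 ≤ (k ^ 2)⁻¹ * ((s ^ 2 * t / k) ^ 2 * r⁻¹) by positivity)
  have c1 : (k ^ 2)⁻¹ * ((s ^ 2) ^ 3 / r ^ 3) * ((1 + (t * r / s) ^ 2) / k ^ 2) =
      ((s ^ 2) ^ 3 / r ^ 3 + (s ^ 2 * t) ^ 2 * r⁻¹) * (k ^ 4)⁻¹ := by field_simp
  have c2 : (k ^ 2)⁻¹ * ((s ^ 2 * t / k) ^ 2 * r⁻¹) * 1 =
      (s ^ 2 * t) ^ 2 * r⁻¹ * (k ^ 4)⁻¹ := by field_simp
  rw [c1] at b1
  rw [c2] at b2
  have b3 : 0 ≤ (s ^ 2) ^ 3 / r ^ 3 * (k ^ 4)⁻¹ := by positivity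
  nlinarith [b1, b2, b3]

end TH4M

open L6M in
theorem th4S (h3 : TH3Stmt) : TH4Stmt := by
  obtain ⟨C, C0, hW⟩ := h3
  have hz := bas.b3.summ (4 / 3) (by norm_num)
  set ζ : ℝ := ∑' a : O, N a ^ (-(4 / 3) : ℝ) with hζ
  have z0 : 0 ≤ ζ := tsum_nonneg fun a => Real.rpow_nonneg (N0 a) _
  refine ⟨2 * ζ * C, by positivity, fun t M Y S T a t1 hM y0 hY hS hT => ?_⟩
  have s0 : 0 < Real.sqrt M := Real.sqrt_pos.2 hM
  have t0 : 0 < t := by linarith
  set D : ℝ := max 1 (Y * t / Real.sqrt M) with hD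
  have D1 : 1 ≤ D := le_max_left _ _
  have D0 : 0 < D := by linarith
  have hT' : ∀ n ∈ T, SP n ∧ N n ≤ Y := fun n hn => ⟨(hT n hn).1, (hT n hn).2.2⟩
  have r1 : ∀ n ∈ T, 1 ≤ rho D n := fun n hn => one_le_rho D1 (bas.b2.ne _ (hT n hn).1.1)
  set Td : O → Finset O := fun d => (SQ Y).filter (fun k => d * k ∈ T) with hTd
  set c : O → O → ℂ := fun d k => a (d * k) * ((hw D d / rho D (d * k) : ℝ) : ℂ) with hc
  set b : O → ℝ := fun d => M / t + (M * (Y / N d)) ^ (2 / 3 : ℝ) * t ^ (-1 / 3 : ℝ) with hb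
  have b0 : ∀ d, 0 < b d := fun d => by
    have : 0 ≤ (M * (Y / N d)) ^ (2 / 3 : ℝ) :=
      Real.rpow_nonneg (mul_nonneg hM.le (div_nonneg y0.le (N0 d))) _
    simp only [hb]; positivity
  have w0 : ∀ d ∈ SQ Y, 0 < hw D d * b d := fun d hd => mul_pos (hw_pos D0 (mSQ.1 hd).1.1) (b0 d)
  have e1 : ∀ m, ∑ n ∈ T, a n * cub m n = ∑ d ∈ SQ Y, cub m d * ∑ k ∈ Td d, c d k * cub m k := by
    intro m
    have := swap Y T hT' (fun d n => a n * ((hw D d / rho D n : ℝ) : ℂ) * cub m n)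
    calc _ = ∑ n ∈ T, ∑ d ∈ dv n, a n * ((hw D d / rho D n : ℝ) : ℂ) * cub m n := by
          refine Finset.sum_congr rfl fun n hn => ?_
          rw [← Finset.sum_mul, ← Finset.mul_sum, ← Complex.ofReal_sum, ← Finset.sum_div]
          have : rho D n ≠ 0 := by have := r1 n hn; positivity
          change _ = a n * ((rho D n / rho D n : ℝ) : ℂ) * _
          rw [div_self this]; simp
      _ = _ := by
          rw [this]
          refine Finset.sum_congr rfl fun d hd => ?_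
          rw [Finset.mul_sum]
          refine Finset.sum_congr rfl fun k hk => ?_
          have k1 := (mSQ.1 (Finset.mem_filter.1 hk).1).1.1
          rw [bas.b6.mul_r m d k (bas.b2.ne _ (mSQ.1 hd).1.1) (bas.b2.ne _ k1)]
          simp only [hc]; ring
  have key : ∀ d ∈ SQ Y, (∑ m ∈ S, ‖∑ k ∈ Td d, c d k * cub m k‖ ^ 2) / (hw D d * b d) ≤
      C * ∑ k ∈ Td d, ‖a (d * k)‖ ^ 2 * (hw D d / rho D (d * k)) := by
    intro d hd
    have hs := mSQ.1 hd
    have n1 := N1 hs.1.1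
    have n0 : 0 < N d := by linarith
    have h0 := hw_pos D0 hs.1.1
    have y2 : Y / N d ≤ Y := div_le_self y0.le n1
    have hk : ∀ k ∈ Td d, SP k ∧ Y / N d / 2 < N k ∧ N k ≤ Y / N d := by
      intro k hk
      obtain ⟨k1, k2⟩ := Finset.mem_filter.1 hk
      have := (hT _ k2).2
      rw [bas.b1.N_mul] at this
      refine ⟨(mSQ.1 k1).1, ?_, ?_⟩
      · rw [div_div, mul_comm, ← div_div, div_lt_iff₀ n0]; linarith [this.1]
      · rw [le_div_iff₀ n0]; linarith [this.2]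
    have g := hW t M (Y / N d) S (Td d) (c d) t1 hM (div_pos y0 n0)
      ((mul_le_mul_of_nonneg_right y2 (by positivity)).trans hY) hS hk
    set R : ℝ := ∑ k ∈ Td d, ‖c d k‖ ^ 2 * rho D (d * k) with hR
    have g1 : ∑ k ∈ Td d, ‖c d k‖ ^ 2 ≤ R := Finset.sum_le_sum fun k hk =>
      le_mul_of_one_le_right (by positivity) (r1 _ (Finset.mem_filter.1 hk).2)
    have g2 : ∑ k ∈ Td d, ‖c d k‖ ^ 2 * rho (Y / N d * t / Real.sqrt M) k ≤ R :=
      Finset.sum_le_sum fun k hk => mul_le_mul_of_nonneg_left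
        ((rho_mono ((div_le_div_of_nonneg_right (mul_le_mul_of_nonneg_right y2 t0.le) s0.le).trans
          (le_max_right _ _)) k).trans
          (rho_dvd D0 (bas.b2.ne _ (hT _ (Finset.mem_filter.1 hk).2).1.1) (dvd_mul_left _ _)))
        (by positivity)
    have g3 : R = hw D d * ∑ k ∈ Td d, ‖a (d * k)‖ ^ 2 * (hw D d / rho D (d * k)) := by
      rw [hR, Finset.mul_sum]
      refine Finset.sum_congr rfl fun k hk => ?_
      have r := r1 _ (Finset.mem_filter.1 hk).2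
      have r0 : rho D (d * k) ≠ 0 := by positivity
      simp only [hc, norm_mul, Complex.norm_real, Real.norm_eq_abs, mul_pow, sq_abs]
      field_simp
    have R0 : 0 ≤ R := (Finset.sum_nonneg fun _ _ => by positivity).trans g1
    have p0 : 0 ≤ (M * (Y / N d)) ^ (2 / 3 : ℝ) * t ^ (-1 / 3 : ℝ) := by positivity
    rw [div_le_iff₀ (w0 d hd)]
    have g4 := mul_le_mul_of_nonneg_left g1 (mul_nonneg C0 (div_pos hM t0).le)
    have g5 := mul_le_mul_of_nonneg_left g2 (mul_nonneg C0 p0)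
    calc _ ≤ C * (b d * R) := by simp only [hb]; linarith
      _ = _ := by rw [g3]; ring
  have e2 : ∑ d ∈ SQ Y, ∑ k ∈ Td d, ‖a (d * k)‖ ^ 2 * (hw D d / rho D (d * k)) =
      ∑ n ∈ T, ‖a n‖ ^ 2 := by
    rw [← swap Y T hT' (fun d n => ‖a n‖ ^ 2 * (hw D d / rho D n))]
    refine Finset.sum_congr rfl fun n hn => ?_
    rw [← Finset.mul_sum, ← Finset.sum_div]
    have : rho D n ≠ 0 := by have := r1 n hn; positivity
    change _ * (rho D n / rho D n) = _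
    rw [div_self this, mul_one]
  have e3 : ∑ d ∈ SQ Y, hw D d * b d ≤
      2 * (M / t + (M * Y) ^ (2 / 3 : ℝ) * t ^ (-1 / 3 : ℝ)) * ζ := by
    refine (Finset.sum_le_sum fun d hd => TH4M.wt_le t0 hM y0 (mSQ.1 hd).1.1).trans ?_
    rw [← Finset.mul_sum]
    exact mul_le_mul_of_nonneg_left (hz.sum_le_tsum _ fun a _ => Real.rpow_nonneg (N0 a) _)
      (by positivity)
  have W0 : 0 ≤ ∑ d ∈ SQ Y, hw D d * b d := Finset.sum_nonneg fun d hd => (w0 d hd).le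
  calc ∑ m ∈ S, ‖∑ n ∈ T, a n * cub m n‖ ^ 2
      ≤ ∑ m ∈ S, (∑ d ∈ SQ Y, hw D d * b d) *
          ∑ d ∈ SQ Y, ‖∑ k ∈ Td d, c d k * cub m k‖ ^ 2 / (hw D d * b d) := by
        refine Finset.sum_le_sum fun m _ => ?_
        rw [e1 m]
        refine (cs _ _ _ w0).trans (mul_le_mul_of_nonneg_left
          (Finset.sum_le_sum fun d hd => div_le_div_of_nonneg_right ?_ (w0 d hd).le) W0)
        rw [norm_mul]
        exact pow_le_pow_left₀ (by positivity)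
          (mul_le_of_le_one_left (norm_nonneg _) (bas.b6.norm_le m d)) 2
    _ = (∑ d ∈ SQ Y, hw D d * b d) *
          ∑ d ∈ SQ Y, (∑ m ∈ S, ‖∑ k ∈ Td d, c d k * cub m k‖ ^ 2) / (hw D d * b d) := by
        rw [← Finset.mul_sum, Finset.sum_comm]
        simp only [Finset.sum_div]
    _ ≤ (∑ d ∈ SQ Y, hw D d * b d) * (C * ∑ n ∈ T, ‖a n‖ ^ 2) := by
        refine mul_le_mul_of_nonneg_left ((Finset.sum_le_sum key).trans (le_of_eq ?_)) W0
        rw [← Finset.mul_sum, e2]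
    _ ≤ (2 * (M / t + (M * Y) ^ (2 / 3 : ℝ) * t ^ (-1 / 3 : ℝ)) * ζ) *
          (C * ∑ n ∈ T, ‖a n‖ ^ 2) :=
        mul_le_mul_of_nonneg_right e3 (mul_nonneg C0
          (Finset.sum_nonneg fun _ _ => by positivity))
    _ = _ := by ring

end Vale.Agent.P006.S
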