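import Vale.Agent.P006.S1

noncomputable section
open Complex MeasureTheory
open scoped Classical ComplexConjugate

namespace Vale.Agent.P006.S
open Vale.Agent.P026

namespace TH5M

lemma nq0 (T : Finset O) (a : O → ℂ) : 0 ≤ ∑ n ∈ T, ‖a n‖ ^ 2 :=
  Finset.sum_nonneg fun _ _ => by positivity

lemma mono {P : O → Prop} {K B B' : ℝ} (h : LAon P K B) (hB : B ≤ B') : LAon P K B' := by
  intro S T a hS hT
  exact (h S T a hS hT).trans (mul_le_mul_of_nonneg_right hB (nq0 T a))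

lemma core (hD : DUTStmt) (hA : ALLStmt) : ∃ C : ℝ, 0 ≤ C ∧ ∀ τ r B K : ℝ, 1 ≤ r → r ≤ τ → 1 ≤ K →
    K * r ^ 2 ≤ B → LAon (Thin B τ) K (C * (1 + Real.log (1 + B)) ^ 2 *
      (B / r * K ^ (1 / 3 : ℝ) + B ^ (2 / 3 : ℝ) * r ^ (-1 / 3 : ℝ) * K ^ (2 / 3 : ℝ))) := by
  obtain ⟨Cd, hd0, hd⟩ := hD
  obtain ⟨Ca, ha0, ha⟩ := hA
  refine ⟨Ca * Cd, by positivity, fun τ r B K hr hrt hK hB S U a hS hU => ?_⟩
  have hr2 : 1 ≤ r ^ 2 := one_le_pow₀ hr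
  have hKB : K ≤ B := by nlinarith
  have hB1 : 1 ≤ B := hK.trans hKB
  have hl0 : 0 ≤ Real.log (1 + B) := Real.log_nonneg (by linarith)
  have hl : 1 + Real.log K ≤ 1 + Real.log (1 + B) := by
    have := Real.log_le_log (by linarith : 0 < K) (by linarith : K ≤ 1 + B)
    linarith
  have hU' : ∀ n ∈ U, SP n ∧ Thin B r n := by
    intro n hn
    obtain ⟨h1, h2, h3⟩ := hU n hn
    refine ⟨h1, h2, h3.trans ?_⟩
    have : 1 / τ ≤ 1 / r := one_div_le_one_div_of_le (by linarith) hrt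
    gcongr
  have h1 := ha U K (Cd * (1 + Real.log (1 + B)) * (B / r))
    (Cd * (1 + Real.log (1 + B)) * (B ^ (2 / 3 : ℝ) * r ^ (-1 / 3 : ℝ))) hK (by positivity)
    (by positivity) (fun n hn => (hU n hn).1.1) (by
      intro Y S' a' hY hYK hS'
      refine (hd r B Y S' U a' hr hB1 hY (by nlinarith) hS' hU').trans (le_of_eq ?_)
      rw [Real.mul_rpow (by linarith) hY.le]
      ring) S a hS
  refine h1.trans (mul_le_mul_of_nonneg_right ?_ (nq0 U a))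
  have hK0 : 0 ≤ K := by linarith
  calc _ ≤ Ca * (1 + Real.log (1 + B)) * (Cd * (1 + Real.log (1 + B)) * (B / r) * K ^ (1 / 3 : ℝ) +
        Cd * (1 + Real.log (1 + B)) * (B ^ (2 / 3 : ℝ) * r ^ (-1 / 3 : ℝ)) * K ^ (2 / 3 : ℝ)) := by
        gcongr
    _ = _ := by ring

lemma k43 (K : ℝ) (hK : 0 < K) : K * K ^ (1 / 3 : ℝ) = K ^ (4 / 3 : ℝ) ∧
    K ^ (2 / 3 : ℝ) * K ^ (2 / 3 : ℝ) = K ^ (4 / 3 : ℝ) := by
  constructor
  · rw [show (4 / 3 : ℝ) = 1 + 1 / 3 by norm_num, Real.rpow_add hK, Real.rpow_one]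
  · rw [← Real.rpow_add hK]; norm_num

end TH5M

open TH5M in
theorem th5S (hD : DUTStmt) (hA : ALLStmt) (hS : SLAStmt) : TH5Stmt := by
  obtain ⟨C1, h10, h1⟩ := core hD hA
  obtain ⟨C2, h20, h2⟩ := hS
  refine ⟨2 * C1 + 5 * C2, by positivity, fun τ B K hτ hB hK => ?_⟩
  have hl0 : 0 ≤ Real.log (1 + B) := Real.log_nonneg (by linarith)
  have hL : 1 ≤ (1 + Real.log (1 + B)) ^ 2 := one_le_pow₀ (by linarith)
  obtain ⟨L, hLe⟩ : ∃ L, L = (1 + Real.log (1 + B)) ^ 2 := ⟨_, rfl⟩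
  have hK0 : 0 < K := by linarith
  have hτ0 : 0 < τ := by linarith
  obtain ⟨k1, k2⟩ := k43 K hK0
  obtain ⟨x1, hx1⟩ : ∃ x, x = B / τ * K ^ (1 / 3 : ℝ) := ⟨_, rfl⟩
  obtain ⟨x2, hx2⟩ : ∃ x, x = B ^ (2 / 3 : ℝ) * τ ^ (-1 / 3 : ℝ) * K ^ (2 / 3 : ℝ) := ⟨_, rfl⟩
  obtain ⟨x3, hx3⟩ : ∃ x, x = τ * K ^ (4 / 3 : ℝ) := ⟨_, rfl⟩
  have p1 : 0 ≤ x1 := by rw [hx1]; positivity
  have p2 : 0 ≤ x2 := by rw [hx2]; positivity
  have p3 : 0 ≤ x3 := by rw [hx3]; positivity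
  have fin : ∀ D : ℝ, LAon (Thin B τ) K D → D ≤ (2 * C1 + 5 * C2) * L * (x1 + x2 + x3) →
      LAon (Thin B τ) K ((2 * C1 + 5 * C2) * (1 + Real.log (1 + B)) ^ 2 * (B / τ) * K ^ (1 / 3 : ℝ) +
      (2 * C1 + 5 * C2) * (1 + Real.log (1 + B)) ^ 2 * (B ^ (2 / 3 : ℝ) * τ ^ (-1 / 3 : ℝ)) *
        K ^ (2 / 3 : ℝ) +
      (2 * C1 + 5 * C2) * (1 + Real.log (1 + B)) ^ 2 * τ * K ^ (4 / 3 : ℝ)) := by
    intro D h hD
    refine mono h (hD.trans (le_of_eq ?_))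
    rw [hx1, hx2, hx3, hLe]; ring
  rw [← hLe] at hL
  have hL0 : 0 ≤ L := by linarith
  rcases le_total B K with hBK | hBK
  · refine fin (C2 * (2 * K) * K ^ (1 / 3 : ℝ) + C2 * (2 * K) ^ (2 / 3 : ℝ) * K ^ (2 / 3 : ℝ) +
      C2 * K ^ (4 / 3 : ℝ)) ?_ ?_
    · intro S U a hS hU
      refine h2 K (2 * K) hK (by linarith) S U a hS fun n hn => ⟨(hU n hn).1, ?_⟩
      refine (hU n hn).2.2.trans ?_
      have : 1 / τ ≤ 1 := by rw [div_le_one hτ0]; exact hτ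
      nlinarith
    · have a1 : (2 * K) ^ (2 / 3 : ℝ) ≤ 2 * K ^ (2 / 3 : ℝ) := by
        rw [Real.mul_rpow (by norm_num) hK0.le]
        refine mul_le_mul_of_nonneg_right ?_ (by positivity)
        calc (2 : ℝ) ^ (2 / 3 : ℝ) ≤ 2 ^ (1 : ℝ) :=
              Real.rpow_le_rpow_of_exponent_le (by norm_num) (by norm_num)
          _ = 2 := Real.rpow_one 2
      have a2 : K ^ (4 / 3 : ℝ) ≤ L * (x1 + x2 + x3) := by
        have : K ^ (4 / 3 : ℝ) ≤ x3 := by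
          rw [hx3]; exact le_mul_of_one_le_left (by positivity) hτ
        nlinarith
      calc _ ≤ C2 * (2 * K) * K ^ (1 / 3 : ℝ) + C2 * (2 * K ^ (2 / 3 : ℝ)) * K ^ (2 / 3 : ℝ) +
            C2 * K ^ (4 / 3 : ℝ) := by gcongr
        _ = C2 * (2 * (K * K ^ (1 / 3 : ℝ)) + 2 * (K ^ (2 / 3 : ℝ) * K ^ (2 / 3 : ℝ)) +
            K ^ (4 / 3 : ℝ)) := by ring
        _ = 5 * C2 * K ^ (4 / 3 : ℝ) := by rw [k1, k2]; ring
        _ ≤ (2 * C1 + 5 * C2) * (L * (x1 + x2 + x3)) := by gcongr; linarith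
        _ = _ := by ring
  · rcases le_total (K * τ ^ 2) B with hc | hc
    · refine fin _ (h1 τ τ B K hτ le_rfl hK hc) ?_
      rw [← hx1, ← hx2, ← hLe]
      exact mul_le_mul (mul_le_mul_of_nonneg_right (by linarith) hL0) (by linarith)
        (by positivity) (by positivity)
    · obtain ⟨r, hr⟩ : ∃ r, r = Real.sqrt (B / K) := ⟨_, rfl⟩
      have r2 : r ^ 2 = B / K := by rw [hr, Real.sq_sqrt (by positivity)]
      have r3 : B = r ^ 2 * K := by rw [r2]; field_simp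
      have r1 : 1 ≤ r := by
        rw [hr]; exact Real.one_le_sqrt.2 ((one_le_div hK0).2 hBK)
      have r0 : 0 < r := by linarith
      have r4 : r ≤ τ := by
        rw [hr]
        refine Real.sqrt_le_iff.2 ⟨hτ0.le, ?_⟩
        rw [div_le_iff₀ hK0]; linarith
      refine fin _ (h1 τ r B K r1 r4 hK (by rw [r3]; linarith)) ?_
      have a1 : B / r * K ^ (1 / 3 : ℝ) = r * K ^ (4 / 3 : ℝ) := by
        rw [← k1, r3]; field_simp
      have a2 : B ^ (2 / 3 : ℝ) * r ^ (-1 / 3 : ℝ) * K ^ (2 / 3 : ℝ) = r * K ^ (4 / 3 : ℝ) := by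
        have : (r ^ 2) ^ (2 / 3 : ℝ) * r ^ (-1 / 3 : ℝ) = r := by
          rw [← Real.rpow_natCast, ← Real.rpow_mul r0.le, ← Real.rpow_add r0]
          norm_num
        rw [r3, Real.mul_rpow (by positivity) hK0.le, ← k2]
        calc _ = ((r ^ 2) ^ (2 / 3 : ℝ) * r ^ (-1 / 3 : ℝ)) * (K ^ (2 / 3 : ℝ) * K ^ (2 / 3 : ℝ)) := by
              ring
          _ = _ := by rw [this]
      have a3 : r * K ^ (4 / 3 : ℝ) ≤ x3 := by rw [hx3]; gcongr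
      rw [a1, a2, ← hLe]
      calc C1 * L * (r * K ^ (4 / 3 : ℝ) + r * K ^ (4 / 3 : ℝ)) ≤ C1 * L * (x3 + x3) := by gcongr
        _ = (2 * C1) * L * x3 := by ring
        _ ≤ _ := by gcongr <;> linarith

end Vale.Agent.P006.S
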