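import Vale.Agent.P006.S1
import Vale.Agent.P006.L.H16

/-! P006 row S/TH7: all rows, thin columns. -/

noncomputable section
open Complex
open scoped Classical ComplexConjugate

namespace Vale.Agent.P006.S
open Vale.Agent.P026 W1 H16

namespace TH7M

theorem p53 {x : ℝ} (hx : 0 < x) : (x ^ 3) ^ (5 / 3 : ℝ) = x ^ 5 := by
  rw [p3 hx, ← Real.rpow_natCast]; norm_num

theorem alg {D τ M B b Y : ℝ} (hD : 0 ≤ D) (hτ : 0 < τ) (hM : 0 < M) (hb : 0 < b) (h1 : b ≤ B)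
    (h2 : b ≤ Y) (h3 : Y ≤ 2 * B) :
    (M / Y) * (D * (b / τ) * (Y ^ 2 / M) ^ (1 / 3 : ℝ) +
      D * (b ^ (2 / 3 : ℝ) * τ ^ (-1 / 3 : ℝ)) * (Y ^ 2 / M) ^ (2 / 3 : ℝ) +
      D * τ * (Y ^ 2 / M) ^ (4 / 3 : ℝ)) ≤
      32 * D * ((M * B) ^ (2 / 3 : ℝ) / τ + M ^ (1 / 3 : ℝ) * B * τ ^ (-1 / 3 : ℝ) +
        τ * M ^ (-1 / 3 : ℝ) * B ^ (5 / 3 : ℝ)) := by
  obtain ⟨m, hm, rfl⟩ := cube hM
  obtain ⟨y, hy, rfl⟩ := cube (hb.trans_le h2)
  obtain ⟨q, hq, rfl⟩ := cube (hb.trans_le h1)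
  obtain ⟨t, ht, rfl⟩ := cube hτ
  obtain ⟨c, hc, rfl⟩ := cube hb
  have e1 : (y ^ 3) ^ 2 / m ^ 3 = (y ^ 2 / m) ^ 3 := by field_simp
  have e2 : m ^ 3 * q ^ 3 = (m * q) ^ 3 := by ring
  have hz : 0 < y ^ 2 / m := by positivity
  rw [e1, e2, p13 hz, p23 hz, p43 hz, p23 hc, m13 ht, p23 (mul_pos hm hq), p13 hm, m13 hm, p53 hq]
  have a1 : c ≤ q := le_of_pow_le_pow_left₀ three_ne_zero hq.le h1
  have a2 : c ≤ y := le_of_pow_le_pow_left₀ three_ne_zero hy.le h2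
  have a3 : y ≤ 2 * q := le_of_pow_le_pow_left₀ three_ne_zero (by positivity) (by
    have : 0 < q ^ 3 := by positivity
    nlinarith)
  have b1 : c ^ 2 * (c / y) ≤ 32 * q ^ 2 := by
    have : c ^ 2 * (c / y) ≤ q ^ 2 * 1 := by
      gcongr
      exact (div_le_one hy).2 a2
    nlinarith [sq_nonneg q]
  have b2 : c ^ 2 * y ≤ 32 * q ^ 3 := by
    have : c ^ 2 * y ≤ q ^ 2 * (2 * q) := by gcongr
    have : 0 < q ^ 3 := by positivity
    nlinarith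
  have b3 : y ^ 5 ≤ 32 * q ^ 5 := by
    have : y ^ 5 ≤ (2 * q) ^ 5 := by gcongr
    nlinarith
  calc _ = D * (m ^ 2 / t ^ 3 * (c ^ 2 * (c / y)) + m * t⁻¹ * (c ^ 2 * y) + t ^ 3 * m⁻¹ * y ^ 5) := by
        field_simp
    _ ≤ D * (m ^ 2 / t ^ 3 * (32 * q ^ 2) + m * t⁻¹ * (32 * q ^ 3) + t ^ 3 * m⁻¹ * (32 * q ^ 5)) := by
        gcongr
    _ = _ := by ring

theorem one_le_tau {n : O} (hn : n ≠ 0) : 1 ≤ tau n := by
  unfold tau
  exact_mod_cast Finset.card_pos.2 ⟨1, (mdv hn).2 ⟨bas.b2.one, one_dvd _⟩⟩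

end TH7M

open TH7M in
theorem th7S (h1 : ST1Stmt) (h2 : ST2gStmt) (h5 : TH5Stmt) : TH7Stmt := by
  obtain ⟨C2, hC2, H2⟩ := h2
  obtain ⟨C, hC, H5⟩ := h5
  refine ⟨12 + 96 * C2 * C, by positivity, fun τ M B S T a hτ hM hB hS hT => ?_⟩
  have τ0 : 0 < τ := by linarith
  have i0 : 0 < 1 / τ := by positivity
  have i1 : 1 / τ ≤ 1 / 2 := one_div_le_one_div_of_le two_pos hτ
  have hT' : ∀ n ∈ T, SP n ∧ N n ≤ 2 * B := fun n hn =>
    ⟨(hT n hn).1, (hT n hn).2.2.trans (by nlinarith)⟩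
  set a' : O → ℂ := fun n => if n ∈ T then a n else 0 with ha'
  have hTS : T ⊆ SQ (2 * B) := fun n hn => mSQ.2 (hT' n hn)
  have e1 : ∀ m, ∑ n ∈ T, a n * cub m n = ∑ n ∈ SQ (2 * B), a' n * cub m n := by
    intro m
    rw [← Finset.sum_subset hTS (f := fun n => a' n * cub m n) (fun n _ hn => by simp [ha', hn])]
    exact Finset.sum_congr rfl fun n hn => by simp [ha', hn]
  obtain ⟨g1, g2⟩ := h1 M (2 * B) a' hM
  have g3 := g2 S hS
  obtain ⟨L, hL⟩ : ∃ L, L = (1 + Real.log (1 + B)) ^ 2 := ⟨_, rfl⟩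
  have L1 : 1 ≤ L := hL ▸ one_le_pow₀ (by linarith [Real.log_nonneg (by linarith : 1 ≤ 1 + B)])
  obtain ⟨W, hW⟩ : ∃ W, W = (M * B) ^ (2 / 3 : ℝ) / τ + M ^ (1 / 3 : ℝ) * B * τ ^ (-1 / 3 : ℝ) +
    τ * M ^ (-1 / 3 : ℝ) * B ^ (5 / 3 : ℝ) := ⟨_, rfl⟩
  have W0 : 0 ≤ W := by rw [hW]; positivity
  have key : ∀ e ∈ SQ (2 * B), (Fm (Pk M) (2 * B) (sh (2 * B) a' e)).re ≤ 4 * M * ‖a' e‖ ^ 2 +
      32 * C2 * C * L * W * ∑ n ∈ SQ (2 * B), ‖sh (2 * B) a' e n‖ ^ 2 := by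
    intro e he
    have hs := mSQ.1 he
    have n1 := N1 hs.1.1
    have n0 : 0 < N e := by linarith
    have y0 : 0 < B / N e := by positivity
    have y2 : B / N e ≤ B := div_le_self (by linarith) n1
    have hth : ∀ n, sh (2 * B) a' e n ≠ 0 → Thin (B / N e) τ n := by
      intro n hn
      unfold sh at hn
      have hm : e * n ∈ T := by
        by_contra hc
        apply hn
        simp [ha', hc]
      have := (hT _ hm).2
      unfold Thin at this ⊢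
      rw [bas.b1.N_mul] at this
      constructor
      · rw [div_le_iff₀ n0]; linarith [this.1]
      · rw [div_mul_eq_mul_div, le_div_iff₀ n0]; linarith [this.2]
    have hsh : Shell (B / N e * (1 + 1 / τ)) (sh (2 * B) a' e) := fun n hn =>
      ⟨lt_of_lt_of_le (by nlinarith) (hth n hn).1, (hth n hn).2⟩
    have l0 : 0 ≤ Real.log (1 + B / N e) := Real.log_nonneg (by linarith)
    have hb := H2 (Thin (B / N e) τ) M (2 * B) (B / N e * (1 + 1 / τ)) _ _ _ (sh (2 * B) a' e) hM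
      (by positivity) (by positivity) (by positivity) (by positivity) hsh hth
      (fun K hK => H5 τ (B / N e) K (by linarith) y0 hK)
    have e2 : sh (2 * B) a' e 1 = a' e := by simp [sh, he]
    rw [e2] at hb
    have al := alg (D := C * (1 + Real.log (1 + B / N e)) ^ 2) (Y := B / N e * (1 + 1 / τ))
      (by positivity) τ0 hM y0 y2 (by nlinarith) (by nlinarith)
    rw [← hW] at al
    have s0 : 0 ≤ ∑ n ∈ SQ (2 * B), ‖sh (2 * B) a' e n‖ ^ 2 :=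
      Finset.sum_nonneg fun _ _ => by positivity
    have l1 : (1 + Real.log (1 + B / N e)) ^ 2 ≤ L := by
      rw [hL]; gcongr
    refine hb.trans (add_le_add le_rfl (mul_le_mul_of_nonneg_right ?_ s0))
    rw [mul_assoc C2]
    calc _ ≤ C2 * (32 * (C * (1 + Real.log (1 + B / N e)) ^ 2) * W) :=
          mul_le_mul_of_nonneg_left al hC2
      _ ≤ C2 * (32 * (C * L) * W) := by gcongr
      _ = _ := by ring
  have e3 : ∑ e ∈ SQ (2 * B), ‖a' e‖ ^ 2 = ∑ n ∈ T, ‖a n‖ ^ 2 := by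
    rw [← Finset.sum_subset hTS (f := fun n => ‖a' n‖ ^ 2) (fun n _ hn => by simp [ha', hn])]
    exact Finset.sum_congr rfl fun n hn => by simp [ha', hn]
  have e4 : ∑ e ∈ SQ (2 * B), ∑ n ∈ SQ (2 * B), ‖sh (2 * B) a' e n‖ ^ 2 =
      ∑ n ∈ T, ‖a n‖ ^ 2 * tau n := by
    have := swap (2 * B) T hT' (fun _ n => ‖a n‖ ^ 2)
    simp only [Finset.sum_const, nsmul_eq_mul] at this
    simp only [tau, mul_comm (‖a _‖ ^ 2)]
    rw [this]
    refine Finset.sum_congr rfl fun e _ => ?_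
    rw [Finset.sum_filter]
    refine Finset.sum_congr rfl fun n _ => ?_
    by_cases hn : e * n ∈ T
    · simp [sh, ha', hn, hTS hn]
    · simp [sh, ha', hn]
  have g4 := Finset.sum_le_sum key
  rw [Finset.sum_add_distrib, ← Finset.mul_sum, ← Finset.mul_sum, e3, e4] at g4
  simp only [e1]
  have s1 : ∑ n ∈ T, ‖a n‖ ^ 2 ≤ ∑ n ∈ T, ‖a n‖ ^ 2 * tau n := Finset.sum_le_sum fun n hn =>
    le_mul_of_one_le_right (by positivity) (one_le_tau (bas.b2.ne _ (hT n hn).1.1))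
  have s0 : 0 ≤ ∑ n ∈ T, ‖a n‖ ^ 2 := Finset.sum_nonneg fun _ _ => by positivity
  rw [← hL, add_assoc M, add_assoc M, ← hW]
  set R := ∑ n ∈ T, ‖a n‖ ^ 2 * tau n
  have R0 : 0 ≤ R := s0.trans s1
  have q1 : M * ∑ n ∈ T, ‖a n‖ ^ 2 ≤ L * (M * R) :=
    (mul_le_mul_of_nonneg_left s1 hM.le).trans (le_mul_of_one_le_left (by positivity) L1)
  have q2 : 0 ≤ L * W * R := by positivity
  have q3 : 0 ≤ C2 * C * L * M * R := by positivity
  nlinarith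

end Vale.Agent.P006.S
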