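import Vale.Agent.P006.S2
import Vale.Agent.P006.A.TI

/-! Type I estimate with a thin weight. -/

noncomputable section
open Complex MeasureTheory Filter Topology
open scoped Classical ComplexConjugate

namespace Vale.Agent.P006.S
open Vale.Agent.P026 Z.RESM

namespace TI1M

theorem cross {G : ℂ → ℂ} {a C : ℝ} (h1 : 1 / 2 < a) (ha : a < 5 / 6)
    (hG : DifferentiableOn ℂ G {s | 1 / 2 < s.re ∧ s.re < 3 / 2}) (h0 : G (5 / 6) = 0)
    (hb : ∀ s : ℂ, a ≤ s.re → s.re ≤ 5 / 4 → ‖G s‖ ≤ C * Real.exp (-|s.im|)) :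
    ∫ t : ℝ, G (a + t * I) / (a + t * I - 5 / 6) =
      ∫ t : ℝ, G ((5 / 4 : ℝ) + t * I) / ((5 / 4 : ℝ) + t * I - 5 / 6) := by
  have ho : IsOpen {s : ℂ | 1 / 2 < s.re ∧ s.re < 3 / 2} :=
    (isOpen_lt continuous_const Complex.continuous_re).inter
      (isOpen_lt Complex.continuous_re continuous_const)
  have hH : DifferentiableOn ℂ (dslope G (5 / 6)) {s | 1 / 2 < s.re ∧ s.re < 3 / 2} :=
    (Complex.differentiableOn_dslope (ho.mem_nhds (by simp; norm_num))).2 hG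
  have e : ∀ s : ℂ, s - 5 / 6 ≠ 0 → dslope G (5 / 6) s = G s / (s - 5 / 6) := fun s hs => by
    rw [dslope_of_ne _ (sub_ne_zero.1 hs), slope_def_field, h0, sub_zero]
  have hK : IsCompact (Set.Icc a (5 / 4) ×ℂ Set.Icc (-1 : ℝ) 1) := isCompact_Icc.reProdIm isCompact_Icc
  obtain ⟨B, hB⟩ := hK.exists_bound_of_continuousOn (hH.continuousOn.mono fun s hs => by
    have := (Complex.mem_reProdIm.1 hs).1
    exact ⟨by linarith [this.1], by linarith [this.2]⟩)
  have key := W2.sh (dslope G (5 / 6)) a (5 / 4) (|C| + |B| * Real.exp 1) 1 (by linarith) one_pos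
    (hH.mono fun s hs => ⟨by linarith [hs.1], by linarith [hs.2]⟩) fun s a1 a2 => by
    rw [one_mul]
    have ep := Real.exp_pos (-|s.im|)
    by_cases c : |s.im| ≤ 1
    · have b1 := hB s (Complex.mem_reProdIm.2 ⟨⟨a1, a2⟩, abs_le.1 c⟩)
      have b2 : 1 ≤ Real.exp 1 * Real.exp (-|s.im|) := by
        rw [← Real.exp_add]; exact Real.one_le_exp (by linarith)
      have b3 := le_abs_self B
      have b4 := mul_le_mul_of_nonneg_left b2 (abs_nonneg B)
      have b5 := mul_nonneg (abs_nonneg C) ep.le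
      nlinarith
    · have q : 1 ≤ ‖s - 5 / 6‖ := by
        have := Complex.abs_im_le_norm (s - 5 / 6)
        simp at this
        linarith [not_le.1 c]
      have n0 : s - 5 / 6 ≠ 0 := by
        intro z; rw [z, norm_zero] at q; linarith
      rw [e s n0, norm_div]
      have b1 := div_le_self (norm_nonneg (G s)) q
      have b2 := hb s a1 a2
      have b3 := mul_le_mul_of_nonneg_right (le_abs_self C) ep.le
      have b4 : 0 ≤ |B| * Real.exp 1 * Real.exp (-|s.im|) := by positivity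
      nlinarith
  have e1 : ∀ t : ℝ, dslope G (5 / 6) (a + t * I) = G (a + t * I) / (a + t * I - 5 / 6) :=
    fun t => e _ (ne56 ha.ne t)
  have e2 : ∀ t : ℝ, dslope G (5 / 6) ((5 / 4 : ℝ) + t * I) =
      G ((5 / 4 : ℝ) + t * I) / ((5 / 4 : ℝ) + t * I - 5 / 6) :=
    fun t => e _ (ne56 (by norm_num) t)
  simpa only [e1, e2] using key

lemma den {σ : ℝ} (h : 1 / 12 ≤ |σ - 5 / 6|) (t : ℝ) :
    (1 + |t|) / 13 ≤ ‖(σ : ℂ) + t * I - 5 / 6‖ := by
  have a1 := Complex.abs_re_le_norm ((σ : ℂ) + t * I - 5 / 6)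
  have a2 := Complex.abs_im_le_norm ((σ : ℂ) + t * I - 5 / 6)
  simp at a1 a2
  linarith

lemma line {F : ℂ → ℂ} (hF : DifferentiableOn ℂ F {s | 1 / 2 < s.re ∧ s.re < 3 / 2}) {σ C : ℝ}
    (h0 : 1 / 2 < σ) (h1 : σ < 3 / 2) (h2 : 1 / 12 ≤ |σ - 5 / 6|)
    (hb : ∀ t : ℝ, ‖F (σ + t * I)‖ ≤ C * Real.exp (-|t|)) :
    (Integrable fun t : ℝ => F (σ + t * I) / (σ + t * I - 5 / 6)) ∧
      ‖∫ t : ℝ, F (σ + t * I) / (σ + t * I - 5 / 6)‖ ≤ 13 * C * ∫ t : ℝ, Real.exp (-|t|) := by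
  have hg : Continuous fun t : ℝ => (σ : ℂ) + t * I := by fun_prop
  have hc : Continuous fun t : ℝ => F (σ + t * I) :=
    hF.continuousOn.comp_continuous hg fun t => by simpa using ⟨by simpa using h0, h1⟩
  have n : σ ≠ 5 / 6 := by rintro rfl; norm_num at h2
  have b : ∀ t : ℝ, ‖F (σ + t * I) / (σ + t * I - 5 / 6)‖ ≤ 13 * C * Real.exp (-|t|) := fun t => by
    have q : 1 / 13 ≤ ‖(σ : ℂ) + t * I - 5 / 6‖ := by linarith [den h2 t, abs_nonneg t]
    rw [norm_div]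
    exact (div_le_div₀ ((norm_nonneg _).trans (hb t)) (hb t) (by norm_num) q).trans_eq (by ring)
  refine ⟨VIM.integ (hc.div (by fun_prop) (ne56 n)) b, ?_⟩
  rw [← integral_const_mul]
  exact norm_integral_le_of_norm_le (VIM.int_exp.const_mul _) (.of_forall b)

lemma gz {T : ℝ} (hT : 0 < T) (c t : ℝ) :
    Real.exp (-(t / (4 * T)) ^ 2) ≤ Real.exp (4 * c ^ 2 * T ^ 2) * Real.exp (-(c * |t|)) := by
  rw [← Real.exp_add]
  refine Real.exp_le_exp.2 ?_
  have e : (|t| / (4 * T) - 2 * c * T) ^ 2 = (t / (4 * T)) ^ 2 - c * |t| + 4 * c ^ 2 * T ^ 2 := by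
    rw [div_pow t, ← sq_abs t]; field_simp; ring
  linarith [sq_nonneg (|t| / (4 * T) - 2 * c * T)]

lemma pw_le (t : ℝ) {p : ℝ} (h : p ≤ 3) : (1 + |t|) ^ p ≤ Real.exp (3 * |t|) := by
  rw [mul_comm 3, Real.exp_mul]
  exact (Real.rpow_le_rpow_of_exponent_le (by linarith [abs_nonneg t]) h).trans
    (Real.rpow_le_rpow (by positivity) (by linarith [Real.add_one_le_exp |t|]) (by norm_num))

lemma E_le' (s : ℂ) (a1 : 1 / 2 ≤ s.re) (a2 : s.re ≤ 5 / 4) :
    ‖E s‖ ≤ Real.exp 2 * Real.exp (-|s.im|) := by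
  rw [E, Complex.norm_exp, ← Real.exp_add]
  refine Real.exp_le_exp.2 ?_
  have e1 : ((s - 5 / 6) ^ 2).re = (s.re - 5 / 6) ^ 2 - s.im ^ 2 := by simp [sq]
  rw [e1]
  nlinarith [sq_abs s.im, sq_nonneg (|s.im| - 1 / 2)]

lemma step1 (hG : G0Stmt) {T K U : ℝ} {w : ℝ → ℝ} {ow : ℂ → ℂ} (hT : 0 < T) (hK : 0 ≤ K)
    (hU : 0 < U) (hk : Ker T K w ow) (r : O) :
    (∑' n, if Prim n then g0 n * cub r n * w (N n / U) else 0) = (1 / (2 * Real.pi) : ℝ) *
      ∫ t : ℝ, ow ((5 / 4 : ℝ) + t * I) * (U : ℂ) ^ (((5 / 4 : ℝ) : ℂ) + t * I) *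
        DS r ((5 / 4 : ℝ) + t * I) := by
  have := VIM.cntO
  have U0 : (U : ℂ) ≠ 0 := ofReal_ne_zero.2 hU.ne'
  have n0 : ∀ k, Prim k → 0 < N k := fun k hk =>
    lt_of_lt_of_le one_pos (W1.bas.b1.N_one_le _ (W1.bas.b2.ne _ hk))
  have := VIM.swap (F := fun (k : O) (t : ℝ) =>
      ow ((5 / 4 : ℝ) + t * I) * (U : ℂ) ^ (((5 / 4 : ℝ) : ℂ) + t * I) *
      if Prim k then g0 k * cub r k * (N k : ℂ) ^ (-(((5 / 4 : ℝ) : ℂ) + t * I)) else 0)
    (fun k => ((hk.diff.continuous.comp (by fun_prop)).mul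
      (Continuous.const_cpow (by fun_prop) (Or.inl U0))).mul (by
      split_ifs with h
      · exact continuous_const.mul (Continuous.const_cpow (by fun_prop)
          (Or.inl (ofReal_ne_zero.2 (n0 k h).ne')))
      · exact continuous_const))
    ((W1.bas.b3.summ (5 / 4) (by norm_num)).mul_left
      (K / T * Real.exp (4 * 1 ^ 2 * T ^ 2) * U ^ (5 / 4 : ℝ))) (fun k t => by
      have := VIM.N0 k
      have b1 := hk.bd ((5 / 4 : ℝ) + t * I) (by simp; norm_num [abs_of_pos])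
      have b2 := gz hT 1 t
      have b3 : ‖if Prim k then g0 k * cub r k * (N k : ℂ) ^ (-(((5 / 4 : ℝ) : ℂ) + t * I)) else 0‖ ≤
          N k ^ (-(5 / 4) : ℝ) := by
        split_ifs with h
        · rw [norm_mul, norm_mul, norm_cpow_eq_rpow_re_of_pos (n0 k h)]
          refine (mul_le_of_le_one_left (Real.rpow_nonneg this _) (mul_le_one₀ (hG.2.1 k h)
            (norm_nonneg _) (W1.bas.b6.norm_le _ _))).trans_eq (by simp)
        · rw [norm_zero]; positivity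
      simp only [add_im, ofReal_im, mul_im, ofReal_re, I_im, mul_one, I_re, mul_zero, add_zero,
        zero_add, one_mul] at b1 b2
      rw [norm_mul, norm_mul, norm_cpow_eq_rpow_re_of_pos hU]
      simp only [add_re, ofReal_re, mul_re, I_re, mul_zero, ofReal_im, I_im, mul_one, sub_self,
        add_zero]
      calc _ ≤ K / T * (Real.exp (4 * 1 ^ 2 * T ^ 2) * Real.exp (-|t|)) * U ^ (5 / 4 : ℝ) *
            N k ^ (-(5 / 4) : ℝ) := by
            gcongr
            exact b1.trans (by gcongr)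
        _ = _ := by ring)
  simp only [tsum_mul_left] at this
  unfold DS
  rw [← this.tsum_eq, ← tsum_mul_left]
  refine tsum_congr fun k => ?_
  split_ifs with h
  · rw [hk.inv (5 / 4) _ (by norm_num [abs_of_pos]) (div_pos (n0 k h) hU), mul_left_comm,
      ← integral_const_mul]
    congr 2
    ext t
    rw [div_eq_mul_inv (N k), ofReal_mul, mul_cpow_ofReal_nonneg (n0 k h).le (inv_nonneg.2 hU.le),
      ofReal_inv, inv_cpow _ _ (by rw [arg_ofReal_of_nonneg hU.le]; exact Real.pi_pos.ne),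
      ← cpow_neg, neg_neg]
    ring
  · simp

end TI1M

open TI1M

theorem ti1S (hV : CVStmt) (hG : G0Stmt) : TI1Stmt := by
  intro δ K h0 h1 hK
  obtain ⟨C, c0, hC⟩ := hV δ h0 h1
  set J := ∫ t : ℝ, Real.exp (-|t|) with hJ
  have J0 : 0 ≤ J := integral_nonneg fun t => (Real.exp_pos _).le
  refine ⟨13 * K * C * J * (2 * Real.exp 2 + Real.exp 64), by positivity,
    fun T U w ow r hT hU hk hr => ?_⟩
  obtain ⟨F, f1, f2, f3, f4⟩ := hC r hr
  have T0 : 0 < T := by linarith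
  have U0 : 0 < U := by linarith
  have n0 := VIM.N0 r
  set G : ℂ → ℂ := fun s => ow s * (U : ℂ) ^ s * F s with hG'
  have dG : DifferentiableOn ℂ G {s | 1 / 2 < s.re ∧ s.re < 3 / 2} :=
    (hk.diff.mul (differentiable_id.const_cpow
      (Or.inl (ofReal_ne_zero.2 U0.ne')))).differentiableOn.mul f1
  have bG : ∀ s : ℂ, 1 / 2 + δ ≤ s.re → s.re ≤ 5 / 4 → ‖G s‖ ≤
      K / T * Real.exp (-(s.im / (4 * T)) ^ 2) * U ^ s.re *
        (C * N r ^ (1 / 4 + δ) * (1 + |s.im|) ^ (2 + δ)) := fun s a1 a2 => by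
    rw [hG', norm_mul, norm_mul, norm_cpow_eq_rpow_re_of_pos U0]
    gcongr
    · exact hk.bd s (abs_le.2 ⟨by linarith, by linarith⟩)
    · exact f4 s a1 a2
  have bG2 : ∀ s : ℂ, 1 / 2 + δ ≤ s.re → s.re ≤ 5 / 4 → ‖G s‖ ≤
      K / T * Real.exp (4 * 4 ^ 2 * T ^ 2) * U ^ (5 / 4 : ℝ) * (C * N r ^ (1 / 4 + δ)) *
        Real.exp (-|s.im|) := fun s a1 a2 => by
    calc _ ≤ _ := bG s a1 a2
      _ ≤ K / T * (Real.exp (4 * 4 ^ 2 * T ^ 2) * Real.exp (-(4 * |s.im|))) * U ^ (5 / 4 : ℝ) *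
          (C * N r ^ (1 / 4 + δ) * Real.exp (3 * |s.im|)) := by
          gcongr
          · exact gz T0 4 _
          · exact pw_le _ (by linarith)
      _ = _ := by
          rw [show -|s.im| = -(4 * |s.im|) + 3 * |s.im| by ring, Real.exp_add]; ring
  have gg0 : ‖G (5 / 6)‖ ≤ K / T * U ^ (5 / 6 : ℝ) * (C * N r ^ (-1 / 6 : ℝ)) := by
    have := hk.bd (5 / 6) (by norm_num [abs_of_pos])
    rw [hG', norm_mul, norm_mul, norm_cpow_eq_rpow_re_of_pos U0]
    simp only [div_ofNat_im, im_ofNat, zero_div, ne_eq, OfNat.ofNat_ne_zero, not_false_eq_true,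
      zero_pow, neg_zero, Real.exp_zero, mul_one, div_ofNat_re, re_ofNat] at this ⊢
    gcongr
  have dE : DifferentiableOn ℂ E {s | 1 / 2 < s.re ∧ s.re < 3 / 2} := E_diff.differentiableOn
  have x := TI1M.cross (G := fun s => G s - G (5 / 6) * E s) (a := 1 / 2 + δ) (by linarith) (by linarith)
    (dG.sub (dE.const_mul _)) (by simp [E]) fun s a1 a2 =>
      (norm_sub_le_of_le (bG2 s a1 a2) (r₂ := ‖G (5 / 6)‖ * (Real.exp 2 * Real.exp (-|s.im|))) (by
        rw [norm_mul]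
        exact mul_le_mul_of_nonneg_left (E_le' s (by linarith) a2) (norm_nonneg _))).trans_eq
        (by rw [← mul_assoc ‖G (5 / 6)‖, ← add_mul])
  have d1 : 1 / 12 ≤ |(1 / 2 + δ) - 5 / 6| := by rw [abs_of_nonpos (by linarith)]; linarith
  have d2 : 1 / 12 ≤ |(5 / 4 : ℝ) - 5 / 6| := by norm_num [abs_of_pos]
  have i1 := TI1M.line dG (σ := 1 / 2 + δ) (by linarith) (by linarith) d1 fun t => by
    simpa using bG2 (((1 / 2 + δ : ℝ) : ℂ) + t * I) (by simp) (by simp; linarith)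
  have i2 := TI1M.line dG (σ := 5 / 4) (by norm_num) (by norm_num) d2 fun t => by
    simpa using bG2 (((5 / 4 : ℝ) : ℂ) + t * I) (by simp; linarith) (by simp)
  have i3 := TI1M.line dE (σ := 1 / 2 + δ) (C := Real.exp 2) (by linarith) (by linarith) d1 fun t => by
    simpa using E_le' (((1 / 2 + δ : ℝ) : ℂ) + t * I) (by simp; linarith) (by simp; linarith)
  have i4 := TI1M.line dE (σ := 5 / 4) (C := Real.exp 2) (by norm_num) (by norm_num) d2 fun t => by
    simpa using E_le' (((5 / 4 : ℝ) : ℂ) + t * I) (by simp; norm_num) (by simp)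
  simp only [sub_div, mul_div_assoc] at x
  rw [integral_sub i1.1 (i3.1.const_mul _), integral_sub i2.1 (i4.1.const_mul _), integral_const_mul,
    integral_const_mul] at x
  have e : ∀ t : ℝ, ow ((5 / 4 : ℝ) + t * I) * (U : ℂ) ^ (((5 / 4 : ℝ) : ℂ) + t * I) *
      DS r ((5 / 4 : ℝ) + t * I) = G ((5 / 4 : ℝ) + t * I) / ((5 / 4 : ℝ) + t * I - 5 / 6) :=
    fun t => by
    have := ne56 (σ := 5 / 4) (by norm_num) t
    simp only [hG']
    rw [f3 _ (by simp; norm_num) (by simp; norm_num)]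
    generalize (((5 / 4 : ℝ) : ℂ) + t * I - 5 / 6) = w at this ⊢
    field_simp
  have b1 : ‖∫ t : ℝ, G ((1 / 2 + δ : ℝ) + t * I) / ((1 / 2 + δ : ℝ) + t * I - 5 / 6)‖ ≤
      13 * K * C * Real.exp 64 * (U ^ (1 / 2 + δ) * N r ^ (1 / 4 + δ) * T ^ (1 + δ)) * J := by
    have ii : ∫ t : ℝ, Real.exp (-|t / T|) = T * J := by
      rw [Measure.integral_comp_div (fun t => Real.exp (-|t|)) T, abs_of_pos T0, smul_eq_mul]
    refine (norm_integral_le_of_norm_le ((VIM.int_exp.comp_div T0.ne').const_mul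
      (13 * K * C * Real.exp 64 * (U ^ (1 / 2 + δ) * N r ^ (1 / 4 + δ) * T ^ (1 + δ)) / T))
      (.of_forall fun t => ?_)).trans_eq (by rw [integral_const_mul, ii]; field_simp)
    have a1 := bG (((1 / 2 + δ : ℝ) : ℂ) + t * I) (by simp) (by simp; linarith)
    simp only [add_re, ofReal_re, mul_re, I_re, mul_zero, ofReal_im, I_im, mul_one, sub_self,
      add_zero, add_im, mul_im, zero_add] at a1
    have w0 : 0 < 1 + |t| := by positivity
    have a2 : Real.exp (-(t / (4 * T)) ^ 2) ≤ Real.exp 64 * Real.exp (-(4 * |t / T|)) := by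
      have := gz one_pos 4 (t / T)
      rw [show t / T / (4 * 1) = t / (4 * T) by ring] at this
      exact this.trans_eq (by norm_num)
    have a3 : (1 + |t|) ^ (1 + δ) ≤ T ^ (1 + δ) * Real.exp (3 * |t / T|) := by
      refine (Real.rpow_le_rpow w0.le (show 1 + |t| ≤ T * (1 + |t / T|) by
        rw [abs_div, abs_of_pos T0, mul_add, mul_div_cancel₀ _ T0.ne']; linarith) (by linarith)).trans ?_
      rw [Real.mul_rpow T0.le (by positivity)]
      exact mul_le_mul_of_nonneg_left (pw_le _ (by linarith)) (by positivity)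
    rw [norm_div]
    refine (div_le_div₀ ((norm_nonneg _).trans a1) a1 (by positivity) (den d1 t)).trans ?_
    calc _ = 13 * K * C * Real.exp (-(t / (4 * T)) ^ 2) * (U ^ (1 / 2 + δ) * N r ^ (1 / 4 + δ) *
          (1 + |t|) ^ (1 + δ)) / T := by
          rw [show 2 + δ = 1 + δ + 1 by ring, Real.rpow_add_one w0.ne']
          field_simp
      _ ≤ 13 * K * C * (Real.exp 64 * Real.exp (-(4 * |t / T|))) * (U ^ (1 / 2 + δ) *
          N r ^ (1 / 4 + δ) * (T ^ (1 + δ) * Real.exp (3 * |t / T|))) / T := by gcongr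
      _ = _ := by
          rw [show -|t / T| = -(4 * |t / T|) + 3 * |t / T| by ring, Real.exp_add]; ring
  rw [step1 hG T0 hK U0 hk r]
  simp only [e]
  rw [sub_eq_sub_iff_sub_eq_sub, sub_eq_iff_eq_add, ← sub_eq_iff_eq_add', ← mul_sub] at x
  rw [← x, norm_mul, norm_real, Real.norm_of_nonneg (by positivity)]
  have p1 : 1 / (2 * Real.pi) ≤ 1 := by
    rw [div_le_one (by positivity)]; linarith [Real.pi_gt_three]
  refine (mul_le_of_le_one_left (norm_nonneg _) p1).trans ((norm_sub_le_of_le b1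
    (r₂ := K / T * U ^ (5 / 6 : ℝ) * (C * N r ^ (-1 / 6 : ℝ)) *
      (13 * Real.exp 2 * J + 13 * Real.exp 2 * J)) (by
      rw [norm_mul]
      exact mul_le_mul gg0 (norm_sub_le_of_le i3.2 i4.2) (norm_nonneg _) (by positivity))).trans ?_)
  have p2 : 0 ≤ 13 * K * C * J * Real.exp 64 * (U ^ (5 / 6 : ℝ) * N r ^ (-1 / 6 : ℝ) / T) := by
    positivity
  have p3 : 0 ≤ 13 * K * C * J * (2 * Real.exp 2) *
      (U ^ (1 / 2 + δ) * N r ^ (1 / 4 + δ) * T ^ (1 + δ)) := by positivity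
  calc _ = 13 * K * C * J * Real.exp 64 * (U ^ (1 / 2 + δ) * N r ^ (1 / 4 + δ) * T ^ (1 + δ)) +
        13 * K * C * J * (2 * Real.exp 2) * (U ^ (5 / 6 : ℝ) * N r ^ (-1 / 6 : ℝ) / T) := by ring
    _ ≤ _ := by linarith

end Vale.Agent.P006.S
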