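import Vale.Agent.P006.S2

/-! P006 branch S, row TI2: type I estimate for finite sums. -/

noncomputable section
open Complex MeasureTheory
open scoped Classical ComplexConjugate

namespace Vale.Agent.P006.S
open Vale.Agent.P026 W1

namespace TI2M

def SW (X : ℝ) (w : ℝ → ℝ) (r : O) : ℂ :=
  ∑ n ∈ Vau.PS (X ^ 2), if N (r * n) ≤ X ^ 2 then g0 (r * n) * w (N (r * n) / X) else 0

theorem tail {T K X : ℝ} {w : ℝ → ℝ} {ow : ℂ → ℂ} (hk : Ker T K w ow) (hK : 0 ≤ K) (hT : 1 ≤ T)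
    (hX : Real.exp 8 ≤ X) {a b : ℝ} (ha : 1 ≤ a) (hb : 0 < b) (h : X ^ 2 < a * b) :
    |w (a * b / X)| ≤ K * b ^ (-(2 : ℝ)) := by
  have X1 : 1 ≤ X := (Real.one_le_exp (by norm_num)).trans hX
  have X0 : 0 < X := by linarith
  have x0 : 0 < a * b / X := by positivity
  have hx : X < a * b / X := by rw [lt_div_iff₀ X0]; nlinarith
  have y8 : 8 ≤ Real.log (a * b / X) := by
    rw [Real.le_log_iff_exp_le x0]; linarith
  refine (hk.dec _ x0).trans (mul_le_mul_of_nonneg_left ?_ hK)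
  set y := Real.log (a * b / X) with hy
  have e1 : Real.exp (-(T * y) ^ 2 / 2) ≤ Real.exp (-(4 * y)) := by
    apply Real.exp_le_exp.2
    have : y ≤ T * y := by nlinarith
    nlinarith
  have e2 : Real.exp (-(4 * y)) = ((a * b / X) ^ 4)⁻¹ := by
    rw [Real.exp_neg, show (4 : ℝ) * y = (4 : ℕ) * y by norm_num, Real.exp_nat_mul, hy,
      Real.exp_log x0]
  refine e1.trans ?_
  rw [e2, Real.rpow_neg hb.le, Real.rpow_two]
  apply inv_anti₀ (by positivity)
  have h1 : b ≤ a * b / X * X := by rw [div_mul_cancel₀ _ X0.ne']; nlinarith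
  have h2 : a * b / X * X ≤ (a * b / X) ^ 2 := by nlinarith
  calc b ^ 2 ≤ ((a * b / X) ^ 2) ^ 2 := pow_le_pow_left₀ hb.le (h1.trans h2) 2
    _ = _ := by ring

theorem EI0 (δ : ℝ) {X T : ℝ} (r : O) (hX : 0 ≤ X) (hT : 0 ≤ T) : 1 ≤ EI δ X T r := by
  have := Vau.N0 r
  have : 0 ≤ X ^ (5 / 6 : ℝ) / (N r * T) + X ^ (1 / 2 + δ) * N r ^ (-1 / 4 : ℝ) * T ^ (1 + δ) := by
    positivity
  unfold EI; linarith

theorem main (h1 : TI1Stmt) (hG : G0Stmt) {δ K : ℝ} (d0 : 0 < δ) (d1 : δ ≤ 1 / 4) (hK : 0 ≤ K) :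
    ∃ C : ℝ, 0 ≤ C ∧ ∀ (X T : ℝ) (w : ℝ → ℝ) (ow : ℂ → ℂ) (r : O), Real.exp 8 ≤ X → 1 ≤ T →
      Ker T K w ow → Prim r → N r ≤ X → ‖SW X w r‖ ≤ C * EI δ X T r := by
  obtain ⟨C, C0, hC⟩ := h1 δ K d0 d1 hK
  have sm := (bas.b3.summ 2 (by norm_num)).mul_left K
  have Z0 : 0 ≤ ∑' n : O, K * N n ^ (-(2 : ℝ)) :=
    tsum_nonneg fun n => mul_nonneg hK (Real.rpow_nonneg (Vau.N0 n) _)
  refine ⟨C + ∑' n : O, K * N n ^ (-(2 : ℝ)), by linarith, fun X T w ow r hX hT hk hr hN => ?_⟩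
  have X1 : 1 ≤ X := (Real.one_le_exp (by norm_num)).trans hX
  have X0 : 0 < X := by linarith
  have E1 := EI0 δ r X0.le (by linarith : 0 ≤ T)
  have r1 := Vau.N1 hr
  have r0 : 0 < N r := by linarith
  by_cases sq : Squarefree r
  swap
  · have g : g0 r = 0 := by_contra fun c => sq (hG.2.2.1 r c)
    have : SW X w r = 0 := Finset.sum_eq_zero fun n hn => by
      rw [hG.1 r n hr (Vau.mem_PS.1 hn).1, g]; simp
    rw [this, norm_zero]; positivity
  have U1 : 1 ≤ X / N r := by rwa [le_div_iff₀ r0, one_mul]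
  have key := hC T (X / N r) w ow r hT U1 hk ⟨hr, sq⟩
  set a : O → ℂ := fun n => if Prim n then g0 n * cub r n * w (N n / (X / N r)) else 0 with ha
  set s := (Vau.PS (X ^ 2)).filter fun n => N (r * n) ≤ X ^ 2 with hs
  have ee : ∀ n, N n / (X / N r) = N r * N n / X := fun n => by field_simp
  have e1 : SW X w r = g0 r * ∑ n ∈ s, a n := by
    rw [SW, ← Finset.sum_filter, Finset.mul_sum]
    refine Finset.sum_congr rfl fun n hn => ?_
    have p := (Vau.mem_PS.1 (Finset.mem_filter.1 hn).1).1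
    simp only [ha, if_pos p]
    rw [hG.1 r n hr p, ee, bas.b1.N_mul]; ring
  have bd : ∀ n, ‖if n ∈ s then 0 else a n‖ ≤ K * N n ^ (-(2 : ℝ)) := by
    intro n
    have q0 : 0 ≤ K * N n ^ (-(2 : ℝ)) := mul_nonneg hK (Real.rpow_nonneg (Vau.N0 n) _)
    split_ifs with c
    · rwa [norm_zero]
    by_cases p : Prim n
    swap
    · simp only [ha, if_neg p]; rwa [norm_zero]
    have n1 := Vau.N1 p
    have hl : X ^ 2 < N r * N n := by
      by_contra k
      push Not at k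
      refine c (Finset.mem_filter.2 ⟨Vau.mem_PS.2 ⟨p, ?_⟩, by rwa [bas.b1.N_mul]⟩)
      nlinarith
    simp only [ha, if_pos p]
    rw [norm_mul, norm_mul, ee, Complex.norm_real, Real.norm_eq_abs]
    refine le_trans ?_ (tail hk hK hT hX r1 (by linarith) hl)
    exact mul_le_of_le_one_left (abs_nonneg _)
      (mul_le_one₀ (hG.2.1 n p) (norm_nonneg _) (bas.b6.norm_le r n))
  have s1 : Summable fun n => if n ∈ s then 0 else a n := Summable.of_norm_bounded sm bd
  have s2 : HasSum (fun n => if n ∈ s then a n else 0) (∑ n ∈ s, a n) := by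
    have : HasSum (fun n => if n ∈ s then a n else 0) (∑ n ∈ s, if n ∈ s then a n else 0) :=
      hasSum_sum_of_ne_finset_zero fun n hn => if_neg hn
    rwa [Finset.sum_congr rfl fun n hn => if_pos hn] at this
  have e2 : ∑' n, a n = (∑' n, if n ∈ s then 0 else a n) + ∑ n ∈ s, a n := by
    rw [← (s1.hasSum.add s2).tsum_eq]
    refine tsum_congr fun n => ?_
    split_ifs <;> simp
  have b1 := tsum_of_norm_bounded sm.hasSum bd
  have b2 : ‖∑ n ∈ s, a n‖ ≤ ‖∑' n, a n‖ + ‖∑' n, if n ∈ s then 0 else a n‖ := by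
    rw [e2]
    refine le_trans (le_of_eq ?_) (norm_sub_le _ _)
    rw [add_sub_cancel_left]
  have x1 : (X / N r) ^ (5 / 6 : ℝ) * N r ^ (-1 / 6 : ℝ) / T = X ^ (5 / 6 : ℝ) / (N r * T) := by
    have : N r ^ (-1 / 6 : ℝ) = N r ^ (5 / 6 : ℝ) / N r := by
      rw [← Real.rpow_sub_one r0.ne']; norm_num
    rw [Real.div_rpow X0.le r0.le, this]
    have := Real.rpow_pos_of_pos r0 (5 / 6 : ℝ)
    field_simp
  have x2 : (X / N r) ^ (1 / 2 + δ) * N r ^ (1 / 4 + δ) = X ^ (1 / 2 + δ) * N r ^ (-1 / 4 : ℝ) := by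
    have : N r ^ (1 / 4 + δ) = N r ^ (1 / 2 + δ) * N r ^ (-1 / 4 : ℝ) := by
      rw [← Real.rpow_add r0]; congr 1; ring
    rw [Real.div_rpow X0.le r0.le, this]
    have := Real.rpow_pos_of_pos r0 (1 / 2 + δ)
    field_simp
  rw [x1, x2] at key
  have k2 : ‖∑' n, a n‖ ≤ C * EI δ X T r :=
    key.trans (mul_le_mul_of_nonneg_left (by unfold EI; linarith) C0)
  rw [e1, norm_mul]
  refine (mul_le_of_le_one_left (norm_nonneg _) (hG.2.1 r hr)).trans ?_
  nlinarith

end TI2M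

theorem ti2S (h1 : TI1Stmt) (hB : BMStmt) (hG : G0Stmt) : TI2Stmt := by
  intro δ d0 d1
  obtain ⟨K, hK, hk⟩ := hB
  obtain ⟨C, C0, hC⟩ := TI2M.main h1 hG d0 d1 hK
  refine ⟨2 * C, by positivity, fun X T r hX hT hr hN => ?_⟩
  have X1 : 1 ≤ X := (Real.one_le_exp (by norm_num)).trans hX
  have X0 : 0 < X := by linarith
  have E1 := TI2M.EI0 δ r X0.le (by linarith : 0 ≤ T)
  have r1 := Vau.N1 hr
  have r0 : 0 < N r := by linarith
  have a1 := hC X T _ _ r hX hT (hk T hT).1 hr hN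
  have a2 := hC X T _ _ r hX hT (hk T hT).2 hr hN
  have L8 : 8 ≤ Real.log X := by rwa [Real.le_log_iff_exp_le X0]
  have CE : 0 ≤ C * EI δ X T r := by positivity
  refine ⟨a1.trans (by nlinarith), ?_⟩
  have e : ∑ n ∈ Vau.PS (X ^ 2), Real.log (N n) * ff X T (r * n) =
      (Real.log (X / N r) : ℝ) * TI2M.SW X (bT T) r + (T⁻¹ : ℝ) * TI2M.SW X (b2 T) r := by
    simp only [TI2M.SW, Finset.mul_sum, ← Finset.sum_add_distrib]
    refine Finset.sum_congr rfl fun n hn => ?_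
    have n1 := Vau.N1 (Vau.mem_PS.1 hn).1
    unfold ff
    split_ifs
    · have l : Real.log (N n) = Real.log (X / N r) + Real.log (N (r * n) / X) := by
        rw [bas.b1.N_mul, ← Real.log_mul (by positivity) (by positivity)]
        congr 1; field_simp
      have : Real.log (N n) * bT T (N (r * n) / X) =
          Real.log (X / N r) * bT T (N (r * n) / X) + T⁻¹ * b2 T (N (r * n) / X) := by
        rw [l]; unfold bT b2; field_simp
      have := congrArg (fun x : ℝ => g0 (r * n) * (x : ℂ)) this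
      simp only [Complex.ofReal_add, Complex.ofReal_mul] at this
      linear_combination this
    · simp
  have U1 : 1 ≤ X / N r := by rwa [le_div_iff₀ r0, one_mul]
  have l0 := Real.log_nonneg U1
  have l1 : Real.log (X / N r) ≤ Real.log X :=
    Real.log_le_log (by linarith) (div_le_self X0.le r1)
  have t1 : T⁻¹ ≤ 1 := inv_le_one_of_one_le₀ hT
  have t0 : 0 ≤ T⁻¹ := by positivity
  rw [e]
  refine (norm_add_le _ _).trans ?_
  rw [norm_mul, norm_mul, Complex.norm_real, Complex.norm_real, Real.norm_of_nonneg l0,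
    Real.norm_of_nonneg t0]
  have m1 := mul_le_mul l1 a1 (norm_nonneg _) (by linarith)
  have m2 := mul_le_mul (t1.trans (by linarith : (1 : ℝ) ≤ Real.log X)) a2 (norm_nonneg _) (by linarith)
  linarith

end Vale.Agent.P006.S
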