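import Vale.Agent.P006.S1
import Vale.Agent.P006.L.H16

/-! Thin rows and thin columns. -/

noncomputable section
open Complex
open scoped Classical ComplexConjugate

namespace Vale.Agent.P006.S
open Vale.Agent.P026 W1 H16

namespace TTM

theorem thin_mono {A T T' : ℝ} {m : O} (hA : 0 ≤ A) (h0 : 0 < T') (h : T' ≤ T) (hm : Thin A T m) :
    Thin A T' m :=
  ⟨hm.1, hm.2.trans (by gcongr)⟩

theorem one_le_tau {n : O} (hn : n ≠ 0) : 1 ≤ tau n := by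
  unfold tau
  exact_mod_cast Finset.card_pos.2 ⟨1, (mdv hn).2 ⟨bas.b2.one, one_dvd _⟩⟩

theorem two23 {x : ℝ} (hx : 0 ≤ x) : (2 * x) ^ (2 / 3 : ℝ) ≤ 2 * x ^ (2 / 3 : ℝ) := by
  rw [Real.mul_rpow (by norm_num) hx]
  gcongr
  calc (2 : ℝ) ^ (2 / 3 : ℝ) ≤ 2 ^ (1 : ℝ) :=
        Real.rpow_le_rpow_of_exponent_le (by norm_num) (by norm_num)
    _ = 2 := Real.rpow_one 2

theorem key {τ P : ℝ} (h1 : 1 ≤ τ) (hP : τ ^ 20 ≤ P) :
    Real.sqrt P * τ * τ ^ (4 / 3 : ℝ) ≤ P ^ (2 / 3 : ℝ) * τ ^ (-1 / 3 : ℝ) := by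
  have t0 : 0 < τ := by linarith
  have p0 : 0 < P := lt_of_lt_of_le (by positivity) hP
  obtain ⟨x, hx, e⟩ := cube (Real.sqrt_pos.2 p0)
  have eP : P = (x ^ 2) ^ 3 := by rw [← Real.sq_sqrt p0.le, e]; ring
  obtain ⟨r, hr, rfl⟩ := cube t0
  have r1 : 1 ≤ r := by
    by_contra h
    push Not at h
    have := pow_lt_one₀ hr.le h (n := 3) (by norm_num)
    linarith
  have r2 : r ^ 10 ≤ x := by
    refine le_of_pow_le_pow_left₀ (n := 6) (by norm_num) hx.le ?_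
    calc (r ^ 10) ^ 6 = (r ^ 3) ^ 20 := by ring
      _ ≤ P := hP
      _ = x ^ 6 := by rw [eP]; ring
  have r3 : r ^ 8 ≤ x := (pow_le_pow_right₀ r1 (by norm_num)).trans r2
  rw [e, eP, p23 (by positivity), p43 hr, m13 hr, ← div_eq_mul_inv, le_div_iff₀ hr]
  calc x ^ 3 * r ^ 3 * r ^ 4 * r = x ^ 3 * r ^ 8 := by ring
    _ ≤ x ^ 3 * x := by gcongr
    _ = _ := by ring

theorem sq2 {P : ℝ} (hP : 0 ≤ P) : Real.sqrt (2 * P) ≤ 2 * Real.sqrt P := by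
  rw [Real.sqrt_le_left (by positivity), mul_pow, Real.sq_sqrt hP]
  linarith

theorem tle {τ A B : ℝ} (h1 : 1 ≤ τ) (B1 : 1 ≤ B) (BA : B ≤ A) (hP : τ ^ 20 ≤ A * B) :
    τ ≤ 1 + A := by
  by_contra h
  push Not at h
  have h1 : A * B < τ ^ 2 := by nlinarith
  have h2 : τ ^ 2 ≤ τ ^ 20 := pow_le_pow_right₀ (by linarith) (by norm_num)
  linarith

theorem ale {τ A B : ℝ} (t0 : 0 < τ) (A0 : 0 < A) (B0 : 0 < B) (hc : A ≤ 2 * B * τ ^ 2) :
    A ≤ 2 * Real.sqrt (A * B) * τ := by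
  refine le_trans ?_ (mul_le_mul_of_nonneg_right (sq2 (by positivity)) t0.le)
  refine le_of_sq_le_sq ?_ (by positivity)
  rw [mul_pow, Real.sq_sqrt (by positivity)]
  nlinarith

theorem tchoice {τ T A B Y : ℝ} (t0 : 0 < τ) (tT : τ ≤ T) (A0 : 0 < A) (Y0 : 0 < Y)
    (Y2 : Y < 2 * B) (hc : 2 * B * τ ^ 2 ≤ A) :
    ∃ t, τ ≤ t ∧ t ≤ T ∧ Y * t ^ 2 ≤ A ∧ A / t ≤ A / T + 2 * Real.sqrt (A * B) := by
  obtain ⟨t, ht⟩ : ∃ t, t = min T (Real.sqrt (A / Y)) := ⟨_, rfl⟩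
  have t1 : τ ≤ t := by
    rw [ht]
    refine le_min tT (Real.le_sqrt_of_sq_le ?_)
    rw [le_div_iff₀ Y0]
    nlinarith [sq_nonneg τ]
  have t3 : Y * t ^ 2 ≤ A := by
    have h1 : t ≤ Real.sqrt (A / Y) := ht ▸ min_le_right _ _
    have h2 : t ^ 2 ≤ A / Y := by
      rw [← Real.sq_sqrt (div_pos A0 Y0).le]
      exact pow_le_pow_left₀ (by linarith) h1 2
    rwa [le_div_iff₀ Y0, mul_comm] at h2
  have a2 : Real.sqrt (A * Y) ≤ 2 * Real.sqrt (A * B) :=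
    (Real.sqrt_le_sqrt (by nlinarith)).trans (sq2 (mul_nonneg A0.le (by linarith)))
  refine ⟨t, t1, ht ▸ min_le_left _ _, t3, ?_⟩
  have sY := Real.sqrt_nonneg (A * B)
  have AT : 0 ≤ A / T := div_nonneg A0.le (by linarith)
  rcases le_total T (Real.sqrt (A / Y)) with h | h
  · rw [ht, min_eq_left h]; linarith
  · rw [ht, min_eq_right h]
    have : A / Real.sqrt (A / Y) = Real.sqrt (A * Y) := by
      rw [div_eq_iff (Real.sqrt_pos.2 (div_pos A0 Y0)).ne', ← Real.sqrt_mul (by positivity),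
        show A * Y * (A / Y) = A ^ 2 by field_simp, Real.sqrt_sq A0.le]
    linarith

end TTM

open TTM in
theorem ttS (h4 : TH4Stmt) (hb : BALStmt) : TTStmt := by
  obtain ⟨C1, c1, h4⟩ := h4
  obtain ⟨C2, c2, hb⟩ := hb
  refine ⟨4 * C1 + 6 * C2, by positivity, fun τ T A B S U a t8 tT B1 BA hP hS hU => ?_⟩
  have t0 : 0 < τ := by linarith
  have T0 : 0 < T := by linarith
  have A0 : 0 < A := by linarith
  have B0 : 0 < B := by linarith
  have iT : 1 / T ≤ 1 / 8 := one_div_le_one_div_of_le (by norm_num) (by linarith)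
  have iT0 : 0 < 1 / T := by positivity
  have k := key (by linarith) hP
  have L0 : 0 ≤ Real.log (1 + A) := Real.log_nonneg (by linarith)
  have L1 : 1 ≤ (1 + Real.log (1 + A)) ^ 3 := one_le_pow₀ (by linarith)
  have w0 : 0 ≤ ∑ n ∈ U, ‖a n‖ ^ 2 * tau n :=
    Finset.sum_nonneg fun n _ => mul_nonneg (by positivity) (Nat.cast_nonneg _)
  have AT : 0 ≤ A / T := by positivity
  have t43 : 1 ≤ τ ^ (4 / 3 : ℝ) := Real.one_le_rpow (by linarith) (by norm_num)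
  have sP : 0 ≤ Real.sqrt (A * B) := Real.sqrt_nonneg _
  have E0 : 0 ≤ (A * B) ^ (2 / 3 : ℝ) * τ ^ (-1 / 3 : ℝ) := by positivity
  rcases le_total (2 * B * τ ^ 2) A with hc | hc
  · obtain ⟨Y, hY⟩ : ∃ Y, Y = B * (1 + 1 / T) := ⟨_, rfl⟩
    have Y0 : 0 < Y := by rw [hY]; positivity
    have Y2 : Y < 2 * B := by rw [hY]; nlinarith
    obtain ⟨t, t1, t2, t3, a1⟩ := tchoice t0 tT A0 Y0 Y2 hc
    have g := h4 t A Y S U a (by linarith) A0 Y0 t3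
      (fun m hm => thin_mono A0.le (by linarith) t2 (hS m hm).2)
      (fun n hn => ⟨(hU n hn).1, by linarith [(hU n hn).2.1], hY ▸ (hU n hn).2.2⟩)
    have a3 : Real.sqrt (A * B) ≤ (A * B) ^ (2 / 3 : ℝ) * τ ^ (-1 / 3 : ℝ) := by
      refine le_trans ?_ k
      rw [mul_assoc]
      exact le_mul_of_one_le_right sP (by nlinarith)
    have a4 : (A * Y) ^ (2 / 3 : ℝ) * t ^ (-1 / 3 : ℝ) ≤
        2 * (A * B) ^ (2 / 3 : ℝ) * τ ^ (-1 / 3 : ℝ) := by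
      refine mul_le_mul ((Real.rpow_le_rpow (by positivity) (by nlinarith) (by norm_num)).trans
        (two23 (by positivity))) (Real.rpow_le_rpow_of_nonpos t0 t1 (by norm_num))
        (Real.rpow_nonneg (by linarith) _) (by positivity)
    have a5 : ∑ n ∈ U, ‖a n‖ ^ 2 ≤ ∑ n ∈ U, ‖a n‖ ^ 2 * tau n := Finset.sum_le_sum fun n hn =>
      le_mul_of_one_le_right (by positivity) (one_le_tau (bas.b2.ne _ (hU n hn).1.1))
    refine g.trans ?_
    calc _ ≤ C1 * (4 * (A / T + (A * B) ^ (2 / 3 : ℝ) * τ ^ (-1 / 3 : ℝ))) *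
          ∑ n ∈ U, ‖a n‖ ^ 2 * tau n := by
          gcongr
          linarith
      _ = 4 * C1 * 1 * (A / T + (A * B) ^ (2 / 3 : ℝ) * τ ^ (-1 / 3 : ℝ)) *
          ∑ n ∈ U, ‖a n‖ ^ 2 * tau n := by ring
      _ ≤ _ := by gcongr; linarith
  · have g := hb τ (2 * A) B S U a t8 B1 (by linarith)
      (fun m hm => ⟨(hS m hm).1, (hS m hm).2.2.trans (by nlinarith)⟩)
      (fun n hn => ⟨(hU n hn).1, thin_mono B0.le t0 tT (hU n hn).2⟩)
    have a1 := ale t0 A0 B0 hc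
    have a2 : 2 * A * τ ^ (4 / 3 : ℝ) ≤ 4 * ((A * B) ^ (2 / 3 : ℝ) * τ ^ (-1 / 3 : ℝ)) := by
      calc _ ≤ 2 * (2 * Real.sqrt (A * B) * τ) * τ ^ (4 / 3 : ℝ) := by gcongr
        _ = 4 * (Real.sqrt (A * B) * τ * τ ^ (4 / 3 : ℝ)) := by ring
        _ ≤ _ := by gcongr
    have a3 : (2 * A * B) ^ (2 / 3 : ℝ) * τ ^ (-1 / 3 : ℝ) ≤
        2 * ((A * B) ^ (2 / 3 : ℝ) * τ ^ (-1 / 3 : ℝ)) := by
      rw [mul_assoc 2 A B, ← mul_assoc 2 ((A * B) ^ (2 / 3 : ℝ))]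
      exact mul_le_mul_of_nonneg_right (two23 (by positivity)) (by positivity)
    have a4 : τ ≤ 1 + A := tle (by linarith) B1 BA hP
    have a5 : Real.log τ ≤ 1 + Real.log (1 + A) := by
      have := Real.log_le_log t0 a4
      linarith
    have a6 : Real.log (1 + B) ≤ Real.log (1 + A) := Real.log_le_log (by linarith) (by linarith)
    have a7 : 0 ≤ Real.log (1 + B) := Real.log_nonneg (by linarith)
    have a8 : 0 ≤ Real.log τ := Real.log_nonneg (by linarith)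
    refine g.trans ?_
    calc _ ≤ C2 * (1 + Real.log (1 + A)) ^ 2 * (1 + Real.log (1 + A)) *
          (6 * (A / T + (A * B) ^ (2 / 3 : ℝ) * τ ^ (-1 / 3 : ℝ))) *
          ∑ n ∈ U, ‖a n‖ ^ 2 * tau n := by
          gcongr
          linarith
      _ = 6 * C2 * (1 + Real.log (1 + A)) ^ 3 *
          (A / T + (A * B) ^ (2 / 3 : ℝ) * τ ^ (-1 / 3 : ℝ)) * ∑ n ∈ U, ‖a n‖ ^ 2 * tau n := by ring
      _ ≤ _ := by gcongr; linarith

end Vale.Agent.P006.S
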