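import Vale.Agent.P006.S2

noncomputable section
open Complex MeasureTheory Finset
open scoped Classical ComplexConjugate

namespace Vale.Agent.P006.S
open Vale.Agent.P026 W1 Vau
namespace VAM

def al (Y : ℝ) (g h : O → ℂ) (r : O) : ℂ := ∑ b ∈ PS Y, ∑ a ∈ PS Y, if a * b = r then g a * h b else 0

lemma conv2 (Y : ℝ) (g h F : O → ℂ) (hF : ∀ n, Y < N n → F n = 0) :
    ∑ a ∈ PS Y, g a * ∑ b ∈ PS Y, h b * F (a * b) = ∑ r ∈ PS Y, al Y g h r * F r := by
  simp only [al, sum_mul, mul_sum]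
  rw [sum_comm]
  symm
  rw [sum_comm]
  refine sum_congr rfl fun b hb => ?_
  rw [sum_comm]
  refine sum_congr rfl fun a ha => ?_
  simp only [ite_mul, zero_mul]
  rw [sum_ite_eq]
  split_ifs with h1
  · ring
  · rw [hF _ (not_le.1 fun k => h1 (mem_PS.2 ⟨bas.b2.mul _ _ (mem_PS.1 ha).1 (mem_PS.1 hb).1, k⟩))]
    ring

lemma al_le (Y : ℝ) (g h : O → ℂ) (hg : ∀ a, ‖g a‖ ≤ 1) (hh : ∀ b, ‖h b‖ ≤ Lam b) {r : O} (hr : Prim r) :
    ‖al Y g h r‖ ≤ Real.log (N r) := by
  have r0 := bas.b2.ne r hr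
  rw [← sum_Lam hr]
  refine (norm_sum_le _ _).trans ?_
  have : ∀ b ∈ PS Y, ‖∑ a ∈ PS Y, if a * b = r then g a * h b else 0‖ ≤ if b ∣ r then Lam b else 0 := by
    intro b hb
    have b0 := bas.b2.ne b (mem_PS.1 hb).1
    split_ifs with k
    · obtain ⟨c, rfl⟩ := k
      have e : ∀ a, (a * b = b * c) ↔ c = a := fun a => by
        rw [mul_comm a, mul_right_inj' b0, eq_comm]
      simp only [e]
      rw [sum_ite_eq]
      split_ifs
      · rw [norm_mul]
        exact (mul_le_of_le_one_left (norm_nonneg _) (hg c)).trans (hh b)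
      · rw [norm_zero]; exact Lam_nonneg b
    · rw [sum_eq_zero fun a _ => if_neg fun e => k ⟨a, by rw [← e, mul_comm]⟩, norm_zero]
  refine (sum_le_sum this).trans ?_
  rw [← sum_filter]
  refine sum_le_sum_of_subset_of_nonneg (fun d hd => ?_) fun d _ _ => Lam_nonneg d
  rw [mem_filter, mem_PS] at hd
  exact (mem_dv r0).2 ⟨hd.1.1, hd.2⟩

lemma al_supp (Y y : ℝ) (g h : O → ℂ) {r : O} (hr : al Y (lo y g) (lo y h) r ≠ 0) : N r ≤ y ^ 2 := by
  obtain ⟨b, _, hb⟩ := exists_ne_zero_of_sum_ne_zero hr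
  obtain ⟨a, _, ha⟩ := exists_ne_zero_of_sum_ne_zero hb
  split_ifs at ha with e
  · have h1 : N a ≤ y := by
      by_contra k; exact ha (by rw [lo, if_neg k, zero_mul])
    have h2 : N b ≤ y := by
      by_contra k; exact ha (by rw [lo, lo, if_neg k, mul_zero])
    rw [← e, bas.b1.N_mul, sq]
    exact mul_le_mul h1 h2 (N0 _) ((N0 _).trans h1)
  · exact absurd rfl ha

lemma lo_le (y : ℝ) (g : O → ℂ) (n : O) : ‖lo y g n‖ ≤ ‖g n‖ := by
  unfold lo; split_ifs <;> simp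
lemma hi_le (y : ℝ) (g : O → ℂ) (n : O) : ‖hi y g n‖ ≤ ‖g n‖ := by
  unfold hi; split_ifs <;> simp
lemma nL (n : O) : ‖(Lam n : ℂ)‖ = Lam n := by rw [Complex.norm_real, Real.norm_of_nonneg (Lam_nonneg n)]

end VAM
open VAM

theorem vaS (hVI : VIStmt) (hVII : VIIStmt) (hD : DIVStmt) (hB : BMStmt) (hG : G0Stmt) : VAStmt := by
  obtain ⟨C1, X1, c1, h1⟩ := hVI
  obtain ⟨C2, X2, c2, h2⟩ := hVII
  obtain ⟨C3, c3, h3⟩ := hD
  obtain ⟨K, k0, hK⟩ := hB
  refine ⟨600 * C3 * K + C1 + 600 * C1 + 1200 * C2, max (max X1 X2) 3, by positivity, fun X T hX hT => ?_⟩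
  have x1 : X1 ≤ X := (le_max_left _ _).trans ((le_max_left _ _).trans hX)
  have x2 : X2 ≤ X := (le_max_right _ _).trans ((le_max_left _ _).trans hX)
  have x3 : 3 ≤ X := (le_max_right _ _).trans hX
  have x0 : 0 < X := by linarith
  have xo : 1 ≤ X := by linarith
  set L := Real.log X with hL
  have l1 : 1 ≤ L := by
    rw [hL, Real.le_log_iff_exp_le x0]
    exact Real.exp_one_lt_d9.le.trans (by linarith)
  have t1 : 1 ≤ T := (one_le_pow₀ l1).trans hT.1
  have t0 : 0 < T := by linarith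
  set y := yy X T with hy
  set f := ff X T with hf
  have f0 : f 0 = 0 := by simp [hf, ff, g0]
  have fz : ∀ n, X ^ 2 < N n → f n = 0 := fun n h => if_neg (not_le.2 h)
  have fm : ∀ a n, X ^ 2 < N n → f (a * n) = 0 := fun a n h => W_mul (X := X ^ 2) ⟨f, f0, fz⟩ a n h
  have lg : ∀ n ∈ PS (X ^ 2), Real.log (N n) ≤ 2 * L := fun n hn => by
    have := mem_PS.1 hn
    calc _ ≤ Real.log (X ^ 2) := Real.log_le_log (zero_lt_one.trans_le (N1 this.1)) this.2
      _ = _ := by rw [Real.log_pow]; norm_num [hL]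
  have L0 : (0 : ℝ) < 2 * L := by linarith
  have L0' : ((2 * L : ℝ) : ℂ) ≠ 0 := by exact_mod_cast L0.ne'
  have nd : ∀ z : ℂ, ‖z‖ ≤ 2 * L → ‖z / (2 * L : ℝ)‖ ≤ 1 := fun z h => by
    rw [norm_div, Complex.norm_real, Real.norm_of_nonneg L0.le, div_le_one L0]; exact h
  set P := X ^ (5 / 6 : ℝ) with hP
  set A := L ^ 6 * T ^ (-1 / 10 : ℝ) with hA
  set B := X ^ (-1 / 300 : ℝ) with hB
  have P0 : 0 < P := by positivity
  have A0 : 0 ≤ A := by positivity
  have B0 : 0 ≤ B := by positivity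
  have lx : L ≤ 300 * X ^ (1 / 300 : ℝ) := by
    have := Real.log_le_rpow_div x0.le (by norm_num : (0 : ℝ) < 1 / 300)
    linarith
  have i1 : L * X ^ (-1 / 150 : ℝ) ≤ 300 * B := by
    calc _ ≤ 300 * X ^ (1 / 300 : ℝ) * X ^ (-1 / 150 : ℝ) := by gcongr
      _ = _ := by rw [mul_assoc, ← Real.rpow_add x0]; norm_num [hB]
  have i2 : L * (L ^ 2 / T) ≤ A := by
    have a : T⁻¹ ≤ T ^ (-1 / 10 : ℝ) := by
      rw [← Real.rpow_neg_one]; exact Real.rpow_le_rpow_of_exponent_le t1 (by norm_num)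
    have b : L ^ 3 ≤ L ^ 6 := pow_le_pow_right₀ l1 (by norm_num)
    calc _ = L ^ 3 * T⁻¹ := by ring
      _ ≤ _ := by rw [hA]; gcongr
  have j1 : L * (L ^ 2 / T + X ^ (-1 / 150 : ℝ)) ≤ 300 * (A + B) := by nlinarith
  have j2 : L * (L ^ 5 * T ^ (-1 / 10 : ℝ) + X ^ (-1 / 150 : ℝ)) ≤ 300 * (A + B) := by
    have : L * (L ^ 5 * T ^ (-1 / 10 : ℝ)) = A := by rw [hA]; ring
    nlinarith
  have j0 : L ^ 2 / T + X ^ (-1 / 150 : ℝ) ≤ A + B := by
    have a : X ^ (-1 / 150 : ℝ) ≤ B := Real.rpow_le_rpow_of_exponent_le xo (by norm_num)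
    have b : 0 ≤ L ^ 2 / T := by positivity
    nlinarith
  -- term 1
  have T1 : ‖∑ n ∈ PS (X ^ 2), lo y (fun n => Lam n) n * f n‖ ≤ 600 * C3 * K * P * (A + B) := by
    have yx : y ≤ X ^ (1 / 3 : ℝ) :=
      mul_le_of_le_one_right (by positivity) (Real.rpow_le_one_of_one_le_of_nonpos t1 (by norm_num))
    have cd := (h3 (X ^ (1 / 3 : ℝ)) ((PS (X ^ 2)).filter fun n => N n ≤ y) (Real.one_le_rpow xo (by norm_num))
      fun n hn => ⟨(mem_PS.1 (mem_filter.1 hn).1).1, (mem_filter.1 hn).2.trans yx⟩).2.2.2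
    have e : ∑ n ∈ PS (X ^ 2), lo y (fun n => Lam n) n * f n =
        ∑ n ∈ (PS (X ^ 2)).filter fun n => N n ≤ y, Lam n * f n := by
      rw [sum_filter]
      refine sum_congr rfl fun n _ => ?_
      unfold lo; split_ifs <;> simp
    rw [e]
    refine (norm_sum_le_of_le _ (n := fun _ => 2 * L * K) fun n hn => ?_).trans ?_
    · have m := (mem_filter.1 hn).1
      have m' := mem_PS.1 m
      rw [norm_mul, nL]
      refine mul_le_mul ((Lam_le m'.1).trans (lg n m)) ?_ (norm_nonneg _) L0.le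
      rw [hf, ff, if_pos m'.2, norm_mul, Complex.norm_real, Real.norm_eq_abs]
      have d := (hK T t1).1.dec (N n / X) (div_pos (zero_lt_one.trans_le (N1 m'.1)) x0)
      have d2 : Real.exp (-(T * Real.log (N n / X)) ^ 2 / 2) ≤ 1 :=
        Real.exp_le_one_iff.2 (by nlinarith [sq_nonneg (T * Real.log (N n / X))])
      calc _ ≤ 1 * (K * 1) := mul_le_mul (hG.2.1 n m'.1) (d.trans (by gcongr)) (abs_nonneg _) zero_le_one
        _ = K := by ring
    · rw [sum_const, nsmul_eq_mul]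
      have u : X ^ (1 / 3 : ℝ) * X ^ (1 / 300 : ℝ) ≤ P * B := by
        rw [hP, hB, ← Real.rpow_add x0, ← Real.rpow_add x0]
        exact Real.rpow_le_rpow_of_exponent_le xo (by norm_num)
      calc _ ≤ C3 * X ^ (1 / 3 : ℝ) * (2 * (300 * X ^ (1 / 300 : ℝ)) * K) :=
            mul_le_mul cd (by gcongr) (by positivity) (by positivity)
        _ = 600 * C3 * K * (X ^ (1 / 3 : ℝ) * X ^ (1 / 300 : ℝ)) := by ring
        _ ≤ 600 * C3 * K * (P * (A + B)) :=
            mul_le_mul_of_nonneg_left (u.trans (by gcongr; linarith)) (by positivity)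
        _ = _ := by ring
  -- term 2
  have T2 : ‖∑ a ∈ PS (X ^ 2), lo y mu a * ∑ b ∈ PS (X ^ 2), Real.log (N b) * f (a * b)‖ ≤ C1 * P * (A + B) := by
    refine (h1 X T (lo y mu) x1 hT (fun r => (lo_le _ _ _).trans (b8.mu_le r)) fun r hr => ?_).2.trans ?_
    · by_contra k; exact hr (if_neg k)
    · gcongr
  -- term 3
  have T3 : ‖∑ a ∈ PS (X ^ 2), lo y mu a * ∑ b ∈ PS (X ^ 2), lo y (fun n => Lam n) b *
      ∑ c ∈ PS (X ^ 2), f (a * b * c)‖ ≤ (600 * C1 + 600 * C2) * P * (A + B) := by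
    rw [conv2 (X ^ 2) (lo y mu) (lo y fun n => Lam n) (fun r => ∑ c ∈ PS (X ^ 2), f (r * c))
      fun n hn => sum_eq_zero fun c _ => by rw [mul_comm, fm c n hn]]
    set a := al (X ^ 2) (lo y mu) (lo y fun n => Lam n) with ha
    have ab : ∀ r ∈ PS (X ^ 2), ‖a r / (2 * L : ℝ)‖ ≤ 1 := fun r hr => nd _
      ((al_le _ _ _ (fun r => (lo_le _ _ _).trans (b8.mu_le r))
        (fun b => (lo_le _ _ _).trans (nL b).le) (mem_PS.1 hr).1).trans (lg r hr))
    have u1 := (h1 X T (fun r => if r ∈ PS (X ^ 2) ∧ N r ≤ y then a r / (2 * L : ℝ) else 0) x1 hT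
      (fun r => by
        split_ifs with k
        · exact ab r k.1
        · simp) fun r hr => by
        by_contra k; exact hr (if_neg fun z => k z.2)).1
    have u2 := h2 X T (fun r => if r ∈ PS (X ^ 2) ∧ ¬ N r ≤ y then a r / (2 * L : ℝ) else 0) (fun _ => 1) x2 hT
      (fun r _ => by
        split_ifs with k
        · exact ab r k.1
        · simp) (fun _ _ => by simp) (fun r _ hr => by
        by_contra k; exact hr (if_neg fun z => k (not_le.1 z.2)))
      (Or.inl fun r _ hr => al_supp (X ^ 2) y mu (fun n => Lam n) fun z => hr (by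
        rw [← ha] at z; simp [z]))
    have e : ∑ r ∈ PS (X ^ 2), a r * ∑ c ∈ PS (X ^ 2), f (r * c) = (2 * L : ℝ) *
        ((∑ r ∈ PS (X ^ 2), (if r ∈ PS (X ^ 2) ∧ N r ≤ y then a r / (2 * L : ℝ) else 0) *
          ∑ c ∈ PS (X ^ 2), f (r * c)) +
        ∑ r ∈ PS (X ^ 2), (if r ∈ PS (X ^ 2) ∧ ¬ N r ≤ y then a r / (2 * L : ℝ) else 0) *
          ∑ c ∈ PS (X ^ 2), 1 * f (r * c)) := by
      rw [← sum_add_distrib, mul_sum]
      refine sum_congr rfl fun r hr => ?_
      simp only [one_mul, hr, true_and]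
      by_cases k : N r ≤ y
      · rw [if_pos k, if_neg (not_not.2 k)]; field_simp; ring
      · rw [if_neg k, if_pos k]; field_simp; ring
    rw [e, norm_mul, Complex.norm_real, Real.norm_of_nonneg L0.le]
    refine (mul_le_mul_of_nonneg_left ((norm_add_le _ _).trans (add_le_add u1 u2)) L0.le).trans ?_
    calc _ = 2 * C1 * P * (L * (L ^ 2 / T + X ^ (-1 / 150 : ℝ))) +
          2 * C2 * P * (L * (L ^ 5 * T ^ (-1 / 10 : ℝ) + X ^ (-1 / 150 : ℝ))) := by ring
      _ ≤ 2 * C1 * P * (300 * (A + B)) + 2 * C2 * P * (300 * (A + B)) := by gcongr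
      _ = _ := by ring
  -- term 4
  have T4 : ‖∑ a ∈ PS (X ^ 2), hi y mu a * ∑ b ∈ PS (X ^ 2), hi y (fun n => Lam n) b *
      ∑ c ∈ PS (X ^ 2), f (a * b * c)‖ ≤ 600 * C2 * P * (A + B) := by
    set be : O → ℂ := fun m => ∑ d ∈ Vau.dv m, hi y (fun n => Lam n) d with hbe
    have u2 := h2 X T (hi y mu) (fun m => if m ∈ PS (X ^ 2) then be m / (2 * L : ℝ) else 0) x2 hT
      (fun r _ => (hi_le _ _ _).trans (b8.mu_le r)) (fun m hm => by
        split_ifs with k
        · refine nd _ (((norm_sum_le_of_le _ fun d _ => (hi_le y (fun n => Lam n) d).trans (nL d).le).trans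
            (sum_Lam hm).le).trans (lg m k))
        · simp) (fun r _ hr => by
        by_contra k; exact hr (if_pos (not_lt.1 k)))
      (Or.inr fun m hm h => by
        have : be m ≠ 0 := fun z => h (by simp [z])
        obtain ⟨d, hd, hd'⟩ := exists_ne_zero_of_sum_ne_zero this
        have m0 := bas.b2.ne m hm
        have : ¬ N d ≤ y := fun k => hd' (if_pos k)
        exact (not_le.1 this).trans_le (N_dvd m0 ((mem_dv m0).1 hd).2))
    have e : ∑ a ∈ PS (X ^ 2), hi y mu a * ∑ b ∈ PS (X ^ 2), hi y (fun n => Lam n) b *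
        ∑ c ∈ PS (X ^ 2), f (a * b * c) = (2 * L : ℝ) * ∑ a ∈ PS (X ^ 2), hi y mu a *
          ∑ m ∈ PS (X ^ 2), (if m ∈ PS (X ^ 2) then be m / (2 * L : ℝ) else 0) * f (a * m) := by
      rw [mul_sum]
      refine sum_congr rfl fun a _ => ?_
      have cv := conv (X := X ^ 2) (hi y fun n => Lam n) (fun n => f (a * n)) (fm a)
      simp only [mul_sum, mul_assoc a] at cv ⊢
      rw [← mul_sum, ← mul_sum]
      simp only [← mul_sum] at cv ⊢
      rw [cv, mul_left_comm, mul_sum, mul_sum, mul_sum]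
      refine sum_congr rfl fun m hm => ?_
      rw [if_pos hm]; simp only [hbe]; field_simp
    rw [e, norm_mul, Complex.norm_real, Real.norm_of_nonneg L0.le]
    refine (mul_le_mul_of_nonneg_left u2 L0.le).trans ?_
    calc _ = 2 * C2 * P * (L * (L ^ 5 * T ^ (-1 / 10 : ℝ) + X ^ (-1 / 150 : ℝ))) := by ring
      _ ≤ 2 * C2 * P * (300 * (A + B)) := by gcongr
      _ = _ := by ring
  rw [vaughan (one_le_pow₀ xo) y y f f0 fz]
  refine (norm_add_le _ _).trans ((add_le_add ((norm_sub_le _ _).trans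
    (add_le_add ((norm_add_le _ _).trans (add_le_add T1 T2)) T3)) T4).trans (le_of_eq ?_))
  ring

end Vale.Agent.P006.S
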