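import Vale.Agent.P006.S2

/-! P006 branch S, row VI. -/

noncomputable section
open Complex MeasureTheory
open scoped Classical ComplexConjugate

namespace Vale.Agent.P006.S
open Vale.Agent.P026

namespace VIM

theorem key (hD : DIVStmt) : ∃ C : ℝ, 0 ≤ C ∧ ∀ (X T : ℝ) (S : Finset O), Real.exp 8 ≤ X → RT X T →
    (∀ r ∈ S, Prim r ∧ N r ≤ yy X T) →
    Real.log X * ∑ r ∈ S, EI (1 / 200) X T r ≤
      C * X ^ (5 / 6 : ℝ) * (Real.log X ^ 2 / T + X ^ (-1 / 150 : ℝ)) := by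
  obtain ⟨C, C0, hC⟩ := hD
  refine ⟨C * (2 * 480 ^ 2), by positivity, fun X T S hX hR hS => ?_⟩
  have X1 : 1 ≤ X := le_trans (Real.one_le_exp (by norm_num)) hX
  have X0 : 0 < X := by linarith
  have L8 : 8 ≤ Real.log X := (Real.le_log_iff_exp_le X0).2 hX
  have T1 : 1 ≤ T := by nlinarith [hR.1]
  have T0 : 0 < T := by linarith
  by_cases hy : 1 ≤ yy X T
  swap
  · have : S = ∅ := Finset.eq_empty_of_forall_notMem fun r hr =>
      hy ((Vau.N1 (hS r hr).1).trans (hS r hr).2)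
    rw [this, Finset.sum_empty, mul_zero]
    positivity
  obtain ⟨-, d1, d2, d3⟩ := hC (yy X T) S hy hS
  have y3 : yy X T ≤ X ^ (1 / 3 : ℝ) :=
    mul_le_of_le_one_right (by positivity) (Real.rpow_le_one_of_one_le_of_nonpos T1 (by norm_num))
  have yX : yy X T ≤ X := by
    refine y3.trans ?_
    simpa using Real.rpow_le_rpow_of_exponent_le X1 (show (1 / 3 : ℝ) ≤ 1 by norm_num)
  have ly : Real.log (yy X T) ≤ Real.log X := Real.log_le_log (by linarith) yX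
  have e : ∑ r ∈ S, EI (1 / 200) X T r = X ^ (5 / 6 : ℝ) / T * ∑ r ∈ S, (N r)⁻¹ +
      X ^ (1 / 2 + 1 / 200 : ℝ) * T ^ (1 + 1 / 200 : ℝ) * ∑ r ∈ S, N r ^ (-1 / 4 : ℝ) + S.card := by
    rw [Finset.mul_sum, Finset.mul_sum, Finset.card_eq_sum_ones, Nat.cast_sum,
      ← Finset.sum_add_distrib, ← Finset.sum_add_distrib]
    refine Finset.sum_congr rfl fun r _ => ?_
    unfold EI
    push_cast
    ring
  have e2 : X ^ (1 / 2 + 1 / 200 : ℝ) * T ^ (1 + 1 / 200 : ℝ) * yy X T ^ (3 / 4 : ℝ) =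
      X ^ (151 / 200 : ℝ) * T ^ (81 / 200 : ℝ) := by
    rw [yy, Real.mul_rpow (by positivity) (by positivity), ← Real.rpow_mul X0.le,
      ← Real.rpow_mul T0.le, mul_mul_mul_comm, ← Real.rpow_add X0, ← Real.rpow_add T0]
    norm_num
  have t1 : T ^ (81 / 200 : ℝ) ≤ X ^ (27 / 400 : ℝ) * Real.log X := by
    refine (Real.rpow_le_rpow T0.le hR.2 (by norm_num)).trans ?_
    rw [Real.mul_rpow (by positivity) (by positivity), ← Real.rpow_mul X0.le,
      ← Real.rpow_natCast, ← Real.rpow_mul (by linarith)]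
    refine mul_le_mul (le_of_eq (by norm_num)) ?_ (by positivity) (by positivity)
    simpa using Real.rpow_le_rpow_of_exponent_le (show 1 ≤ Real.log X by linarith)
      (show ((2 : ℕ) : ℝ) * (81 / 200) ≤ 1 by norm_num)
  have t2 : X ^ (151 / 200 : ℝ) * T ^ (81 / 200 : ℝ) ≤ X ^ (329 / 400 : ℝ) * Real.log X := by
    refine (mul_le_mul_of_nonneg_left t1 (by positivity)).trans_eq ?_
    rw [← mul_assoc, ← Real.rpow_add X0]
    norm_num
  have t3 : yy X T ≤ X ^ (329 / 400 : ℝ) * Real.log X :=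
    (y3.trans (Real.rpow_le_rpow_of_exponent_le X1 (by norm_num))).trans
      (le_mul_of_one_le_right (by positivity) (by linarith))
  have t4 : Real.log X ≤ 480 * X ^ (1 / 480 : ℝ) := by
    have := Real.log_le_rpow_div X0.le (show (0 : ℝ) < 1 / 480 by norm_num)
    linarith
  have t5 : X ^ (329 / 400 : ℝ) * Real.log X ^ 2 ≤
      480 ^ 2 * (X ^ (5 / 6 : ℝ) * X ^ (-1 / 150 : ℝ)) := by
    calc _ ≤ X ^ (329 / 400 : ℝ) * (480 * X ^ (1 / 480 : ℝ)) ^ 2 := by gcongr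
      _ = 480 ^ 2 * (X ^ (329 / 400 : ℝ) * X ^ (1 / 480 : ℝ) * X ^ (1 / 480 : ℝ)) := by ring
      _ = _ := by
        rw [← Real.rpow_add X0, ← Real.rpow_add X0, ← Real.rpow_add X0]
        norm_num
  have s1 : X ^ (5 / 6 : ℝ) / T * ∑ r ∈ S, (N r)⁻¹ ≤
      X ^ (5 / 6 : ℝ) / T * (C * (2 * Real.log X)) := by
    refine mul_le_mul_of_nonneg_left (d1.trans ?_) (by positivity)
    exact mul_le_mul_of_nonneg_left (by linarith) C0
  have s2 : X ^ (1 / 2 + 1 / 200 : ℝ) * T ^ (1 + 1 / 200 : ℝ) * ∑ r ∈ S, N r ^ (-1 / 4 : ℝ) ≤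
      C * (X ^ (329 / 400 : ℝ) * Real.log X) := by
    refine (mul_le_mul_of_nonneg_left d2 (by positivity)).trans ?_
    rw [mul_left_comm, e2]
    exact mul_le_mul_of_nonneg_left t2 C0
  have s3 : (S.card : ℝ) ≤ C * (X ^ (329 / 400 : ℝ) * Real.log X) :=
    d3.trans (mul_le_mul_of_nonneg_left t3 C0)
  have s4 := mul_le_mul_of_nonneg_left t5 C0
  have s5 : 0 ≤ C * (X ^ (5 / 6 : ℝ) * (Real.log X ^ 2 / T)) := by positivity
  calc _ ≤ Real.log X * (X ^ (5 / 6 : ℝ) / T * (C * (2 * Real.log X)) +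
        C * (X ^ (329 / 400 : ℝ) * Real.log X) + C * (X ^ (329 / 400 : ℝ) * Real.log X)) := by
        rw [e]
        exact mul_le_mul_of_nonneg_left (add_le_add (add_le_add s1 s2) s3) (by linarith)
    _ = 2 * (C * (X ^ (5 / 6 : ℝ) * (Real.log X ^ 2 / T))) +
        2 * (C * (X ^ (329 / 400 : ℝ) * Real.log X ^ 2)) := by ring
    _ ≤ _ := by nlinarith

theorem red (s : Finset O) (c F : O → ℂ) (g : O → ℝ) (hc : ∀ r, ‖c r‖ ≤ 1)
    (h : ∀ r ∈ s, c r ≠ 0 → ‖F r‖ ≤ g r) :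
    ‖∑ r ∈ s, c r * F r‖ ≤ ∑ r ∈ s.filter (fun r => c r ≠ 0), g r := by
  rw [← Finset.sum_filter_of_ne (p := fun r => c r ≠ 0) fun r _ k => left_ne_zero_of_mul k]
  refine (norm_sum_le _ _).trans (Finset.sum_le_sum fun r hr => ?_)
  rw [Finset.mem_filter] at hr
  rw [norm_mul]
  exact (mul_le_of_le_one_left (norm_nonneg _) (hc r)).trans (h r hr.1 hr.2)

end VIM

theorem viS (hT : TI2Stmt) (hD : DIVStmt) : VIStmt := by
  obtain ⟨C, C0, hC⟩ := VIM.key hD
  obtain ⟨C1, C10, h1⟩ := hT (1 / 200) (by norm_num) (by norm_num)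
  refine ⟨C1 * C, Real.exp 8, by positivity, fun X T c hX hR hc hs => ?_⟩
  have X1 : 1 ≤ X := le_trans (Real.one_le_exp (by norm_num)) hX
  have X0 : 0 < X := by linarith
  have L8 : 8 ≤ Real.log X := (Real.le_log_iff_exp_le X0).2 hX
  have T1 : 1 ≤ T := by nlinarith [hR.1]
  have yX : yy X T ≤ X := by
    refine (mul_le_of_le_one_right (by positivity)
      (Real.rpow_le_one_of_one_le_of_nonpos T1 (by norm_num))).trans ?_
    simpa using Real.rpow_le_rpow_of_exponent_le X1 (show (1 / 3 : ℝ) ≤ 1 by norm_num)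
  have k := mul_le_mul_of_nonneg_left (hC X T ((Vau.PS (X ^ 2)).filter fun r => c r ≠ 0) hX hR
    fun r hr => ⟨(Vau.mem_PS.1 (Finset.mem_filter.1 hr).1).1, hs r (Finset.mem_filter.1 hr).2⟩) C10
  have b := fun r (hr : r ∈ Vau.PS (X ^ 2)) (h0 : c r ≠ 0) =>
    h1 X T r hX T1 (Vau.mem_PS.1 hr).1 ((hs r h0).trans yX)
  constructor
  · refine (VIM.red _ c _ (fun r => C1 * Real.log X * EI (1 / 200) X T r) hc fun r hr h0 => ?_).trans ?_
    · have b1 := (b r hr h0).1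
      have b2 := (norm_nonneg _).trans b1
      nlinarith
    · rw [← Finset.mul_sum]
      linarith
  · refine (VIM.red _ c _ (fun r => C1 * Real.log X * EI (1 / 200) X T r) hc
      fun r hr h0 => (b r hr h0).2).trans ?_
    rw [← Finset.mul_sum]
    linarith

end Vale.Agent.P006.S
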