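import Vale.Agent.P006.S2

/-! P006 row VII: type II sums. -/

noncomputable section
open Complex MeasureTheory
open scoped Classical ComplexConjugate

namespace Vale.Agent.P006.S
open Vale.Agent.P026 W1

namespace VIIM

theorem num {X T : ℝ} (X1 : 1 ≤ X) (hL : 32 ≤ Real.log X) (T0 : 1 ≤ T) :
    Real.log X ^ 8 * X * (2 * X / yy X T / T + X ^ (2 / 3 : ℝ) *
      min (T / (4 * Real.log X)) ((X / 10) ^ (1 / 20 : ℝ)) ^ (-1 / 3 : ℝ)) ≤
    10 * 2400 ^ 8 * (X ^ (5 / 6 : ℝ) * (Real.log X ^ 5 * T ^ (-1 / 10 : ℝ) + X ^ (-1 / 150 : ℝ))) ^ 2 := by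
  have X0 : 0 < X := by linarith
  have T' : 0 < T := by linarith
  have l := Real.log_le_rpow_div X0.le (show (0 : ℝ) < 1 / 2400 by norm_num)
  generalize Real.log X = L at *
  have L0 : 0 < L := by linarith
  have sq : ∀ (x a b : ℝ), 0 < x → b = a * 2 → (x ^ a) ^ 2 = x ^ b := fun x a b h e => by
    rw [← Real.rpow_natCast, ← Real.rpow_mul h.le, e]
    norm_num
  have e1 : 2 * X / yy X T / T = X ^ (2 / 3 : ℝ) * (2 * T ^ (-1 / 5 : ℝ)) := by
    have a : X = X ^ (2 / 3 : ℝ) * X ^ (1 / 3 : ℝ) := by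
      rw [← Real.rpow_add X0]
      norm_num
    have b : T ^ (-1 / 5 : ℝ) * (T ^ (-4 / 5 : ℝ) * T) = 1 := by
      rw [← Real.rpow_add_one T'.ne', ← Real.rpow_add T']
      norm_num
    rw [yy, div_div, div_eq_iff (by positivity)]
    linear_combination 2 * a - 2 * X ^ (2 / 3 : ℝ) * X ^ (1 / 3 : ℝ) * b
  have e2 : (X ^ (5 / 6 : ℝ)) ^ 2 = X * X ^ (2 / 3 : ℝ) := by
    rw [sq X _ (1 + 2 / 3) X0 (by norm_num), Real.rpow_add X0, Real.rpow_one]
  have m1 : (T / (4 * L)) ^ (-1 / 3 : ℝ) ≤ 4 * L * T ^ (-1 / 5 : ℝ) := by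
    rw [Real.div_rpow T'.le (by positivity), div_eq_inv_mul, ← Real.rpow_neg (by positivity)]
    refine mul_le_mul ?_ (Real.rpow_le_rpow_of_exponent_le T0 (by norm_num)) (by positivity) (by positivity)
    exact Real.rpow_le_self_of_one_le (by linarith) (by norm_num)
  have m2 : L ^ 8 * ((X / 10) ^ (1 / 20 : ℝ)) ^ (-1 / 3 : ℝ) ≤ 10 * 2400 ^ 8 * X ^ (-1 / 75 : ℝ) := by
    rw [← Real.rpow_mul (by positivity), Real.div_rpow X0.le (by norm_num), div_eq_inv_mul,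
      ← Real.rpow_neg (by norm_num), show (-1 / 75 : ℝ) = 1 / 2400 * (8 : ℕ) + 1 / 20 * (-1 / 3) by norm_num,
      Real.rpow_add X0, Real.rpow_mul_natCast X0.le]
    have a : (10 : ℝ) ^ (-(1 / 20 * (-1 / 3)) : ℝ) ≤ 10 := Real.rpow_le_self_of_one_le (by norm_num) (by norm_num)
    have b : L ^ 8 ≤ (2400 * X ^ (1 / 2400 : ℝ)) ^ 8 := pow_le_pow_left₀ L0.le (by linarith) 8
    calc _ ≤ (2400 * X ^ (1 / 2400 : ℝ)) ^ 8 * (10 * X ^ (1 / 20 * (-1 / 3) : ℝ)) := by gcongr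
      _ = _ := by ring
  have m : min (T / (4 * L)) ((X / 10) ^ (1 / 20 : ℝ)) ^ (-1 / 3 : ℝ) ≤
      (T / (4 * L)) ^ (-1 / 3 : ℝ) + ((X / 10) ^ (1 / 20 : ℝ)) ^ (-1 / 3 : ℝ) := by
    rcases min_choice (T / (4 * L)) ((X / 10) ^ (1 / 20 : ℝ)) with h | h <;> rw [h]
    · exact le_add_of_nonneg_right (by positivity)
    · exact le_add_of_nonneg_left (by positivity)
  rw [e1, mul_pow, e2, add_sq, mul_pow, sq T _ (-1 / 5) T' (by norm_num), sq X _ (-1 / 75) X0 (by norm_num)]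
  have p : 0 ≤ 2 * (L ^ 5 * T ^ (-1 / 10 : ℝ)) * X ^ (-1 / 150 : ℝ) := by positivity
  have t : 0 < T ^ (-1 / 5 : ℝ) := by positivity
  have q : L ^ 8 * (2 + 4 * L) ≤ 10 * 2400 ^ 8 * (L ^ 5) ^ 2 := by
    rw [show 10 * 2400 ^ 8 * (L ^ 5) ^ 2 = L ^ 8 * (10 * 2400 ^ 8 * L ^ 2) by ring]
    gcongr
    nlinarith
  have q' := mul_le_mul_of_nonneg_right q t.le
  have m' := mul_le_mul_of_nonneg_left (m.trans (add_le_add_left m1 _)) (show 0 ≤ L ^ 8 by positivity)
  calc _ = X * X ^ (2 / 3 : ℝ) * (L ^ 8 * (2 * T ^ (-1 / 5 : ℝ)) +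
        L ^ 8 * min (T / (4 * L)) ((X / 10) ^ (1 / 20 : ℝ)) ^ (-1 / 3 : ℝ)) := by ring
    _ ≤ X * X ^ (2 / 3 : ℝ) * (10 * 2400 ^ 8 * ((L ^ 5) ^ 2 * T ^ (-1 / 5 : ℝ) +
        2 * (L ^ 5 * T ^ (-1 / 10 : ℝ)) * X ^ (-1 / 150 : ℝ) + X ^ (-1 / 75 : ℝ))) := by
        gcongr
        linarith
    _ = _ := by ring

end VIIM

theorem viiS (hI : BILStmt) (hD : DIVStmt) (hM : BMStmt) (hG : G0Stmt) : VIIStmt := by
  obtain ⟨C, C0, hC⟩ := hI
  obtain ⟨D, D0, hD⟩ := hD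
  obtain ⟨K, K0, hK⟩ := hM
  refine ⟨Real.sqrt (C * D ^ 2 * (81 * (10 * 2400 ^ 8))) + D ^ 2 * K, Real.exp 32 + 10 * 8 ^ 20, by positivity,
    fun X T α β hX ⟨T1, _⟩ hα hβ a1 a2 => ?_⟩
  have e0 := Real.exp_pos 32
  have X1 : Real.exp 32 ≤ X := by linarith
  have X0 : 0 < X := by linarith
  have X2 : 1 ≤ X := by linarith
  have hL : 32 ≤ Real.log X := (Real.le_log_iff_exp_le X0).2 X1
  have T0 : 1 ≤ T := by nlinarith
  have y0 : 0 < yy X T := by
    unfold yy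
    positivity
  have Y1 : 1 ≤ X ^ 2 := one_le_pow₀ X2
  obtain ⟨F, hF⟩ : ∃ F : (O → ℂ) → Finset O,
    F = fun α => (Vau.PS (X ^ 2)).filter fun a => Squarefree a ∧ α a ≠ 0 := ⟨_, rfl⟩
  have mF : ∀ α, ∀ a ∈ F α, (SP a ∧ N a ≤ X ^ 2) ∧ α a ≠ 0 := fun α a ha => by
    simp only [hF, Finset.mem_filter, Vau.mem_PS] at ha
    exact ⟨⟨⟨ha.1.1, ha.2.1⟩, ha.1.2⟩, ha.2.2⟩
  have dF := fun α => hD (X ^ 2) (F α) Y1 fun a ha => ⟨(mF α a ha).1.1.1, (mF α a ha).1.2⟩
  have nF : ∀ α : O → ℂ, (∀ a, Prim a → ‖α a‖ ≤ 1) → ∀ a ∈ F α, ‖α a * g0 a‖ ≤ 1 := fun α h a ha => by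
    rw [norm_mul]
    exact mul_le_one₀ (h a (mF α a ha).1.1.1) (norm_nonneg _) (hG.2.1 a (mF α a ha).1.1.1)
  have sF : ∀ α : O → ℂ, (∀ a, Prim a → ‖α a‖ ≤ 1) →
      ∑ a ∈ F α, ‖α a * g0 a‖ ^ 2 * tau a / N a ≤ D * (3 * Real.log X) ^ 2 := fun α h => by
    refine le_trans (Finset.sum_le_sum fun a ha => ?_) ((dF α).1.trans ?_)
    · exact div_le_div_of_nonneg_right (mul_le_of_le_one_left (Nat.cast_nonneg _)
        (pow_le_one₀ (norm_nonneg _) (nF α h a ha))) (Vau.N0 a)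
    · rw [Real.log_pow]
      gcongr
      push_cast
      linarith
  have zF : ∀ (α f : O → ℂ), ∑ a ∈ Vau.PS (X ^ 2), α a * g0 a * f a = ∑ a ∈ F α, α a * g0 a * f a := fun α f => by
    rw [hF]
    refine (Finset.sum_filter_of_ne (p := fun a => Squarefree a ∧ α a ≠ 0) fun a _ h => ?_).symm
    exact ⟨hG.2.2.1 a (right_ne_zero_of_mul (left_ne_zero_of_mul h)), left_ne_zero_of_mul (left_ne_zero_of_mul h)⟩
  have e : ∑ a ∈ Vau.PS (X ^ 2), α a * ∑ b ∈ Vau.PS (X ^ 2), β b * ff X T (a * b) =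
      ∑ a ∈ F α, ∑ b ∈ F β, α a * g0 a * (β b * g0 b) * cub a b * bT T (N a * N b / X) -
      ∑ a ∈ F α, ∑ b ∈ F β, if N a * N b ≤ X ^ 2 then 0 else
        α a * g0 a * (β b * g0 b) * cub a b * bT T (N a * N b / X) := by
    rw [Finset.sum_congr (g := fun a => α a * g0 a * ∑ b ∈ F β, β b * g0 b *
      if N a * N b ≤ X ^ 2 then cub a b * bT T (N a * N b / X) else 0) rfl fun a ha => ?_, zF,
      ← Finset.sum_sub_distrib]
    · refine Finset.sum_congr rfl fun a _ => ?_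
      rw [← Finset.sum_sub_distrib, Finset.mul_sum]
      refine Finset.sum_congr rfl fun b _ => ?_
      split_ifs <;> ring
    · rw [← zF, mul_assoc, Finset.mul_sum _ _ (g0 a)]
      congr 1
      refine Finset.sum_congr rfl fun b hb => ?_
      rw [ff, hG.1 a b (Vau.mem_PS.1 ha).1 (Vau.mem_PS.1 hb).1, bas.b1.N_mul]
      split_ifs <;> ring
  have tl : ‖∑ a ∈ F α, ∑ b ∈ F β, if N a * N b ≤ X ^ 2 then 0 else
      α a * g0 a * (β b * g0 b) * cub a b * bT T (N a * N b / X)‖ ≤ D ^ 2 * K := by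
    refine (norm_sum_le_of_le _ (n := fun _ => D * X ^ 2 * (K / X ^ 4)) fun a ha => ?_).trans ?_
    · refine (norm_sum_le_of_le _ (n := fun _ => K / X ^ 4) fun b hb => ?_).trans ?_
      · split_ifs with c
        · rw [norm_zero]
          positivity
        have x : X ≤ N a * N b / X := by
          rw [le_div_iff₀ X0]
          nlinarith
        have l := Real.log_le_log X0 x
        rw [norm_mul, norm_mul, norm_mul, norm_real]
        refine (mul_le_of_le_one_left (norm_nonneg _) (mul_le_one₀ (mul_le_one₀ (nF α hα a ha) (norm_nonneg _)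
          (nF β hβ b hb)) (norm_nonneg _) (bas.b6.norm_le _ _))).trans
          (((hK T T0).1.dec _ (X0.trans_le x)).trans ?_)
        have x4 : X ^ 4 = Real.exp ((4 : ℕ) * Real.log X) := by rw [Real.exp_nat_mul, Real.exp_log X0]
        rw [x4, div_eq_mul_inv K, ← Real.exp_neg]
        gcongr
        have : Real.log X ≤ T * Real.log (N a * N b / X) := by nlinarith
        push_cast
        nlinarith
      · rw [Finset.sum_const, nsmul_eq_mul]
        gcongr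
        exact (dF β).2.2.2
    · rw [Finset.sum_const, nsmul_eq_mul]
      refine (mul_le_mul_of_nonneg_right (dF α).2.2.2 (by positivity)).trans_eq ?_
      field_simp
  have y3 : yy X T ^ 2 * yy X T ≤ 2 * X := by
    have : T ^ (-4 / 5 : ℝ) ≤ 1 := Real.rpow_le_one_of_one_le_of_nonpos T0 (by norm_num)
    have b : yy X T ^ 3 ≤ (X ^ (1 / 3 : ℝ)) ^ 3 :=
      pow_le_pow_left₀ y0.le (mul_le_of_le_one_right (by positivity) this) 3
    rw [← Real.rpow_natCast (X ^ _), ← Real.rpow_mul X0.le] at b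
    norm_num at b
    linarith
  have mn := hC X T (min (T / (4 * Real.log X)) ((X / 10) ^ (1 / 20 : ℝ))) (2 * X / yy X T) (F α) (F β)
    (fun a => α a * g0 a) (fun a => β a * g0 a) ((Real.exp_le_exp.2 (by norm_num)).trans X1)
    (le_min (by rw [le_div_iff₀ (by positivity)]; nlinarith) (by
      rw [one_div, Real.le_rpow_inv_iff_of_pos (by norm_num) (by positivity) (by norm_num)]
      norm_num at hX ⊢
      linarith))
    (by rw [mul_comm, ← le_div_iff₀ (by positivity)]; exact min_le_left _ _)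
    (by
      rw [mul_comm, ← le_div_iff₀ (by norm_num)]
      refine (pow_le_pow_left₀ (by positivity) (min_le_right _ _) 20).trans_eq ?_
      rw [← Real.rpow_natCast, ← Real.rpow_mul (by positivity)]
      norm_num)
    (by positivity) (fun a ha => (mF α a ha).1) (fun a ha => (mF β a ha).1) fun a ha b hb _ h => by
      have pa := (mF α a ha).1.1.1
      have pb := (mF β b hb).1.1.1
      have := a1 a pa (mF α a ha).2
      rw [le_div_iff₀ y0, le_div_iff₀ y0]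
      refine ⟨?_, by nlinarith [Vau.N0 b]⟩
      rcases a2 with c | c
      · nlinarith [c a pa (mF α a ha).2]
      · nlinarith [c b pb (mF β b hb).2, Vau.N0 a]
  have q : 1 ≤ X ^ (5 / 6 : ℝ) * (Real.log X ^ 5 * T ^ (-1 / 10 : ℝ) + X ^ (-1 / 150 : ℝ)) := by
    refine le_trans ?_ (mul_le_mul_of_nonneg_left (le_add_of_nonneg_left (by positivity)) (by positivity))
    rw [← Real.rpow_add X0]
    exact Real.one_le_rpow X2 (by norm_num)
  have nm := VIIM.num X2 hL T0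
  rw [e, mul_assoc, add_mul]
  refine (norm_sub_le _ _).trans (add_le_add ?_ (tl.trans (le_mul_of_one_le_right (by positivity) q)))
  refine (pow_le_pow_iff_left₀ (norm_nonneg _) (by positivity) two_ne_zero).1 (mn.trans ?_)
  rw [mul_pow, Real.sq_sqrt (by positivity)]
  calc _ ≤ C * Real.log X ^ 4 * X * (2 * X / yy X T / T + X ^ (2 / 3 : ℝ) *
        min (T / (4 * Real.log X)) ((X / 10) ^ (1 / 20 : ℝ)) ^ (-1 / 3 : ℝ)) * (D * (3 * Real.log X) ^ 2) *
        (D * (3 * Real.log X) ^ 2) := by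
        gcongr
        · exact Finset.sum_nonneg fun a _ => div_nonneg (mul_nonneg (sq_nonneg _) (Nat.cast_nonneg _)) (Vau.N0 a)
        · exact sF α hα
        · exact sF β hβ
    _ ≤ _ := by
        have := mul_le_mul_of_nonneg_left nm (show 0 ≤ C * D ^ 2 * 81 by positivity)
        linarith

end Vale.Agent.P006.S
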