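import Vale.Agent.P006.S3
import Vale.Agent.P006.Pit

/-! P006 branch S: the comparison sum. -/

noncomputable section
open Complex MeasureTheory Filter Topology
open scoped Classical ComplexConjugate

namespace Vale.Agent.P006.S
open Vale.Agent.P026
namespace CMPM

lemma filt {R : Type} [AddCommMonoid R] (X : ℝ) (hX : 1 ≤ X) (f : O → R) :
    ∑ p ∈ PP X, f p = ∑ p ∈ PP (X ^ 2), if N p ≤ X then f p else 0 := by
  rw [← Finset.sum_filter]
  refine Finset.sum_congr ?_ fun _ _ => rfl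
  ext p
  simp only [Finset.mem_filter, Z0.mem_PP]
  constructor
  · rintro ⟨h1, h2⟩
    exact ⟨⟨by nlinarith, h2⟩, h1⟩
  · rintro ⟨⟨-, h2⟩, h1⟩
    exact ⟨h1, h2⟩

lemma sub (X : ℝ) : PP X ⊆ Vau.PS X := fun _ hp =>
  Vau.mem_PS.2 ⟨(Z0.mem_PP.1 hp).2.2, (Z0.mem_PP.1 hp).1⟩

lemma pt (X T n : ℝ) (hX : 0 < X) (hn : 0 < n) (hT : 1 ≤ T) :
    n ^ (-1 / 6 : ℝ) * Real.exp (-(T * Real.log (n / X)) ^ 2) ≤
      3 * X ^ (-1 / 6 : ℝ) * Real.exp (-(T / 2 * Real.log (n / X)) ^ 2) := by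
  have e : n ^ (-1 / 6 : ℝ) = X ^ (-1 / 6 : ℝ) * Real.exp (Real.log (n / X) * (-1 / 6)) := by
    rw [← Real.rpow_def_of_pos (by positivity), ← Real.mul_rpow hX.le (by positivity)]
    congr 1
    field_simp
  generalize Real.log (n / X) = y at *
  have h3 : Real.exp 1 ≤ 3 := Real.exp_one_lt_three.le
  have h : Real.exp (y * (-1 / 6)) * Real.exp (-(T * y) ^ 2) ≤ Real.exp 1 * Real.exp (-(T / 2 * y) ^ 2) := by
    rw [← Real.exp_add, ← Real.exp_add]
    refine Real.exp_le_exp.2 ?_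
    have : y ^ 2 ≤ (T * y) ^ 2 := by
      rw [mul_pow]
      exact le_mul_of_one_le_left (sq_nonneg _) (one_le_pow₀ hT)
    nlinarith [sq_nonneg (y + 1)]
  have p := Real.rpow_pos_of_pos hX (-1 / 6 : ℝ)
  rw [e, mul_assoc]
  calc _ ≤ X ^ (-1 / 6 : ℝ) * (3 * Real.exp (-(T / 2 * y) ^ 2)) :=
        mul_le_mul_of_nonneg_left (h.trans (by gcongr)) p.le
    _ = _ := by ring

lemma lim (C : ℝ) : Tendsto (fun X : ℝ => C * (Real.log X / X + 2 * (Real.log X)⁻¹)) atTop (𝓝 0) := by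
  have h1 : Tendsto (fun X : ℝ => Real.log X / X) atTop (𝓝 0) :=
    Real.isLittleO_log_id_atTop.tendsto_div_nhds_zero
  have h2 := (Real.tendsto_log_atTop.inv_tendsto_atTop).const_mul 2
  simpa using (h1.add h2).const_mul C

end CMPM

open CMPM in
theorem cmpS (hC : CUTStmt) (hP : PHStmt) : CMPStmt := by
  obtain ⟨C, hC0, hC⟩ := hC
  have h1 := pit_log W1.bas PP (fun X p => by rw [Z0.mem_PP]; tauto) (σ := 1 / 6) (by norm_num)
    (by norm_num)
  have e1 : (1 : ℝ) - 1 / 6 = 5 / 6 := by norm_num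
  have e2 : (1 : ℝ) / (5 / 6) = 6 / 5 := by norm_num
  have e3 : -(1 / 6 : ℝ) = -1 / 6 := by norm_num
  rw [e1, e2, e3] at h1
  refine h1.congr_dist (squeeze_zero' (Eventually.of_forall fun _ => dist_nonneg) ?_ (lim (3 * C)))
  filter_upwards [eventually_ge_atTop 3, Real.tendsto_log_atTop.eventually_ge_atTop 2] with X hX hL
  have X0 : 0 < X := by linarith
  set T := Real.log X ^ 100 with hT
  have T2 : Real.log X ^ 2 ≤ T := pow_le_pow_right₀ (by linarith) (by norm_num)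
  have T4 : 4 ≤ T := by nlinarith
  have h2 := hC X (T / 2) hX (by linarith)
  have p5 := Real.rpow_pos_of_pos X0 (5 / 6 : ℝ)
  have p1 := Real.rpow_pos_of_pos X0 (-1 / 6 : ℝ)
  rw [Real.dist_eq, ← sub_div, abs_div, abs_of_pos p5, div_le_iff₀ p5, filt X (by linarith),
    ← Finset.sum_sub_distrib]
  refine (Finset.abs_sum_le_sum_abs _ _).trans ?_
  have h3 : ∀ p ∈ PP (X ^ 2), |(if N p ≤ X then N p ^ (-1 / 6 : ℝ) * Real.log (N p) else 0) -
      Real.log (N p) * N p ^ (-1 / 6 : ℝ) * Phi T (N p / X)| ≤ 3 * X ^ (-1 / 6 : ℝ) *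
        (Vau.Lam p * ‖g0 p‖ * Real.exp (-(T / 2 * Real.log (N p / X)) ^ 2)) := by
    intro p hp
    obtain ⟨-, hp1, hp2⟩ := Z0.mem_PP.1 hp
    have n1 := Vau.N1 hp2
    have n0 : 0 < N p := by linarith
    have l0 := Real.log_nonneg n1
    have g : ‖g0 p‖ = 1 := by
      unfold g0
      rw [if_pos hp1.squarefree, Z0.norm_gt hp2 hp1.squarefree]
    have a := hP.1 T (N p / X) (by linarith) (by positivity)
    have b := pt X T (N p) X0 n0 (by linarith)
    have q := Real.rpow_pos_of_pos n0 (-1 / 6 : ℝ)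
    have e : (if N p ≤ X then N p ^ (-1 / 6 : ℝ) * Real.log (N p) else 0) -
        Real.log (N p) * N p ^ (-1 / 6 : ℝ) * Phi T (N p / X) = Real.log (N p) * (N p ^ (-1 / 6 : ℝ) *
          ((if N p / X ≤ 1 then 1 else 0) - Phi T (N p / X))) := by
      simp only [div_le_one X0]
      split_ifs <;> ring
    rw [e, abs_mul, abs_mul, abs_of_nonneg l0, abs_of_pos q, Vau.Lam_prime hp1 hp2, g, mul_one]
    have x := Real.exp_pos (-(T * Real.log (N p / X)) ^ 2)
    calc _ ≤ Real.log (N p) * (N p ^ (-1 / 6 : ℝ) * Real.exp (-(T * Real.log (N p / X)) ^ 2)) := by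
          gcongr
          linarith
      _ ≤ Real.log (N p) * (3 * X ^ (-1 / 6 : ℝ) * Real.exp (-(T / 2 * Real.log (N p / X)) ^ 2)) :=
          mul_le_mul_of_nonneg_left b l0
      _ = _ := by ring
  refine (Finset.sum_le_sum h3).trans ?_
  rw [← Finset.mul_sum]
  have h4 := (Finset.sum_le_sum_of_subset_of_nonneg (sub (X ^ 2))
    (f := fun p => Vau.Lam p * ‖g0 p‖ * Real.exp (-(T / 2 * Real.log (N p / X)) ^ 2))
    fun p _ _ => by have := Vau.Lam_nonneg p; positivity).trans h2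
  have e5 : X ^ (5 / 6 : ℝ) = X ^ (-1 / 6 : ℝ) * X := by
    rw [← Real.rpow_add_one X0.ne']
    norm_num
  have h5 : Real.log X * (1 + X / (T / 2)) ≤ (Real.log X / X + 2 * (Real.log X)⁻¹) * X := by
    have : Real.log X * (X / (T / 2)) ≤ 2 * (Real.log X)⁻¹ * X := by
      have l0 : 0 < Real.log X := by linarith
      calc _ ≤ Real.log X * (X / (Real.log X ^ 2 / 2)) := by gcongr
        _ = _ := by field_simp
    have e : Real.log X / X * X = Real.log X := by field_simp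
    nlinarith
  calc _ ≤ 3 * X ^ (-1 / 6 : ℝ) * (C * (Real.log X * (1 + X / (T / 2)))) := by
        rw [← mul_assoc C]
        exact mul_le_mul_of_nonneg_left h4 (by positivity)
    _ ≤ 3 * X ^ (-1 / 6 : ℝ) * (C * ((Real.log X / X + 2 * (Real.log X)⁻¹) * X)) := by gcongr
    _ = _ := by rw [e5]; ring

end Vale.Agent.P006.S
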