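import Vale.Agent.P006.S.CMP

/-! P006 branch S: the sharp sum with logarithmic weight. -/

noncomputable section
open Complex MeasureTheory Filter Topology
open scoped Classical ComplexConjugate

namespace Vale.Agent.P006.S
open Vale.Agent.P026
namespace LOGM

lemma z (f : ℝ → ℂ) (h : ∀ ε : ℝ, 0 < ε → ∀ᶠ X : ℝ in atTop, ‖f X‖ ≤ ε * X ^ (5 / 6 : ℝ)) :
    Tendsto (fun X : ℝ => f X / ((X ^ (5 / 6 : ℝ) : ℝ) : ℂ)) atTop (𝓝 0) := by
  refine Asymptotics.IsLittleO.tendsto_div_nhds_zero (Asymptotics.isLittleO_iff.2 fun ε hε => ?_)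
  filter_upwards [h ε hε, eventually_ge_atTop 0] with X h1 h2
  rwa [norm_real, Real.norm_of_nonneg (by positivity)]

lemma primes (Y : ℝ) (f : O → ℂ) : ∑ n ∈ Vau.PS Y, Vau.Lam n * g0 n * f n =
    ∑ p ∈ PP Y, Real.log (N p) * gt p * f p := by
  rw [← Finset.sum_subset (CMPM.sub Y)]
  · refine Finset.sum_congr rfl fun p hp => ?_
    obtain ⟨-, hp1, hp2⟩ := Z0.mem_PP.1 hp
    unfold g0
    rw [Vau.Lam_prime hp1 hp2, if_pos hp1.squarefree]
  · intro n hn hp
    obtain ⟨h1, h2⟩ := Vau.mem_PS.1 hn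
    by_cases hl : Vau.Lam n = 0
    · simp [hl]
    obtain ⟨p, k, p1, p2, k0, rfl⟩ := Vau.Lam_ne h1 hl
    have : ¬ Squarefree (p ^ k) := by
      intro hs
      have k1 : k = 1 := by
        by_contra hk
        obtain ⟨j, rfl⟩ : ∃ j, k = j + 2 := ⟨k - 2, by omega⟩
        exact p1.not_unit (hs p ⟨p ^ j, by ring⟩)
      rw [k1, pow_one] at hp h2
      exact hp (Z0.mem_PP.2 ⟨h2, p1, p2⟩)
    unfold g0
    simp [this]

end LOGM

open LOGM in
theorem logS (h1 : SMStmt) (h2 : CMPStmt) (h3 : SEnd) : LOGStmt := by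
  have a1 := z _ h1
  have a3 := z (fun X => ∑ n ∈ Vau.PS (X ^ 2), Vau.Lam n * g0 n *
      (((if N n ≤ X then 1 else 0) - Phi (Real.log X ^ 100) (N n / X) : ℝ) : ℂ)) fun ε hε => by
    obtain ⟨X0, h⟩ := h3 ε hε
    filter_upwards [eventually_ge_atTop X0] with X hX using h X _ hX le_rfl
  have a2 := (continuous_ofReal.tendsto _).comp (h2.mul_const cst)
  have a := (a1.add a3).add a2
  rw [zero_add, zero_add] at a
  refine a.congr' ?_
  filter_upwards [eventually_ge_atTop 1] with X hX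
  simp only [Function.comp]
  rw [primes, CMPM.filt X hX, div_mul_eq_mul_div, ofReal_div, ← add_div, ← add_div, Finset.sum_mul,
    ofReal_sum, ← Finset.sum_add_distrib, ← Finset.sum_add_distrib]
  congr 1
  refine Finset.sum_congr rfl fun p hp => ?_
  unfold M.del
  rw [if_pos (Z0.mem_PP.1 hp).2.1.squarefree]
  simp only [ofReal_mul, ofReal_sub]
  split_ifs
  · rw [ofReal_one]
    ring
  · rw [ofReal_zero]
    ring

end Vale.Agent.P006.S
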