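import Vale.Agent.P006.S3
import Vale.Agent.P006.M.LOa
import Vale.Agent.P006.M.GR

/-! P006 row SSM: the smooth cutoff, all primes. -/

noncomputable section
open Complex Filter Topology Finset
open scoped Classical ComplexConjugate

namespace Vale.Agent.P006.S
open Vale.Agent.P026 W1

namespace SMM

lemma prime_of {n : O} (hn : Prim n) (h1 : Vau.Lam n ≠ 0) (h2 : Squarefree n) : Prime n := by
  obtain ⟨p, k, hp, -, hk, rfl⟩ := Vau.Lam_ne hn h1
  rcases h2.eq_zero_or_one_of_pow_of_not_isUnit hp.not_isUnit with e | rfl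
  · exact (hk e).elim
  · rwa [pow_one]

lemma main_eq {X : ℝ} (hX : 2 ≤ X) (Φ : ℝ → ℂ) :
    ∑ n ∈ Vau.PS (2 * X), (if M.Rough (M.ww X) n then (Vau.Lam n : ℂ) else 0) * M.FF X Φ n =
    ∑ p ∈ PP (X ^ 2), if N p ≤ 2 * X ∧ M.Rough (M.ww X) p then
      Real.log (N p) * M.del p * Φ (N p / X) else 0 := by
  have h2 : 2 * X ≤ X ^ 2 := by nlinarith
  have s1 : (PP (X ^ 2)).filter (fun p => N p ≤ 2 * X) ⊆ Vau.PS (2 * X) := fun p hp =>
    Vau.mem_PS.2 ⟨(Z0.mem_PP.1 (mem_filter.1 hp).1).2.2, (mem_filter.1 hp).2⟩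
  rw [← sum_subset s1, sum_filter]
  · refine sum_congr rfl fun p hp => ?_
    obtain ⟨-, a, b⟩ := Z0.mem_PP.1 hp
    rw [M.FF, Vau.Lam_prime a b]
    by_cases c : N p ≤ 2 * X <;> by_cases d : M.Rough (M.ww X) p <;> simp [c, d, mul_assoc]
  · intro n hn hn'
    obtain ⟨a, b⟩ := Vau.mem_PS.1 hn
    by_contra c
    have c1 : Vau.Lam n ≠ 0 := fun z => c (by simp [z])
    have c2 : Squarefree n := by_contra fun z => c (by simp [M.FF, M.del, z])
    exact hn' (mem_filter.2 ⟨Z0.mem_PP.2 ⟨b.trans h2, prime_of a c1 c2, a⟩, b⟩)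

lemma rest {X K : ℝ} (hX : 3 ≤ X) {Φ : ℝ → ℂ} (hW : M.Wt X K Φ) (hw : 0 ≤ M.ww X) :
    ‖∑ p ∈ PP (X ^ 2), if N p ≤ 2 * X ∧ M.Rough (M.ww X) p then 0 else
      Real.log (N p) * M.del p * Φ (N p / X)‖ ≤
      32 * (1 + cst) * (K + 1) * (Real.log X * (M.ww X + 1)) := by
  have c0 := Z1.cst_pos
  have X0 : 0 < X := by linarith
  have K0 : 0 ≤ K := (norm_nonneg _).trans (hW.le 1 one_pos)
  have l0 : 0 ≤ Real.log X := Real.log_nonneg (by linarith)
  set B := 2 * Real.log X * (1 + cst) with hB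
  have B0 : 0 ≤ B := by positivity
  have t : ∀ p ∈ PP (X ^ 2), ‖if N p ≤ 2 * X ∧ M.Rough (M.ww X) p then (0 : ℂ) else
      Real.log (N p) * M.del p * Φ (N p / X)‖ ≤
      (if N p ≤ M.ww X then B * K else 0) + B * (X ^ 2)⁻¹ := by
    intro p hp
    obtain ⟨a, b, c⟩ := Z0.mem_PP.1 hp
    have n1 := Vau.N1 c
    have h1 : ‖(Real.log (N p) : ℂ) * M.del p‖ ≤ B := by
      rw [norm_mul, norm_real, Real.norm_of_nonneg (Real.log_nonneg n1)]
      refine mul_le_mul ?_ (M.LOM.del_le c) (norm_nonneg _) (by positivity)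
      have := Real.log_le_log (by linarith) a
      rwa [Real.log_pow, Nat.cast_ofNat] at this
    have q : 0 < N p / X := by positivity
    have z1 : 0 ≤ if N p ≤ M.ww X then B * K else 0 := by split_ifs <;> positivity
    have z2 : 0 ≤ B * (X ^ 2)⁻¹ := by positivity
    by_cases d : N p ≤ 2 * X ∧ M.Rough (M.ww X) p
    · rw [if_pos d, norm_zero]; positivity
    rw [if_neg d, norm_mul]
    by_cases e : N p ≤ 2 * X
    · have f : N p ≤ M.ww X := by
        by_contra f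
        refine d ⟨e, fun r hr => ?_⟩
        rw [Vau.pf_prime b c, mem_singleton] at hr
        rw [hr]; exact not_le.1 f
      rw [if_pos f]
      exact (mul_le_mul h1 (hW.le _ q) (norm_nonneg _) B0).trans (le_add_of_nonneg_right z2)
    · have f : 2 ≤ N p / X := by rw [le_div_iff₀ X0]; exact (not_le.1 e).le
      refine (mul_le_mul h1 (hW.tail _ f) (norm_nonneg _) B0).trans
        (le_trans ?_ (le_add_of_nonneg_left z1))
      refine mul_le_mul_of_nonneg_left ?_ B0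
      have g1 := Real.rpow_le_one_of_one_le_of_nonpos (show 1 ≤ N p / X by linarith)
        (show (-3 : ℝ) ≤ 0 by norm_num)
      have g2 := Real.rpow_le_rpow_of_exponent_le (show 1 ≤ X by linarith)
        (show (-10 : ℝ) ≤ -(2 : ℕ) by norm_num)
      rw [Real.rpow_neg X0.le (2 : ℕ), Real.rpow_natCast] at g2
      exact (mul_le_of_le_one_right (by positivity) g1).trans g2
  refine (norm_sum_le _ _).trans ((sum_le_sum t).trans ?_)
  rw [sum_add_distrib, ← sum_filter, sum_const, sum_const, nsmul_eq_mul, nsmul_eq_mul]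
  have k1 := bas.b3.card_le (M.ww X) ((PP (X ^ 2)).filter fun p => N p ≤ M.ww X) hw fun p hp =>
    ⟨(Z0.mem_PP.1 (mem_filter.1 hp).1).2.1.ne_zero, (mem_filter.1 hp).2⟩
  have k2 := bas.b3.card_le (X ^ 2) (PP (X ^ 2)) (by positivity) fun p hp =>
    ⟨(Z0.mem_PP.1 hp).2.1.ne_zero, (Z0.mem_PP.1 hp).1⟩
  calc _ ≤ 16 * M.ww X * (B * K) + 16 * X ^ 2 * (B * (X ^ 2)⁻¹) := by gcongr
    _ = 16 * B * (M.ww X * K + 1) := by field_simp
    _ ≤ 16 * B * ((K + 1) * (M.ww X + 1)) := by gcongr; nlinarith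
    _ = _ := by rw [hB]; ring

end SMM

theorem smS (hM : M.MAINStmt) (hW : WTStmt) : SMStmt := by
  obtain ⟨K, hK⟩ := hW
  intro ε hε
  have t : Tendsto (fun X : ℝ => X ^ (1 / 3 : ℝ)) atTop atTop := tendsto_rpow_atTop (by norm_num)
  filter_upwards [hK, hM K (ε / 2) (by positivity), M.grS 1 (1 / 4) (by norm_num),
    t.eventually_ge_atTop (128 * (1 + cst) * (K + 1) / ε)] with X h1 h2 h3 h4
  obtain ⟨g1, -, -, -, g5, g6, g7, -, g9, g10⟩ := h3
  have X0 : 0 < X := by linarith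
  have c0 := Z1.cst_pos
  have K0 : 0 ≤ K := (norm_nonneg _).trans (h1.le 1 one_pos)
  have a := h2 _ h1
  have b := SMM.rest g1 h1 (by linarith)
  rw [SMM.main_eq (by linarith)] at a
  rw [Real.rpow_one] at g5 g6 g7
  have q1 : M.LL X ^ (1 / 4 : ℝ) ≤ M.LL X := by
    simpa using Real.rpow_le_rpow_of_exponent_le g10 (show (1 / 4 : ℝ) ≤ 1 by norm_num)
  have q2 : M.ww X ^ (1 / 4 : ℝ) ≤ M.ww X := by
    simpa using Real.rpow_le_rpow_of_exponent_le (show 1 ≤ M.ww X by linarith)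
      (show (1 / 4 : ℝ) ≤ 1 by norm_num)
  have q3 : Real.log X ≤ X ^ (1 / 4 : ℝ) := by linarith
  have q4 : Real.log X * (M.ww X + 1) ≤ X ^ (1 / 4 : ℝ) * (2 * X ^ (1 / 4 : ℝ)) :=
    mul_le_mul q3 (by linarith) (by linarith) (by positivity)
  have q5 : X ^ (5 / 6 : ℝ) = X ^ (1 / 3 : ℝ) * (X ^ (1 / 4 : ℝ) * X ^ (1 / 4 : ℝ)) := by
    rw [← Real.rpow_add X0, ← Real.rpow_add X0]; norm_num
  have q6 : 32 * (1 + cst) * (K + 1) * (Real.log X * (M.ww X + 1)) ≤ ε / 2 * X ^ (5 / 6 : ℝ) := by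
    rw [div_le_iff₀ hε] at h4
    calc _ ≤ 32 * (1 + cst) * (K + 1) * (X ^ (1 / 4 : ℝ) * (2 * X ^ (1 / 4 : ℝ))) := by gcongr
      _ = 128 * (1 + cst) * (K + 1) * (X ^ (1 / 4 : ℝ) * X ^ (1 / 4 : ℝ)) / 2 := by ring
      _ ≤ X ^ (1 / 3 : ℝ) * ε * (X ^ (1 / 4 : ℝ) * X ^ (1 / 4 : ℝ)) / 2 := by gcongr
      _ = _ := by rw [q5]; ring
  refine le_trans (le_of_eq ?_) ((norm_add_le _ _).trans (add_le_add a (b.trans q6))) |>.trans_eq
    (by ring)
  congr 1
  rw [← sum_add_distrib]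
  refine sum_congr rfl fun p _ => ?_
  split_ifs <;> simp

end Vale.Agent.P006.S
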