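import Vale.Agent.P006.S3

/-! Removal of the logarithmic weight. -/

noncomputable section
open Complex MeasureTheory Filter Topology
open scoped Classical ComplexConjugate

namespace Vale.Agent.P006.S
open Vale.Agent.P026 W1

namespace UNLM

lemma two_le {p : O} (hp : Prime p) : 2 ≤ Nn p := by
  have h1 := bas.b1.N_one_le p hp.ne_zero
  have h2 : Nn p ≠ 1 := fun h => hp.not_isUnit ((bas.b1.unit_iff p).2 h)
  have h3 : 1 ≤ Nn p := by unfold N at h1; exact_mod_cast h1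
  omega

lemma fib (g : O → ℂ) (F : ℕ → ℂ) {X : ℝ} (hX : 0 ≤ X) :
    ∑ k ∈ Finset.Icc 0 ⌊X⌋₊, F k * ∑ p ∈ (PP k).filter (fun p => Nn p = k), g p =
      ∑ p ∈ PP X, F (Nn p) * g p := by
  rw [← Finset.sum_fiberwise_of_maps_to (s := PP X) (g := Nn) (t := Finset.Icc 0 ⌊X⌋₊) (fun p hp =>
    Finset.mem_Icc.2 ⟨Nat.zero_le _, Nat.le_floor (Z0.mem_PP.1 hp).1⟩)]
  refine Finset.sum_congr rfl fun k hk => ?_
  rw [Finset.mul_sum]
  refine Finset.sum_congr ?_ fun p hp => by rw [(Finset.mem_filter.1 hp).2]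
  ext p
  simp only [Finset.mem_filter, Z0.mem_PP]
  refine and_congr_left fun h => and_congr_left fun _ => ?_
  rw [N, h]
  exact iff_of_true le_rfl ((Nat.le_floor_iff hX).1 (Finset.mem_Icc.1 hk).2)

lemma hd {t : ℝ} (ht : 2 ≤ t) : HasDerivAt (fun t : ℝ => (((Real.log t)⁻¹ : ℝ) : ℂ))
    ((-t⁻¹ / Real.log t ^ 2 : ℝ) : ℂ) t :=
  ((Real.hasDerivAt_log (by linarith)).inv (Real.log_pos (by linarith)).ne').ofReal_comp

lemma abel (g : O → ℂ) {X : ℝ} (hX : 2 ≤ X) : ∑ p ∈ PP X, g p =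
    (((Real.log X)⁻¹ : ℝ) : ℂ) * ∑ p ∈ PP X, g p * Real.log (N p) -
      ∫ t in Set.Ioc 2 X, ((-t⁻¹ / Real.log t ^ 2 : ℝ) : ℂ) * ∑ p ∈ PP t, g p * Real.log (N p) := by
  have z : ∀ k : ℕ, k < 2 → ∑ p ∈ (PP k).filter (fun p => Nn p = k),
      g p * Real.log (N p) = 0 := fun k hk => Finset.sum_eq_zero fun p hp => by
    obtain ⟨h1, h2⟩ := Finset.mem_filter.1 hp
    have := two_le (Z0.mem_PP.1 h1).2.1
    omega
  have h := sum_mul_eq_sub_integral_mul₁ (f := fun t : ℝ => (((Real.log t)⁻¹ : ℝ) : ℂ))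
    (fun k : ℕ => ∑ p ∈ (PP k).filter (fun p => Nn p = k), g p * Real.log (N p))
    (z 0 (by norm_num)) (z 1 (by norm_num)) X (fun t ht => (hd ht.1).differentiableAt) (by
      refine (ContinuousOn.integrableOn_Icc
        (f := fun t : ℝ => ((-t⁻¹ / Real.log t ^ 2 : ℝ) : ℂ)) ?_).congr_fun
        (fun t ht => (hd ht.1).deriv.symm) measurableSet_Icc
      refine continuous_ofReal.comp_continuousOn (ContinuousOn.div ?_ ?_ fun t ht => ?_)
      · exact (continuousOn_id.inv₀ fun t ht => by have := ht.1; simp only [id]; linarith).neg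
      · exact (Real.continuousOn_log.mono fun t ht => by
          have := ht.1; simp only [Set.mem_compl_iff, Set.mem_singleton_iff]; linarith).pow 2
      · exact pow_ne_zero _ (Real.log_pos (by linarith [ht.1])).ne')
  have e : ∀ t : ℝ, 0 ≤ t → ∑ k ∈ Finset.Icc 0 ⌊t⌋₊, ∑ p ∈ (PP k).filter (fun p => Nn p = k),
      g p * Real.log (N p) = ∑ p ∈ PP t, g p * Real.log (N p) := fun t ht => by
    simpa using fib (fun p => g p * Real.log (N p)) (fun _ => 1) ht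
  rw [fib _ (fun k => (((Real.log k)⁻¹ : ℝ) : ℂ)) (by linarith), e X (by linarith)] at h
  rw [← setIntegral_congr_fun measurableSet_Ioc (f := fun t => deriv
    (fun t : ℝ => (((Real.log t)⁻¹ : ℝ) : ℂ)) t * ∑ k ∈ Finset.Icc 0 ⌊t⌋₊,
      ∑ p ∈ (PP k).filter (fun p => Nn p = k), g p * Real.log (N p))
    (fun t ht => by simp only; rw [(hd ht.1.le).deriv, e t (by linarith [ht.1])]), ← h]
  refine Finset.sum_congr rfl fun p hp => ?_
  have h2 : (2 : ℝ) ≤ Nn p := by exact_mod_cast two_le (Z0.mem_PP.1 hp).2.1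
  have h3 : (Real.log (Nn p) : ℂ) ≠ 0 := by exact_mod_cast (Real.log_pos (by linarith)).ne'
  rw [N, Complex.ofReal_inv]
  field_simp

lemma pt {t X : ℝ} (h2 : 2 ≤ t) (hX : t ≤ X) : t⁻¹ / Real.log t ^ 2 * t ^ (5 / 6 : ℝ) ≤
    (4 * X ^ (1 / 3 : ℝ) / Real.log X ^ 2 + 4 * X ^ (1 / 4 : ℝ)) * t ^ (-1 / 2 : ℝ) := by
  have t0 : 0 < t := by linarith
  have X0 : 0 < X := by linarith
  have lX : 0 < Real.log X := Real.log_pos (by linarith)
  have lt : 1 / 2 ≤ Real.log t :=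
    le_trans (by linarith [Real.log_two_gt_d9]) (Real.log_le_log (by norm_num) h2)
  have e : t⁻¹ / Real.log t ^ 2 * t ^ (5 / 6 : ℝ) =
      t ^ (1 / 3 : ℝ) / Real.log t ^ 2 * t ^ (-1 / 2 : ℝ) := by
    rw [← Real.rpow_neg_one, div_mul_eq_mul_div, div_mul_eq_mul_div, ← Real.rpow_add t0,
      ← Real.rpow_add t0]
    norm_num
  rw [e]
  refine mul_le_mul_of_nonneg_right ?_ (by positivity)
  have p1 : 0 ≤ 4 * X ^ (1 / 3 : ℝ) / Real.log X ^ 2 := by positivity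
  have p2 : 0 ≤ 4 * X ^ (1 / 4 : ℝ) := by positivity
  rcases le_total (t ^ 2) X with h | h
  · have a1 : t ^ (1 / 3 : ℝ) ≤ X ^ (1 / 4 : ℝ) := by
      calc t ^ (1 / 3 : ℝ) ≤ t ^ (1 / 2 : ℝ) :=
            Real.rpow_le_rpow_of_exponent_le (by linarith) (by norm_num)
        _ = (t ^ 2) ^ (1 / 4 : ℝ) := by
            rw [← Real.rpow_natCast, ← Real.rpow_mul t0.le]; norm_num
        _ ≤ _ := Real.rpow_le_rpow (by positivity) h (by norm_num)
    have a2 : t ^ (1 / 3 : ℝ) / Real.log t ^ 2 ≤ X ^ (1 / 4 : ℝ) / (1 / 2) ^ 2 := by gcongr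
    have a3 : X ^ (1 / 4 : ℝ) / (1 / 2) ^ 2 = 4 * X ^ (1 / 4 : ℝ) := by ring
    linarith
  · have a1 : Real.log X / 2 ≤ Real.log t := by
      have := Real.log_le_log X0 h
      rw [Real.log_pow] at this
      push_cast at this
      linarith
    have a2 : t ^ (1 / 3 : ℝ) / Real.log t ^ 2 ≤ X ^ (1 / 3 : ℝ) / (Real.log X / 2) ^ 2 := by gcongr
    have a3 : X ^ (1 / 3 : ℝ) / (Real.log X / 2) ^ 2 = 4 * X ^ (1 / 3 : ℝ) / Real.log X ^ 2 := by
      field_simp; norm_num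
    linarith

lemma intb (S : ℝ → ℂ) {C X : ℝ} (C0 : 0 ≤ C) (hS : ∀ t, 2 ≤ t → ‖S t‖ ≤ C * t ^ (5 / 6 : ℝ))
    (hX : 2 ≤ X) : ‖(∫ t in Set.Ioc 2 X, ((-t⁻¹ / Real.log t ^ 2 : ℝ) : ℂ) * S t) /
      ((X ^ (5 / 6 : ℝ) / Real.log X : ℝ) : ℂ)‖ ≤
      8 * C * ((Real.log X)⁻¹ + Real.log X / X ^ (1 / 12 : ℝ)) := by
  have X0 : 0 < X := by linarith
  have lX : 0 < Real.log X := Real.log_pos (by linarith)
  obtain ⟨K, hK⟩ : ∃ K, K = 4 * X ^ (1 / 3 : ℝ) / Real.log X ^ 2 + 4 * X ^ (1 / 4 : ℝ) := ⟨_, rfl⟩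
  have K0 : 0 ≤ K := by rw [hK]; positivity
  have i1 : IntegrableOn (fun t : ℝ => C * K * t ^ (-1 / 2 : ℝ)) (Set.Ioc 2 X) :=
    ((intervalIntegral.intervalIntegrable_rpow' (a := 2) (b := X) (by norm_num)).1).const_mul _
  have b1 := norm_integral_le_of_norm_le (f := fun t => ((-t⁻¹ / Real.log t ^ 2 : ℝ) : ℂ) * S t) i1
    ((ae_restrict_mem measurableSet_Ioc).mono fun t ht => by
      have t0 : 0 < t := by linarith [ht.1]
      have := pt ht.1.le ht.2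
      rw [← hK] at this
      rw [norm_mul, Complex.norm_real, neg_div, norm_neg, Real.norm_of_nonneg (by positivity)]
      calc _ ≤ t⁻¹ / Real.log t ^ 2 * (C * t ^ (5 / 6 : ℝ)) := by gcongr; exact hS t ht.1.le
        _ = C * (t⁻¹ / Real.log t ^ 2 * t ^ (5 / 6 : ℝ)) := by ring
        _ ≤ C * (K * t ^ (-1 / 2 : ℝ)) := by gcongr
        _ = _ := by ring)
  rw [integral_const_mul, ← intervalIntegral.integral_of_le (f := fun a : ℝ => a ^ (-1 / 2 : ℝ)) hX,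
    integral_rpow (Or.inl (by norm_num))] at b1
  have b2 : (X ^ ((-1 / 2 : ℝ) + 1) - 2 ^ ((-1 / 2 : ℝ) + 1)) / ((-1 / 2 : ℝ) + 1) ≤
      2 * X ^ (1 / 2 : ℝ) := by
    have : (0 : ℝ) ≤ 2 ^ ((-1 / 2 : ℝ) + 1) := by positivity
    rw [div_le_iff₀ (by norm_num), show (-1 / 2 : ℝ) + 1 = 1 / 2 by norm_num] at *
    linarith
  obtain ⟨x, x0, ex⟩ : ∃ x : ℝ, 0 < x ∧ ∀ k : ℕ, X ^ ((k : ℝ) / 12) = x ^ k :=
    ⟨X ^ (1 / 12 : ℝ), by positivity, fun k => by
      rw [← Real.rpow_natCast, ← Real.rpow_mul X0.le]; congr 1; ring⟩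
  have e1 := ex 1
  have e3 := ex 3
  have e4 := ex 4
  have e6 := ex 6
  have e10 := ex 10
  norm_num at e1 e3 e4 e6 e10
  rw [norm_div, Complex.norm_real, Real.norm_of_nonneg (by positivity), div_le_iff₀ (by positivity)]
  refine b1.trans ((mul_le_mul_of_nonneg_left b2 (by positivity)).trans (le_of_eq ?_))
  rw [hK]
  norm_num
  rw [e1, e3, e4, e6, e10]
  field_simp
  ring

end UNLM

open UNLM in
theorem unlS (h : LOGStmt) : Sharp := by
  obtain ⟨S, hS⟩ : ∃ S : ℝ → ℂ, S = fun X => ∑ p ∈ PP X, gt p * Real.log (N p) := ⟨_, rfl⟩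
  obtain ⟨C, C0, hC⟩ : ∃ C : ℝ, 0 ≤ C ∧ ∀ t, 2 ≤ t → ‖S t‖ ≤ C * t ^ (5 / 6 : ℝ) := by
    obtain ⟨t0, h0⟩ := eventually_atTop.1 (h.norm.eventually (gt_mem_nhds (lt_add_one _)))
    obtain ⟨c, hc⟩ : ∃ c, c = ‖((6 / 5 * cst : ℝ) : ℂ)‖ + 1 := ⟨_, rfl⟩
    obtain ⟨b, hb⟩ : ∃ b, b = ∑ p ∈ PP t0, ‖gt p * Real.log (N p)‖ := ⟨_, rfl⟩
    have c0 : 0 ≤ c := by rw [hc]; positivity
    have b0 : 0 ≤ b := by rw [hb]; positivity
    refine ⟨c + b, by positivity, fun t ht => ?_⟩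
    have p1 : 1 ≤ t ^ (5 / 6 : ℝ) := Real.one_le_rpow (by linarith) (by norm_num)
    rcases le_total t0 t with h1 | h1
    · have := h0 t h1
      rw [norm_div, Complex.norm_real, Real.norm_of_nonneg (by linarith), ← hc,
        div_lt_iff₀ (by linarith)] at this
      rw [hS]
      nlinarith
    · have : ‖S t‖ ≤ b := by
        rw [hS, hb]
        refine (norm_sum_le _ _).trans (Finset.sum_le_sum_of_subset_of_nonneg (fun p hp => ?_)
          fun _ _ _ => norm_nonneg _)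
        rw [Z0.mem_PP] at hp ⊢
        exact ⟨hp.1.trans h1, hp.2⟩
      nlinarith
  have l1 : Tendsto (fun X : ℝ => 8 * C * ((Real.log X)⁻¹ + Real.log X / X ^ (1 / 12 : ℝ))) atTop
      (𝓝 0) := by
    have := ((tendsto_inv_atTop_zero.comp Real.tendsto_log_atTop).add
      (isLittleO_log_rpow_atTop (r := 1 / 12) (by norm_num)).tendsto_div_nhds_zero).const_mul (8 * C)
    simpa using this
  have l2 := squeeze_zero_norm' ((eventually_ge_atTop 2).mono fun X hX => intb S C0 hC hX) l1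
  have l3 := (show Tendsto _ _ _ from h).sub l2
  rw [sub_zero] at l3
  refine l3.congr' ((eventually_ge_atTop 2).mono fun X hX => ?_)
  have lX : (Real.log X : ℂ) ≠ 0 := by exact_mod_cast (Real.log_pos (by linarith)).ne'
  have pX : ((X ^ (5 / 6 : ℝ) : ℝ) : ℂ) ≠ 0 := by
    exact_mod_cast (Real.rpow_pos_of_pos (by linarith) _).ne'
  simp only
  rw [abel gt hX, hS, Complex.ofReal_div, Complex.ofReal_inv]
  field_simp

end Vale.Agent.P006.S
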