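import Vale.Agent.P006.S1
import Vale.Agent.P006.A.CVX

/-! P006 branch S: three lines theorem with polynomial weights. -/

noncomputable section
open Complex MeasureTheory Filter Topology
open scoped Classical ComplexConjugate

namespace Vale.Agent.P006.S
open Vale.Agent.P026

open Z.CVX Complex.HadamardThreeLines in
theorem plS : PLStmt := by
  intro a b p q c hab hp hq
  set E := Real.exp ((b - a) ^ 2) * Real.exp (p ^ 2 / 4) * Real.exp (q ^ 2 / 4) with hE
  have hE0 : 0 < E := by positivity
  refine ⟨E, hE0.le, fun F K P Q hF hK hP hQ hl hr z z1 z2 => ?_⟩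
  have hba : 0 < b - a := by linarith
  have sq : ∀ w : ℂ, a ≤ w.re → w.re ≤ b → Real.exp ((w.re - z.re) ^ 2) ≤ Real.exp ((b - a) ^ 2) :=
    fun w h1 h2 => Real.exp_le_exp.2 (sq_le_sq' (by linarith) (by linarith))
  have hd : DifferentiableOn ℂ (fun w => F w * cexp ((w - z) ^ 2)) {s | a ≤ s.re ∧ s.re ≤ b} :=
    hF.mul (by fun_prop)
  have e1 : ∀ (c P p : ℝ) (w : ℂ), 0 ≤ P → 0 ≤ p → a ≤ c → c ≤ b → w.re = c →
      (∀ t : ℝ, ‖F (c + t * I)‖ ≤ P * (1 + |t|) ^ p) → ‖F w * cexp ((w - z) ^ 2)‖ ≤
        Real.exp ((b - a) ^ 2) * Real.exp (p ^ 2 / 4) * P * (1 + |z.im|) ^ p := by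
    intro c P p w hP hp c1 c2 hw h
    have h1 := h w.im
    rw [← hw, re_add_im] at h1
    rw [norm_mul, Z.CVX.ne]
    calc _ ≤ P * (1 + |w.im|) ^ p * (Real.exp ((b - a) ^ 2) * Real.exp (-(w.im - z.im) ^ 2)) := by
          exact mul_le_mul h1 (mul_le_mul_of_nonneg_right (sq w (hw ▸ c1) (hw ▸ c2)) (by positivity))
            (by positivity) (by positivity)
      _ = Real.exp ((b - a) ^ 2) * P * ((1 + |w.im|) ^ p * Real.exp (-(w.im - z.im) ^ 2)) := by ring
      _ ≤ Real.exp ((b - a) ^ 2) * P * (Real.exp (p ^ 2 / 4) * (1 + |z.im|) ^ p) := by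
          exact mul_le_mul_of_nonneg_left (pe hp _ _) (by positivity)
      _ = _ := by ring
  have x1 : 1 ≤ Real.exp (p ^ 2 / 4) := Real.one_le_exp (by positivity)
  have x2 : 1 ≤ Real.exp (q ^ 2 / 4) := Real.one_le_exp (by positivity)
  have key := norm_le_interp_of_mem_verticalClosedStrip' (f := fun w => F w * cexp ((w - z) ^ 2))
    (z := z) (a := E * (P * (1 + |z.im|) ^ p)) (b := E * (Q * (1 + |z.im|) ^ q)) hab ⟨z1, z2⟩
    (by
      refine DifferentiableOn.diffContOnCl (hd.mono ?_)
      rw [verticalStrip, closure_preimage_re, closure_Ioo hab.ne]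
      exact fun s hs => hs)
    (by
      refine ⟨|K| * Real.exp ((b - a) ^ 2) * Real.exp (|c| * |z.im| + |c| ^ 2 / 4), ?_⟩
      rintro _ ⟨w, hw, rfl⟩
      have h0 : Real.exp (c * |w.im|) ≤ Real.exp (|c| * |w.im|) :=
        Real.exp_le_exp.2 (mul_le_mul_of_nonneg_right (le_abs_self c) (abs_nonneg _))
      have h1 := (hK w hw.1 hw.2).trans (mul_le_mul (le_abs_self K) h0 (by positivity) (by positivity))
      have h2 : Real.exp (|c| * |w.im|) * Real.exp (-(w.im - z.im) ^ 2) ≤
          Real.exp (|c| * |z.im| + |c| ^ 2 / 4) := by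
        rw [← Real.exp_add]
        refine Real.exp_le_exp.2 ?_
        have := abs_add_le z.im (w.im - z.im)
        rw [add_sub_cancel] at this
        nlinarith [sq_abs (w.im - z.im), sq_nonneg (|w.im - z.im| - |c| / 2),
          mul_le_mul_of_nonneg_left this (abs_nonneg c)]
      simp only [Function.comp, norm_mul, Z.CVX.ne]
      calc _ ≤ |K| * Real.exp (|c| * |w.im|) * (Real.exp ((b - a) ^ 2) *
            Real.exp (-(w.im - z.im) ^ 2)) :=
            mul_le_mul h1 (mul_le_mul_of_nonneg_right (sq w hw.1 hw.2) (by positivity))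
              (by positivity) (by positivity)
        _ = |K| * Real.exp ((b - a) ^ 2) * (Real.exp (|c| * |w.im|) *
            Real.exp (-(w.im - z.im) ^ 2)) := by ring
        _ ≤ _ := by gcongr)
    (fun w hw => (e1 a P p w hP hp le_rfl hab.le hw hl).trans (by
      rw [mul_assoc _ P]
      refine mul_le_mul_of_nonneg_right ?_ (by positivity)
      exact le_mul_of_one_le_right (by positivity) x2))
    (fun w hw => (e1 b Q q w hQ hq hab.le le_rfl hw hr).trans (by
      rw [mul_assoc _ Q]
      refine mul_le_mul_of_nonneg_right ?_ (by positivity)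
      exact mul_le_mul_of_nonneg_right (le_mul_of_one_le_right (by positivity) x1) (by positivity)))
  have hu : (b - z.re) / (b - a) = 1 - (z.re - a) / (b - a) := by field_simp; ring
  simp only [sub_self] at key
  rw [Real.mul_rpow hE0.le (by positivity), Real.mul_rpow hE0.le (by positivity)] at key
  rw [hu]
  have e2 : E = E ^ (1 - (z.re - a) / (b - a)) * E ^ ((z.re - a) / (b - a)) := by
    rw [← Real.rpow_add hE0]; simp
  refine le_trans (by simp) (key.trans (le_of_eq ?_))
  conv_rhs => rw [e2]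
  ring

end Vale.Agent.P006.S
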