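import Vale.Agent.P006.S.ALL
import Vale.Agent.P006.S.BAL
import Vale.Agent.P006.S.BIL
import Vale.Agent.P006.S.BM
import Vale.Agent.P006.S.CEL
import Vale.Agent.P006.S.CUT
import Vale.Agent.P006.S.CV
import Vale.Agent.P006.S.DIV
import Vale.Agent.P006.S.DK
import Vale.Agent.P006.S.DUT
import Vale.Agent.P006.S.END
import Vale.Agent.P006.S.G0
import Vale.Agent.P006.S.GR
import Vale.Agent.P006.S.MU
import Vale.Agent.P006.S.PH
import Vale.Agent.P006.S.PL
import Vale.Agent.P006.S.PR
import Vale.Agent.P006.S.ST2g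
import Vale.Agent.P006.S.TH1
import Vale.Agent.P006.S.TH2
import Vale.Agent.P006.S.TH3
import Vale.Agent.P006.S.TH4
import Vale.Agent.P006.S.TH5
import Vale.Agent.P006.S.TH7
import Vale.Agent.P006.S.TI1
import Vale.Agent.P006.S.TI2
import Vale.Agent.P006.S.TT
import Vale.Agent.P006.S.VA
import Vale.Agent.P006.S.VI
import Vale.Agent.P006.S.VII
import Vale.Agent.P006.L.All
import Vale.Agent.P006.A.All

/-! P006 branch S, closed. -/

namespace Vale.Agent.P006.S

theorem th4 : TH4Stmt := th4S (th3S muS th1S (th2S (dkS (grS plS)) LAll.sla))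

theorem tt : TTStmt :=
  ttS th4 (balS (th7S LAll.st1 st2gS (th5S (dutS th4) allS LAll.sla)) prS LAll.sl)

theorem sEnd : SEnd :=
  endS (vaS (viS (ti2S (ti1S (cvS AK.ct plS g0S) g0S) bmS g0S) divS)
    (viiS (bilS (celS tt bmS) bmS) divS bmS g0S) divS bmS g0S) cutS phS

end Vale.Agent.P006.S
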