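import Vale.Agent.P006.S1
import Vale.Agent.P006.L.L3

noncomputable section
open Complex MeasureTheory Filter Topology
open scoped Classical ComplexConjugate

namespace Vale.Agent.P006.S
open Vale.Agent.P026

namespace TH2M
open SS0M L3M

/-- integrand -/
def gk (μ : ℝ → ℂ) (y v : ℝ) : ℂ := μ v / v ^ 2 * cexp (-(y / v : ℝ))
/-- transformed kernel -/
def Gk (μ : ℝ → ℂ) (y : ℝ) : ℂ := ∫ v in Set.Ioi (0 : ℝ), gk μ y v

theorem mub {T : ℝ} {μ : ℝ → ℂ} (h : MU T μ) : ∃ C : ℝ, 0 ≤ C ∧ ∀ v : ℝ, 0 < v →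
    ‖μ v‖ ≤ C * (1 + v ^ 2)⁻¹ ∧ ‖μ v‖ / v ^ 2 ≤ C * (1 + v ^ 2)⁻¹ := by
  obtain ⟨C, hC⟩ := h.bd
  have C0 : 0 ≤ C := by simpa using (norm_nonneg _).trans (hC 1 one_pos).1
  refine ⟨2 * C, by positivity, fun v hv => ?_⟩
  obtain ⟨h1, h2⟩ := hC v hv
  rw [← div_eq_mul_inv, le_div_iff₀ (by positivity)] at h2
  have n0 := norm_nonneg (μ v)
  rw [← div_eq_mul_inv, le_div_iff₀ (by positivity), div_le_div_iff₀ (by positivity) (by positivity)]
  rcases le_total v 1 with c | c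
  · have a2 : v ^ 2 ≤ 1 := pow_le_one₀ hv.le c
    have a3 : v ^ 3 ≤ v ^ 2 := pow_le_pow_of_le_one hv.le c (by norm_num)
    have a4 : ‖μ v‖ ≤ C * v ^ 2 := h1.trans (mul_le_mul_of_nonneg_left a3 C0)
    constructor <;> nlinarith
  · have a2 : 1 ≤ v ^ 2 := one_le_pow₀ c
    constructor <;> nlinarith

theorem gk_meas {T : ℝ} {μ : ℝ → ℂ} (h : MU T μ) (y : ℝ) : Measurable (gk μ y) := by
  have := h.meas
  unfold gk
  fun_prop

theorem gk_norm (μ : ℝ → ℂ) (y : ℝ) {v : ℝ} (hv : 0 < v) :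
    ‖gk μ y v‖ = ‖μ v‖ / v ^ 2 * Real.exp (-(y / v)) := by
  rw [gk, norm_mul, cexp_norm, norm_div, norm_pow, norm_real, Real.norm_of_nonneg hv.le]

theorem gk_int {T : ℝ} {μ : ℝ → ℂ} (h : MU T μ) {y : ℝ} (hy : 0 ≤ y) :
    Integrable (gk μ y) (volume.restrict (Set.Ioi 0)) := by
  obtain ⟨C, C0, hC⟩ := mub h
  refine (integrable_inv_one_add_sq.const_mul C).integrableOn.mono' (gk_meas h y).aestronglyMeasurable
    ((ae_restrict_iff' measurableSet_Ioi).2 (.of_forall fun v hv => ?_))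
  have hv : 0 < v := hv
  rw [gk_norm μ y hv]
  refine le_trans (mul_le_of_le_one_right (by positivity) ?_) (hC v hv).2
  exact Real.exp_le_one_iff.2 (neg_nonpos.2 (by positivity))

theorem gk_le {T : ℝ} {μ : ℝ → ℂ} (h : MU T μ) : ∃ C : ℝ, 0 ≤ C ∧ ∀ y : ℝ, 0 < y →
    ∫ v in Set.Ioi (0 : ℝ), ‖gk μ y v‖ ≤ C / y ^ 2 := by
  obtain ⟨C, C0, hC⟩ := mub h
  refine ⟨2 * C * ∫ v in Set.Ioi (0 : ℝ), (1 + v ^ 2)⁻¹,
    mul_nonneg (by positivity) (integral_nonneg fun v => by positivity), fun y hy => ?_⟩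
  rw [mul_div_right_comm, ← integral_const_mul]
  refine setIntegral_mono_on (gk_int h hy.le).norm
    (integrable_inv_one_add_sq.const_mul _).integrableOn measurableSet_Ioi fun v hv => ?_
  have hv : 0 < v := hv
  rw [gk_norm μ y hv]
  have h2 := Real.pow_div_factorial_le_exp (y / v) (by positivity) 2
  have h3 : Real.exp (-(y / v)) ≤ 2 * v ^ 2 / y ^ 2 := by
    rw [Real.exp_neg, inv_le_comm₀ (Real.exp_pos _) (by positivity)]
    refine le_trans (le_of_eq ?_) h2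
    norm_num [Nat.factorial]
    field_simp
  calc _ ≤ ‖μ v‖ / v ^ 2 * (2 * v ^ 2 / y ^ 2) := by gcongr
    _ = 2 / y ^ 2 * ‖μ v‖ := by field_simp
    _ ≤ 2 / y ^ 2 * (C * (1 + v ^ 2)⁻¹) := by gcongr; exact (hC v hv).1
    _ = _ := by ring

theorem swap {T : ℝ} {μ : ℝ → ℂ} (h : MU T μ) {ι : Type} (P : Finset ι) (z : O → ι → ℂ) (Z c : ι → ℝ)
    (hz : ∀ k p, ‖z k p‖ ≤ Z p) (hc : ∀ p ∈ P, 0 < c p) :
    ∫ v in Set.Ioi (0 : ℝ), ∑' k, ∑ p ∈ P, z k p * gk μ (c p * N k) v =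
      ∑' k, ∑ p ∈ P, z k p * Gk μ (c p * N k) := by
  have hB := W1.bas
  haveI : Countable O := by
    have : (⋃ n : ℕ, {a : O | N a ≤ n}) = Set.univ := by
      refine Set.eq_univ_of_forall fun a => Set.mem_iUnion.2 ⟨Nn a, ?_⟩
      simp [N]
    exact Set.countable_univ_iff.1 (this ▸ Set.countable_iUnion fun n => (hB.b3.fin n).countable)
  obtain ⟨C, C0, hC⟩ := gk_le h
  have i : ∀ k, ∀ p ∈ P, Integrable (fun v => z k p * gk μ (c p * N k) v)
      (volume.restrict (Set.Ioi 0)) := fun k p hp =>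
    (gk_int h (mul_nonneg (hc p hp).le (Nat.cast_nonneg _))).const_mul _
  have s := hasSum_integral_of_summable_integral_norm (μ := volume.restrict (Set.Ioi 0))
    (F := fun k v => ∑ p ∈ P, z k p * gk μ (c p * N k) v)
    (fun k => integrable_finsetSum _ (i k)) ?_
  · rw [← s.tsum_eq]
    refine tsum_congr fun k => ?_
    rw [integral_finsetSum _ (i k)]
    exact Finset.sum_congr rfl fun p _ => integral_const_mul _ _
  · refine Summable.of_norm_bounded_eventually ((hB.b3.summ 2 (by norm_num)).mul_left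
      (∑ p ∈ P, Z p * (C / c p ^ 2))) ?_
    filter_upwards [(Set.finite_singleton (0 : O)).compl_mem_cofinite] with k hk
    have k1 := hB.b1.N_one_le k hk
    rw [Real.norm_of_nonneg (integral_nonneg fun v => norm_nonneg _), Finset.sum_mul]
    refine (integral_mono (integrable_finsetSum _ (i k)).norm
      (integrable_finsetSum _ fun p hp => (i k p hp).norm) fun v => norm_sum_le _ _).trans ?_
    rw [integral_finsetSum _ fun p hp => (i k p hp).norm]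
    refine Finset.sum_le_sum fun p hp => ?_
    have c0 := hc p hp
    simp only [norm_mul]
    rw [integral_const_mul]
    refine (mul_le_mul (hz k p) (hC _ (by positivity)) (integral_nonneg fun v => norm_nonneg _)
      ((norm_nonneg _).trans (hz k p))).trans (le_of_eq ?_)
    rw [Real.rpow_neg (by positivity), Real.rpow_two]
    field_simp

/-- separation of variables for a general Mellin kernel -/
theorem sep {ι : Type} (S : Finset ι) (z : ι → ℂ) (n : ι → ℝ) (hn : ∀ k ∈ S, 0 < n k) {D : ℝ → ℂ}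
    (hD : Integrable D) {G : ℝ → ℂ} {X σ : ℝ} (hX : 0 < X)
    (hG : ∀ y : ℝ, 0 < y → G y = (1 / (2 * Real.pi) : ℝ) * ∫ u : ℝ, D u * (y : ℂ) ^ (-(σ + u * I))) :
    Integrable (fun u => ‖D u‖ * (‖Poi3.SP S z n σ u‖ ^ 2 + ‖Poi3.SP S z n σ (-u)‖ ^ 2)) ∧
    ‖∑ k1 ∈ S, ∑ k2 ∈ S, z k1 * conj (z k2) * (((Real.sqrt (n k1 * n k2) : ℂ))⁻¹ *
        G (X / (n k1 * n k2)))‖ ≤ 1 / 4 * X ^ (-σ) *
      ∫ u : ℝ, ‖D u‖ * (‖Poi3.SP S z n σ u‖ ^ 2 + ‖Poi3.SP S z n σ (-u)‖ ^ 2) := by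
  have sc := Poi3.SP_cont S z n hn σ
  have i1 : Integrable fun u => ‖D u‖ * (‖Poi3.SP S z n σ u‖ ^ 2 + ‖Poi3.SP S z n σ (-u)‖ ^ 2) := by
    refine hD.norm.mul_bdd (c := 2 * (∑ k ∈ S, ‖z k‖ * n k ^ (-1 / 2 + σ)) ^ 2)
      (Continuous.aestronglyMeasurable (by fun_prop)) (.of_forall fun u => ?_)
    rw [Real.norm_of_nonneg (by positivity)]
    have a := pow_le_pow_left₀ (norm_nonneg _) (Poi3.SP_le S z n hn σ u) 2
    have b := pow_le_pow_left₀ (norm_nonneg _) (Poi3.SP_le S z n hn σ (-u)) 2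
    linarith
  refine ⟨i1, ?_⟩
  have nX : ∀ u : ℝ, ‖(X : ℂ) ^ (-(σ + u * I))‖ = X ^ (-σ) := fun u => by
    rw [Complex.norm_cpow_eq_rpow_re_of_pos hX]; simp
  have cX : Continuous fun u : ℝ => (X : ℂ) ^ (-(σ + u * I)) :=
    Continuous.const_cpow (by fun_prop) (Or.inl (by exact_mod_cast hX.ne'))
  obtain ⟨H, hH⟩ : ∃ H : ι → ι → ℝ → ℂ, H = fun k1 k2 (u : ℝ) => D u * ((X : ℂ) ^ (-(σ + u * I)) *
    ((z k1 * (n k1 : ℂ) ^ (-1 / 2 + σ + u * I)) *
      conj (z k2 * (n k2 : ℂ) ^ (-1 / 2 + σ + ((-u : ℝ) : ℂ) * I)))) := ⟨_, rfl⟩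
  have e1 : ∀ k1 ∈ S, ∀ k2 ∈ S, z k1 * conj (z k2) * (((Real.sqrt (n k1 * n k2) : ℂ))⁻¹ *
      G (X / (n k1 * n k2))) = ((1 / (2 * Real.pi) : ℝ) : ℂ) * ∫ u : ℝ, H k1 k2 u := by
    intro k1 h1 k2 h2
    have a := hn k1 h1
    have b := hn k2 h2
    rw [hG _ (by positivity), ← integral_const_mul, ← integral_const_mul,
      ← integral_const_mul, ← integral_const_mul, hH]
    congr 1
    funext u
    have A := PS1M.alg σ u hX a b
    simp only [map_mul]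
    linear_combination (z k1 * conj (z k2) * ((1 / (2 * Real.pi) : ℝ) : ℂ) * D u) * A
  have gi : ∀ k1 ∈ S, ∀ k2 ∈ S, Integrable (H k1 k2) := by
    intro k1 h1 k2 h2
    have a := hn k1 h1
    have b := hn k2 h2
    have c1 : Continuous fun u : ℝ => (n k1 : ℂ) ^ (-1 / 2 + σ + u * I) := by
      simpa using Poi3.cpc a (-1 / 2 + σ) 1
    have c2 : Continuous fun u : ℝ => (n k2 : ℂ) ^ (-1 / 2 + σ + ((-u : ℝ) : ℂ) * I) := by
      simpa using Poi3.cpc b (-1 / 2 + σ) (-1)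
    rw [hH]
    refine hD.mul_bdd (c := X ^ (-σ) * ((‖z k1‖ * n k1 ^ (-1 / 2 + σ)) *
      (‖z k2‖ * n k2 ^ (-1 / 2 + σ)))) (cX.mul ((continuous_const.mul c1).mul
        (Complex.continuous_conj.comp (continuous_const.mul c2)))).aestronglyMeasurable
      (Eventually.of_forall fun u => le_of_eq ?_)
    simp only [norm_mul, Complex.norm_conj, nX, Complex.norm_cpow_eq_rpow_re_of_pos a,
      Complex.norm_cpow_eq_rpow_re_of_pos b]
    simp
  rw [Finset.sum_congr rfl fun k1 h1 => Finset.sum_congr rfl fun k2 h2 => e1 k1 h1 k2 h2]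
  simp only [← Finset.mul_sum]
  rw [Finset.sum_congr rfl fun k1 h1 => (integral_finsetSum S fun k2 h2 => gi k1 h1 k2 h2).symm,
    ← integral_finsetSum S fun k1 h1 => integrable_finsetSum S fun k2 h2 => gi k1 h1 k2 h2]
  have e2 : ∀ u : ℝ, ∑ k1 ∈ S, ∑ k2 ∈ S, H k1 k2 u =
      D u * ((X : ℂ) ^ (-(σ + u * I)) * (Poi3.SP S z n σ u * conj (Poi3.SP S z n σ (-u)))) := by
    intro u
    rw [hH]
    simp only [← Finset.mul_sum]
    unfold Poi3.SP
    rw [map_sum, Finset.sum_mul]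
  simp only [e2]
  have pi := Real.pi_gt_three
  rw [norm_mul, Complex.norm_real, Real.norm_of_nonneg (by positivity)]
  calc _ ≤ 1 / 2 * ∫ u : ℝ, X ^ (-σ) / 2 *
        (‖D u‖ * (‖Poi3.SP S z n σ u‖ ^ 2 + ‖Poi3.SP S z n σ (-u)‖ ^ 2)) := by
        refine mul_le_mul (one_div_le_one_div_of_le (by norm_num) (by linarith))
          (norm_integral_le_of_norm_le (i1.const_mul _) (Eventually.of_forall fun u => ?_))
          (norm_nonneg _) (by norm_num)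
        rw [norm_mul, norm_mul, norm_mul, nX, Complex.norm_conj]
        have h0 : 0 ≤ ‖D u‖ * X ^ (-σ) := by positivity
        nlinarith [mul_nonneg h0 (sq_nonneg (‖Poi3.SP S z n σ u‖ - ‖Poi3.SP S z n σ (-u)‖))]
    _ = _ := by rw [integral_const_mul]; ring

/-- abscissa -/
def sg2 (K : ℝ) (j : ℕ) : ℝ := if 2 ^ j ≤ K then 1 / 4 else 3 / 2

theorem blk2 {K Y : ℝ} (hK : 0 < K) (hY : 1 ≤ Y) (hKY : K ≤ Y) (j : ℕ) :
    (2 ^ j / K) ^ (-sg2 K j) * (Y * (2 ^ (j + 1)) ^ (1 / 3 : ℝ) +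
      Y ^ (2 / 3 : ℝ) * (2 ^ (j + 1)) ^ (2 / 3 : ℝ) + (2 ^ (j + 1)) ^ (4 / 3 : ℝ)) ≤
      72 / (rr - 1) * (Y * K ^ (1 / 3 : ℝ) * min 1 (Real.sqrt K)) * (Hp K (j + 1) - Hp K j) := by
  have a1 := rr1
  have a2 := rr2
  have j1 : (1 : ℝ) ≤ 2 ^ j := one_le_pow₀ one_le_two
  have e : Hp K (j + 1) = rr * (2 ^ j / K) ^ (1 / 12 : ℝ) / (1 + rr * (2 ^ j / K) ^ (1 / 12 : ℝ)) := by
    rw [Hp, rr, ← Real.mul_rpow (by norm_num) (by positivity), pow_succ', mul_div_assoc]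
  rw [e, Hp, pow_succ']
  unfold sg2
  generalize (2 : ℝ) ^ j = L at j1 ⊢
  have pL : 0 < L := by linarith
  have pY : 0 < Y := by linarith
  have lL := Real.log_nonneg j1
  have lY := Real.log_nonneg hY
  have lK := Real.log_le_log hK hKY
  have l0 := Real.log_nonneg (show (1 : ℝ) ≤ 2 by norm_num)
  have l4 : Real.log 4 = 2 * Real.log 2 := by
    rw [show (4 : ℝ) = 2 ^ 2 by norm_num, Real.log_pow]; norm_num
  have u0 : 0 < (L / K) ^ (1 / 12 : ℝ) := by positivity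
  have fin : ∀ (s m W : ℝ), 0 ≤ W → m ≤ 6 * (L / K) ^ (1 / 12 : ℝ) / ((1 + (L / K) ^ (1 / 12 : ℝ)) *
      (1 + rr * (L / K) ^ (1 / 12 : ℝ))) →
      (L / K) ^ s * (Y * (2 * L) ^ (1 / 3 : ℝ)) ≤ 4 * (W * m) →
      (L / K) ^ s * (Y ^ (2 / 3 : ℝ) * (2 * L) ^ (2 / 3 : ℝ)) ≤ 4 * (W * m) →
      (L / K) ^ s * (2 * L) ^ (4 / 3 : ℝ) ≤ 4 * (W * m) →
      (L / K) ^ s * (Y * (2 * L) ^ (1 / 3 : ℝ) + Y ^ (2 / 3 : ℝ) * (2 * L) ^ (2 / 3 : ℝ) +
        (2 * L) ^ (4 / 3 : ℝ)) ≤ 72 / (rr - 1) * W * (rr * (L / K) ^ (1 / 12 : ℝ) /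
          (1 + rr * (L / K) ^ (1 / 12 : ℝ)) - (L / K) ^ (1 / 12 : ℝ) / (1 + (L / K) ^ (1 / 12 : ℝ))) := by
    intro s m W hW hm h1 h2 h3
    have h4 := mul_le_mul_of_nonneg_left hm hW
    refine le_trans (by linarith : _ ≤ 12 * (W * (6 * (L / K) ^ (1 / 12 : ℝ) /
      ((1 + (L / K) ^ (1 / 12 : ℝ)) * (1 + rr * (L / K) ^ (1 / 12 : ℝ)))))) (le_of_eq ?_)
    have : rr - 1 ≠ 0 := by linarith
    generalize (L / K) ^ (1 / 12 : ℝ) = u at u0
    field_simp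
    ring
  split_ifs with c
  · have lc := Real.log_le_log pL c
    have u1 := Real.rpow_le_one (x := L / K) (by positivity) ((div_le_one hK).2 c)
      (show (0 : ℝ) ≤ 1 / 12 by norm_num)
    rw [min_eq_left (Real.one_le_sqrt.2 (j1.trans c)), mul_one]
    refine fin _ ((L / K) ^ (1 / 12 : ℝ)) _ (by positivity) ?_ ?_ ?_ ?_
    · generalize (L / K) ^ (1 / 12 : ℝ) = u at u0 u1
      rw [le_div_iff₀ (by positivity), mul_comm 6]
      have : rr * u ≤ 2 := by nlinarith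
      gcongr
      nlinarith
    all_goals
      refine (Real.log_le_log_iff (by positivity) (by positivity)).1 ?_
      simp (disch := positivity) only [Real.log_mul, Real.log_div, Real.log_rpow, l4]
      linarith
  · have lc := Real.log_le_log hK (not_le.1 c).le
    have u1 := Real.one_le_rpow ((one_le_div hK).2 (not_le.1 c).le) (show (0 : ℝ) ≤ 1 / 12 by norm_num)
    refine fin _ ((L / K) ^ (1 / 12 : ℝ))⁻¹ _ (by positivity) ?_ ?_ ?_ ?_
    · generalize (L / K) ^ (1 / 12 : ℝ) = u at u0 u1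
      rw [inv_eq_one_div, div_le_div_iff₀ u0 (by positivity)]
      have : rr * u ≤ 2 * u := by nlinarith
      nlinarith
    all_goals
      rw [Real.sqrt_eq_rpow]
      rcases min_cases 1 (K ^ (1 / 2 : ℝ)) with h | h <;> rw [h.1] <;>
      refine (Real.log_le_log_iff (by positivity) (by positivity)).1 ?_ <;>
      simp (disch := positivity) only [Real.log_mul, Real.log_div, Real.log_rpow, Real.log_inv,
        Real.log_one, l4] <;>
      linarith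

end TH2M

end Vale.Agent.P006.S
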