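import Vale.Agent.P006.S3

/-! P006 branch S: the smooth cutoff is an admissible weight. -/

noncomputable section
open Complex MeasureTheory Filter Topology
open scoped Classical ComplexConjugate

namespace Vale.Agent.P006.S
open Vale.Agent.P026

namespace WTM

def gk (T σ t : ℝ) : ℂ := (1 / (2 * Real.pi) : ℝ) * cexp ((σ + t * I) ^ 2 / (4 * T ^ 2))
def ck (T σ t : ℝ) : ℂ := gk T σ t / (σ + t * I)

theorem gauss {T : ℝ} (T0 : 0 < T) (σ v : ℝ) : ∫ t : ℝ, gk T σ t * cexp (-(σ + t * I) * v) =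
    ((T / Real.sqrt Real.pi * Real.exp (-(T * v) ^ 2) : ℝ) : ℂ) := by
  have T1 : (T : ℂ) ≠ 0 := ofReal_ne_zero.2 T0.ne'
  have e : ∀ u : ℝ, gk T σ u * cexp (-(σ + u * I) * v) =
      ((1 / (2 * Real.pi) : ℝ) : ℂ) * cexp (((-(1 / (4 * T ^ 2)) : ℝ) : ℂ) * u ^ 2 +
        I * (σ / (2 * T ^ 2) - v) * u + (σ ^ 2 / (4 * T ^ 2) - σ * v)) := fun u => by
    rw [gk, mul_assoc, ← exp_add]
    congr 2
    push_cast
    field_simp
    linear_combination 2 * (u : ℂ) ^ 2 * I_sq
  simp only [e]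
  rw [integral_const_mul, integral_cexp_quadratic (by rw [ofReal_re]; exact neg_lt_zero.2 (by positivity))]
  have a1 : ((Real.pi : ℂ) / -((-(1 / (4 * T ^ 2)) : ℝ) : ℂ)) ^ (1 / 2 : ℂ) =
      ((2 * T * Real.sqrt Real.pi : ℝ) : ℂ) := by
    rw [← ofReal_neg, ← ofReal_div, show (1 / 2 : ℂ) = ((1 / 2 : ℝ) : ℂ) by simp,
      ← ofReal_cpow (by rw [neg_neg]; positivity), ← Real.sqrt_eq_rpow]
    congr 1
    rw [Real.sqrt_eq_iff_mul_self_eq (by rw [neg_neg]; positivity) (by positivity)]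
    have := Real.mul_self_sqrt Real.pi_pos.le
    field_simp
    nlinarith
  have a2 : 1 / (2 * Real.pi) * (2 * T * Real.sqrt Real.pi) = T / Real.sqrt Real.pi := by
    have := Real.mul_self_sqrt Real.pi_pos.le
    have := Real.pi_pos
    have := Real.sqrt_pos.2 Real.pi_pos
    field_simp
    nlinarith
  rw [a1, ← mul_assoc, ← ofReal_mul, a2, ofReal_mul, ofReal_exp]
  congr 2
  push_cast
  field_simp
  linear_combination (4 * (σ - 2 * (T : ℂ) ^ 2 * v) ^ 2) * I_sq

theorem ngk {T σ : ℝ} (hT : 1 ≤ T) (h0 : 0 < σ) (h1 : σ ≤ 1) (t : ℝ) :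
    ‖gk T σ t‖ ≤ 1 / 2 * Real.exp (-(t / (2 * T)) ^ 2) := by
  have e : ((σ + t * I) ^ 2 / (4 * T ^ 2) : ℂ).re = (σ / (2 * T)) ^ 2 + -(t / (2 * T)) ^ 2 := by
    rw [show (4 * T ^ 2 : ℂ) = ((4 * T ^ 2 : ℝ) : ℂ) by push_cast; ring, div_ofReal_re]
    simp [sq]
    field_simp
    ring
  rw [gk, norm_mul, norm_real, Real.norm_of_nonneg (by positivity), norm_exp, e, Real.exp_add, ← mul_assoc]
  refine mul_le_mul_of_nonneg_right ?_ (Real.exp_pos _).le
  have a : (σ / (2 * T)) ^ 2 ≤ 1 := pow_le_one₀ (by positivity) ((div_le_one (by linarith)).2 (by linarith))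
  have b := (Real.exp_le_exp.2 a).trans Real.exp_one_lt_d9.le
  have := Real.pi_gt_three
  rw [div_mul_eq_mul_div, div_le_iff₀ (by positivity)]
  linarith

theorem cgk (T σ : ℝ) : Continuous (gk T σ) := by unfold gk; fun_prop

theorem gint {R : ℝ} (hR : 0 < R) {b : ℝ} (hb : 0 < b) :
    Integrable fun t : ℝ => Real.exp (-(b * (t / R) ^ 2)) := by
  refine (integrable_exp_neg_mul_sq (b := b / R ^ 2) (by positivity)).congr (Eventually.of_forall fun t => ?_)
  simp only
  congr 1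
  field_simp

theorem igk {T σ : ℝ} (hT : 1 ≤ T) (h0 : 0 < σ) (h1 : σ ≤ 1) : Integrable (gk T σ) := by
  refine ((gint (R := 2 * T) (by linarith) one_pos).const_mul (1 / 2)).mono' (cgk T σ).aestronglyMeasurable
    (Eventually.of_forall fun t => ?_)
  simpa using ngk hT h0 h1 t

theorem s0 {σ : ℝ} (h0 : 0 < σ) (t : ℝ) : (σ : ℂ) + t * I ≠ 0 := fun h => by
  have := congrArg re h
  simp at this
  exact h0.ne' this

theorem cck (T : ℝ) {σ : ℝ} (h0 : 0 < σ) : Continuous (ck T σ) :=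
  (cgk T σ).div (by fun_prop) (s0 h0)

theorem rep {T σ x : ℝ} (hT : 1 ≤ T) (h0 : 0 < σ) (h1 : σ ≤ 1) (hx : 0 < x) :
    (Phi T x : ℂ) = ∫ t : ℝ, ck T σ t * (x : ℂ) ^ (-(σ : ℂ) - t * I) := by
  have e : ∀ t : ℝ, ck T σ t * (x : ℂ) ^ (-(σ : ℂ) - t * I) =
      ∫ v in Set.Ioi (Real.log x), gk T σ t * cexp (-(σ + t * I) * v) := fun t => by
    rw [integral_const_mul, integral_exp_mul_complex_Ioi (by simpa using h0), ck,
      cpow_def_of_ne_zero (ofReal_ne_zero.2 hx.ne'), ← ofReal_log hx.le, neg_div_neg_eq,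
      show (Real.log x : ℂ) * (-(σ : ℂ) - t * I) = -(σ + t * I) * Real.log x by ring]
    ring
  simp only [e]
  have hi : Integrable (Function.uncurry fun t v : ℝ => gk T σ t * cexp (-(σ + t * I) * v))
      (volume.prod (volume.restrict (Set.Ioi (Real.log x)))) := by
    refine ((igk hT h0 h1).norm.mul_prod (integrableOn_exp_mul_Ioi (a := -σ) (by linarith) (Real.log x))).mono'
      (Continuous.aestronglyMeasurable ?_) (Eventually.of_forall fun p => le_of_eq ?_)
    · have := cgk T σ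
      unfold Function.uncurry
      fun_prop
    · simp [Function.uncurry, norm_exp]
  rw [integral_integral_swap hi]
  simp only [gauss (zero_lt_one.trans_le hT)]
  rw [integral_complex_ofReal, integral_const_mul, Phi]

theorem nck {T σ : ℝ} (hT : 1 ≤ T) (h0 : 0 < σ) (h1 : σ ≤ 1) (t : ℝ) :
    ‖ck T σ t‖ ≤ (σ + |t|)⁻¹ * Real.exp (-(t / (2 * T)) ^ 2) := by
  have a : σ ≤ ‖(σ : ℂ) + t * I‖ := by simpa using re_le_norm ((σ : ℂ) + t * I)
  have b : |t| ≤ ‖(σ : ℂ) + t * I‖ := by simpa using abs_im_le_norm ((σ : ℂ) + t * I)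
  have p : 0 < σ + |t| := by positivity
  rw [ck, norm_div]
  refine (div_le_div₀ (by positivity) (ngk hT h0 h1 t) (half_pos p) (by linarith)).trans_eq ?_
  field_simp

theorem lint {σ R : ℝ} (h0 : 0 < σ) (h1 : σ ≤ R) :
    IntegrableOn (fun t : ℝ => (σ + t)⁻¹ - (R + t)⁻¹) (Set.Ioi 0) ∧
    ∫ t in Set.Ioi (0 : ℝ), ((σ + t)⁻¹ - (R + t)⁻¹) = Real.log R - Real.log σ := by
  have d : ∀ t ∈ Set.Ici (0 : ℝ), HasDerivAt (fun t => Real.log (σ + t) - Real.log (R + t))
      ((σ + t)⁻¹ - (R + t)⁻¹) t := fun t ht => by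
    have t0 : 0 ≤ t := ht
    have d1 := ((hasDerivAt_id t).const_add σ).log (show σ + t ≠ 0 by positivity)
    have d2 := ((hasDerivAt_id t).const_add R).log (show R + t ≠ 0 by linarith)
    simp only [id, one_div] at d1 d2
    exact d1.sub d2
  have p : ∀ t ∈ Set.Ioi (0 : ℝ), 0 ≤ (σ + t)⁻¹ - (R + t)⁻¹ := fun t ht => by
    have t0 : 0 < t := ht
    exact sub_nonneg.2 (inv_anti₀ (by positivity) (by linarith))
  have l : Tendsto (fun t => Real.log (σ + t) - Real.log (R + t)) atTop (𝓝 0) := by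
    have a1 : Tendsto (fun t : ℝ => 1 - (R - σ) * (R + t)⁻¹) atTop (𝓝 (1 - (R - σ) * 0)) :=
      tendsto_const_nhds.sub ((tendsto_atTop_add_const_left _ R tendsto_id).inv_tendsto_atTop.const_mul _)
    rw [mul_zero, sub_zero] at a1
    have a2 := a1.log one_ne_zero
    rw [Real.log_one] at a2
    refine a2.congr' ((eventually_gt_atTop 0).mono fun t t0 => ?_)
    have r : R + t ≠ 0 := by linarith
    simp only
    rw [← Real.log_div (by positivity) r]
    congr 1
    field_simp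
    ring
  refine ⟨integrableOn_Ioi_deriv_of_nonneg' d p l, ?_⟩
  rw [integral_Ioi_of_hasDerivAt_of_nonneg' d p l]
  simp

theorem ick {T σ : ℝ} (hT : 1 ≤ T) (h0 : 0 < σ) (h1 : σ ≤ 1) :
    ∫ t, ‖ck T σ t‖ ≤ 8 * (Real.log (2 * T) - Real.log σ) := by
  obtain ⟨i, e⟩ := lint h0 (show σ ≤ 2 * T by linarith)
  have i2 : Integrable fun t : ℝ => (σ + |t|)⁻¹ - (2 * T + |t|)⁻¹ := by
    rw [← integrableOn_univ, ← Set.Iic_union_Ioi (a := (0 : ℝ)), integrableOn_union]
    have i3 : IntegrableOn (fun t : ℝ => (σ + |t|)⁻¹ - (2 * T + |t|)⁻¹) (Set.Ioi 0) :=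
      i.congr_fun (fun t ht => by simp only [abs_of_pos (show 0 < t from ht)]) measurableSet_Ioi
    refine ⟨?_, i3⟩
    rw [← integrableOn_Ici_iff_integrableOn_Ioi] at i3
    have i4 := IntegrableOn.comp_neg_Iic (c := (0 : ℝ)) (μ := volume)
      (f := fun t : ℝ => (σ + |t|)⁻¹ - (2 * T + |t|)⁻¹) (by rwa [neg_zero])
    simpa only [abs_neg] using i4
  have h := integral_mono_of_nonneg (f := fun t => ‖ck T σ t‖) (Eventually.of_forall fun _ => norm_nonneg _)
    (i2.const_mul 4) (Eventually.of_forall fun t => ?_)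
  · rw [integral_const_mul, integral_comp_abs (f := fun t => (σ + t)⁻¹ - (2 * T + t)⁻¹), e] at h
    linarith
  · refine (nck hT h0 h1 t).trans ?_
    have t0 := abs_nonneg t
    have a : Real.exp (-(t / (2 * T)) ^ 2) ≤ 4 * (2 * T - σ) / (2 * T + |t|) := by
      rw [← sq_abs, abs_div, abs_of_pos (show 0 < 2 * T by linarith), Real.exp_neg]
      obtain ⟨a, ha⟩ : ∃ a, |t| = a * (2 * T) := ⟨|t| / (2 * T), by field_simp⟩
      have a0 : 0 ≤ a := by
        by_contra c
        nlinarith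
      rw [ha, mul_div_cancel_right₀ _ (by linarith), inv_eq_one_div,
        div_le_div_iff₀ (Real.exp_pos _) (by positivity)]
      have b := Real.add_one_le_exp (a ^ 2)
      have c : 1 + a ≤ 2 * Real.exp (a ^ 2) := by nlinarith [sq_nonneg (a - 1)]
      nlinarith [mul_le_mul_of_nonneg_left c (show 0 ≤ 2 * T by linarith), Real.exp_pos (a ^ 2)]
    refine (mul_le_mul_of_nonneg_left a (by positivity)).trans_eq ?_
    field_simp
    ring

theorem mom {T σ : ℝ} (hT : 1 ≤ T) (h0 : 0 < σ) (h1 : σ ≤ 1) :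
    Integrable (fun t => ‖ck T σ t‖ * (1 + |t|) ^ 8) ∧
    ∫ t, ‖ck T σ t‖ * (1 + |t|) ^ 8 ≤ 3 * Real.exp 32 * σ⁻¹ * (2 * T) ^ 9 := by
  have R0 : 0 < 2 * T := by linarith
  have i := (gint R0 (show (0 : ℝ) < 1 / 2 by norm_num)).const_mul (Real.exp 32 * σ⁻¹ * (2 * T) ^ 8)
  have b : ∀ t, ‖ck T σ t‖ * (1 + |t|) ^ 8 ≤
      Real.exp 32 * σ⁻¹ * (2 * T) ^ 8 * Real.exp (-(1 / 2 * (t / (2 * T)) ^ 2)) := fun t => by
    have t0 := abs_nonneg t
    have a1 : ‖ck T σ t‖ ≤ σ⁻¹ * Real.exp (-(t / (2 * T)) ^ 2) :=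
      (nck hT h0 h1 t).trans (mul_le_mul_of_nonneg_right (inv_anti₀ h0 (by linarith)) (Real.exp_pos _).le)
    have a2 : 1 + |t| ≤ 2 * T * Real.exp (|t / (2 * T)|) := by
      have := mul_le_mul_of_nonneg_left (Real.add_one_le_exp |t / (2 * T)|) R0.le
      rw [mul_add, abs_div, abs_of_pos R0, mul_div_cancel₀ _ R0.ne'] at this
      rw [abs_div, abs_of_pos R0]
      linarith
    have a3 := pow_le_pow_left₀ (by positivity) a2 8
    rw [mul_pow, ← Real.exp_nat_mul] at a3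
    refine (mul_le_mul a1 a3 (by positivity) (by positivity)).trans ?_
    have a4 : Real.exp (-(t / (2 * T)) ^ 2) * Real.exp ((8 : ℕ) * |t / (2 * T)|) ≤
        Real.exp 32 * Real.exp (-(1 / 2 * (t / (2 * T)) ^ 2)) := by
      rw [← Real.exp_add, ← Real.exp_add, Real.exp_le_exp, ← sq_abs (t / (2 * T))]
      push_cast
      nlinarith [sq_nonneg (|t / (2 * T)| - 8)]
    have := mul_le_mul_of_nonneg_left a4 (show 0 ≤ σ⁻¹ * (2 * T) ^ 8 by positivity)
    nlinarith
  have c : Continuous fun t => ‖ck T σ t‖ * (1 + |t|) ^ 8 := (cck T h0).norm.mul (by fun_prop)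
  refine ⟨i.mono' c.aestronglyMeasurable (Eventually.of_forall fun t => ?_), ?_⟩
  · rw [Real.norm_of_nonneg (by positivity)]; exact b t
  · refine (integral_mono_of_nonneg (Eventually.of_forall fun t => by positivity) i
      (Eventually.of_forall b)).trans ?_
    have e : ∀ t : ℝ, -(1 / 2 * (t / (2 * T)) ^ 2) = -(1 / 2 / (2 * T) ^ 2) * t ^ 2 := fun t => by
      field_simp
    simp only [e]
    rw [integral_const_mul, integral_gaussian]
    have s : Real.sqrt (Real.pi / (1 / 2 / (2 * T) ^ 2)) ≤ 3 * (2 * T) := by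
      refine Real.sqrt_le_iff.2 ⟨by positivity, ?_⟩
      rw [div_le_iff₀ (by positivity)]
      have : (3 * (2 * T)) ^ 2 * (1 / 2 / (2 * T) ^ 2) = 9 / 2 := by field_simp; norm_num
      linarith [Real.pi_lt_four]
    refine (mul_le_mul_of_nonneg_left s (by positivity)).trans_eq ?_
    ring

end WTM

open WTM in
theorem wtS (hP : PHStmt) : WTStmt := by
  refine ⟨816, ?_⟩
  have hl : Tendsto M.ll atTop atTop := Real.tendsto_log_atTop.comp Real.tendsto_log_atTop
  filter_upwards [eventually_gt_atTop 0, hl.eventually_ge_atTop 1000,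
    Real.tendsto_log_atTop.eventually_ge_atTop 10] with X X0 h1 h2
  set L := Real.log X with hL
  have eL : Real.log L = M.ll X := rfl
  have L0 : 0 < L := by linarith
  have L1 : 1 ≤ L := by linarith
  have hT : 1 ≤ L ^ 100 := one_le_pow₀ L1
  have s0 : 0 < L⁻¹ := inv_pos.2 L0
  have s1 : L⁻¹ ≤ 1 := inv_le_one_of_one_le₀ L1
  obtain ⟨m1, m2⟩ := mom hT s0 s1
  refine ⟨⟨ck (L ^ 100) L⁻¹, m1.mono' (cck _ s0).aestronglyMeasurable (Eventually.of_forall fun t => ?_), m1,
    fun x hx => rep hT s0 s1 hx, (ick hT s0 s1).trans ?_, m2.trans ?_⟩, fun x hx => ?_, fun x hx => ?_⟩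
  · exact le_mul_of_one_le_right (norm_nonneg _) (one_le_pow₀ (by linarith [abs_nonneg t]))
  · rw [Real.log_mul two_ne_zero (by positivity), Real.log_pow, Real.log_inv, eL]
    push_cast
    linarith [Real.log_two_lt_d9]
  · have e : L = Real.exp (M.ll X) := by rw [← eL, Real.exp_log L0]
    have a : 3 * Real.exp 32 * L⁻¹⁻¹ * (2 * L ^ 100) ^ 9 = 1536 * Real.exp 32 * L ^ 901 := by
      rw [inv_inv]; ring
    have b : (1536 : ℝ) ≤ Real.exp 1536 := by linarith [Real.add_one_le_exp 1536]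
    rw [a, e, ← Real.exp_nat_mul, M.LL]
    refine (mul_le_mul_of_nonneg_right (mul_le_mul_of_nonneg_right b (Real.exp_pos _).le)
      (Real.exp_pos _).le).trans ?_
    rw [← Real.exp_add, ← Real.exp_add, Real.exp_le_exp]
    push_cast
    nlinarith
  · have h := hP.1 (L ^ 100) x (by linarith) hx
    have b : Real.exp (-(L ^ 100 * Real.log x) ^ 2) ≤ 1 := Real.exp_le_one_iff.2 (neg_nonpos.2 (sq_nonneg _))
    rw [norm_real, Real.norm_eq_abs, abs_le]
    rw [abs_le] at h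
    split_ifs at h <;> constructor <;> linarith [h.1, h.2]
  · have x0 : 0 < x := by linarith
    have h := hP.1 (L ^ 100) x (by linarith) x0
    rw [if_neg (by linarith), zero_sub, abs_neg] at h
    rw [norm_real, Real.norm_eq_abs, Real.rpow_def_of_pos X0, Real.rpow_def_of_pos x0, ← Real.exp_add, ← hL]
    refine h.trans ((half_le_self (Real.exp_pos _).le).trans (Real.exp_le_exp.2 ?_))
    have y : 1 / 2 ≤ Real.log x := le_trans (by linarith [Real.log_two_gt_d9]) (Real.log_le_log two_pos hx)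
    have t : L ^ 2 ≤ L ^ 100 := pow_le_pow_right₀ L1 (by norm_num)
    have t2 : 1000 * L ≤ (L ^ 100) ^ 2 := by
      have : L ^ 2 * L ^ 2 ≤ (L ^ 100) ^ 2 := by
        rw [sq (L ^ 100)]; exact mul_le_mul t t (by positivity) (by positivity)
      have u : 100 ≤ L ^ 2 := by nlinarith
      have v : 10 * L ≤ L ^ 2 := by nlinarith
      nlinarith
    rw [mul_pow]
    generalize (L ^ 100) ^ 2 = W at t2
    have y2 : Real.log x / 2 ≤ Real.log x ^ 2 := by nlinarith
    have w : 1000 * L * (Real.log x / 2) ≤ W * Real.log x ^ 2 :=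
      mul_le_mul t2 y2 (by linarith) (by linarith)
    nlinarith

end Vale.Agent.P006.S
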